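import Crest.Agent.N207.Sk.Dyn

/-!
# Row 207 (helper36): block TOP, internal statements

* `NVLo`, `NVUp`, `NV` (on `HC`): two volume facts about concentration points (they use `Γ ≠ 1`);
* `TRK` (on `HC`): cluster tracking;
* `PERS`, `CURV`, `GLUE`: persistence of jets, curvature from jets, gluing of two necks.
-/

set_option autoImplicit false
set_option linter.unusedSectionVars false

open scoped ContDiff Manifold Topology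
open Set MeasureTheory Filter
open Crest.GeometryTopology.CoordMetric Crest.GeometryTopology.ChartCurvature
  Crest.GeometryTopology.MetricFamily

noncomputable section

namespace Crest.Agent.N207.T

open Sk

section HC

variable {M : Type*} [TopologicalSpace M] [MeasurableSpace M] (H : HC M)

/-- a cap `Ω` of radius `ρ` at `w`: from every point `y` outside the cap, a set of volume at least
`v (θ ρ)⁴` can be reached outside the cap by paths of length `θ ρ` -/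
structure Cap (t : ℝ) (w : M) (ρ θ v : ℝ) (Ω : Set M) : Prop where
  lo : H.B t w (ρ / 2) ⊆ Ω
  hi : Ω ⊆ H.B t w (2 * ρ)
  big : ∀ y ∈ H.B t w (4 * ρ), y ∉ Ω → ∃ S : Set M, S ⊆ H.B t w (8 * ρ) \ Ω ∧
    v * (θ * ρ) ^ 4 ≤ (H.vol t).real S ∧ ∀ u : M → ℝ, H.S0 u → ∀ Λ : ℝ, 0 ≤ Λ →
      (∀ x ∈ H.B t w (8 * ρ), x ∉ Ω → H.gam t u u x ≤ Λ ^ 2) →
      ∀ x ∈ S, |u x - u y| ≤ Λ * (θ * ρ)

/-- caps exist away from the bad scales -/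
def NVLo (ε θ v : ℝ) : Prop :=
  ∃ (K r1 : ℝ) (n0 : ℕ), 1 ≤ K ∧ 0 < r1 ∧ ∀ t ∈ Ico (H.T / 2) H.T, ∀ w : M, ∃ Bad : Finset ℤ,
    Bad.card ≤ n0 ∧ ∀ ρ : ℝ, 0 < ρ → K * ρ ≤ r1 →
      (∀ j ∈ Bad, (2 : ℝ) ^ j < ρ / K ∨ K * ρ < (2 : ℝ) ^ j) → ε ≤ H.en t w (ρ / K) →
      ∃ Ω : Set M, Cap H t w ρ θ v Ω

/-- the volume ratio at a concentration point with a regular annulus around it -/
def NVUp (ε θ v : ℝ) : Prop :=
  ∃ εU β r1 : ℝ, 0 < εU ∧ 0 < β ∧ β ≤ 1 ∧ 0 < r1 ∧ ∀ t ∈ Ico (H.T / 2) H.T, ∀ (y : M) (ρ : ℝ),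
    0 < ρ → ρ ≤ r1 → ε ≤ H.en t y (β * ρ) → H.en t y (4 * ρ) ≤ H.en t y (β * ρ) + εU →
    ∀ r ∈ Icc (θ * ρ) (2 * (θ * ρ)), (H.vol t).real (H.B t y r) ≤ v * r ^ 4

/-- the two volume facts -/
def NV : Prop :=
  ∀ ε : ℝ, 0 < ε → ∃ θ v1 v2 : ℝ, 0 < θ ∧ θ ≤ 1 ∧ 0 < v1 ∧ v1 < v2 ∧
    NVLo H ε θ v2 ∧ NVUp H ε θ v1

/-- at time `t`, the energy in `B t x R`, `x ∈ U`, concentrates only near `B t z a` -/
def Conc (t : ℝ) (U : Set M) (z : M) (a R ε : ℝ) : Prop :=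
  ∀ x ∈ U, ∀ y ∈ H.B t x R, ∀ r : ℝ, 0 < r → r ≤ R → ε < H.en t y r → H.d t z y < 2 * r + a


end HC

variable {M : Type*} [TopologicalSpace M] [ChartedSpace E4 M] [IsManifold 𝓘(ℝ, E4) ∞ M]
  [T3Space M] [ConnectedSpace M] [MeasurableSpace M] [BorelSpace M]

/-- persistence of the jets of the metric in a fixed chart, in both time directions: pointwise -/
def PERS (F : Flow M) : Prop :=
  ∀ Cs B : ℕ → ℝ, ∃ (δ : ℝ) (Cp : ℕ → ℝ), 0 < δ ∧ (∀ k, 0 < Cp k) ∧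
    ∀ (m : ℕ) (Ψ : E4 → M) (U : Set E4) (x : E4) (r t0 t1 : ℝ) (ζ : ℝ → ℝ), Par Ψ U → x ∈ U →
      0 < r → uIcc t0 t1 ⊆ Ioo 0 F.T → JG 0 ((F.m t0).pm Ψ) x r (1 / 100) →
      (∀ k ≤ m, ∀ i j, J1 k (dv ((F.m t0).pm Ψ) i j) x r (Cs k)) →
      ContinuousOn ζ (uIcc t0 t1) → (∀ s ∈ uIcc t0 t1, 0 ≤ ζ s) →
      (∀ s ∈ Ioo (min t0 t1) (max t0 t1), ∀ k ≤ m, r ^ k * √((F.m s).rc k (Ψ x)) ≤ B k * ζ s) →
      |∫ s in t0..t1, ζ s| ≤ δ → ∀ k ≤ m, ∀ i j,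
        J1 k (fun y => (F.m t1).pm Ψ y i j - (F.m t0).pm Ψ y i j) x r
          (Cp k * |∫ s in t0..t1, ζ s|)

/-- curvature from the jets of the metric in a chart -/
def CURV (M : Type*) [TopologicalSpace M] [ChartedSpace E4 M] [IsManifold 𝓘(ℝ, E4) ∞ M] : Prop :=
  ∃ C : ℝ, 0 < C ∧ ∀ (g : Met 4 M) (Ψ : E4 → M) (U : Set E4) (x : E4) (r δ : ℝ), Par Ψ U → x ∈ U →
    0 < r → 0 ≤ δ → δ ≤ 1 / 100 → JG 2 (g.pm Ψ) x r δ → g.rm 0 (Ψ x) ≤ C * δ ^ 2 / r ^ 4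

/-- gluing of an inner neck `N` to an outer neck `N'` -/
def GLUE (M : Type*) [TopologicalSpace M] [ChartedSpace E4 M] [IsManifold 𝓘(ℝ, E4) ∞ M]
    [T3Space M] [ConnectedSpace M] [MeasurableSpace M] [BorelSpace M] : Prop :=
  ∃ η0 C : ℝ, 0 < η0 ∧ 1 ≤ C ∧ ∀ (g : Met 4 M) (N N' : Nk M) (V V' δ r1 r2 : ℝ), N.Top → N'.Top →
    0 ≤ δ → δ ≤ η0 → Rough g N 2 δ V → Rough g N' 2 δ V' → 2 * N.a ≤ r1 → 2 * N'.a ≤ r1 →
    r2 ≤ N.b → r2 ≤ N'.b → 64 * r1 ≤ r2 → Cmp N N' r1 r2 →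
    ∃ N'' : Nk M, N''.Top ∧ N''.a = N.a ∧ N''.b = N'.b ∧ N''.In = N.In ∧
      Rough g N'' 2 (C * δ) V ∧ ∀ r ∈ Icc r2 N'.b, N''.Om r = N'.Om r

end Crest.Agent.N207.T

end
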