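import Crest.Agent.N207.F.Tm1
import Crest.Agent.N207.A.Arr
import Crest.Agent.N207.A.Co3
import Crest.Agent.N207.T.Defs
import Crest.Agent.N207.AI.Par2
import Crest.Agent.N207.Rad.Crd

-- ▼ part N207/T/Pers1
section

/-!
# Row 207 (helper7): uniformly bounded jets at one point, linear ODEs in time with a weight
-/

set_option autoImplicit false

open Set Metric Filter Topology MeasureTheory
open scoped ContDiff BigOperators
open Crest.GeometryTopology.CoordMetric

noncomputable section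

namespace Crest.Agent.N207.Pw

/-- a point of an open set, and a scale -/
structure Pt (n : ℕ) where
  U : Set (En n)
  x : En n
  ρ : ℝ
  op : IsOpen U
  mem : x ∈ U
  pos : 0 < ρ

variable {n : ℕ}

/-- smooth on the open set -/
abbrev Sm (r : Pt n) (f : En n → ℝ) : Prop := ContDiffOn ℝ ∞ f r.U

theorem Sm.cda {r : Pt n} {f : En n → ℝ} (hf : Sm r f) {x : En n} (hx : x ∈ r.U) :
    ContDiffAt ℝ ∞ f x := hf.contDiffAt (r.op.mem_nhds hx)

theorem Sm.da {r : Pt n} {f : En n → ℝ} (hf : Sm r f) {x : En n} (hx : x ∈ r.U) :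
    DifferentiableAt ℝ f x := (hf.cda hx).differentiableAt (by simp)

theorem Sm.pd {r : Pt n} {f : En n → ℝ} (hf : Sm r f) (k : Fin n) : Sm r (pderiv k f) := by
  have h : ContDiffOn ℝ ∞ (fderiv ℝ f) r.U := hf.fderiv_of_isOpen r.op (by simp)
  exact h.clm_apply contDiffOn_const

theorem pderiv_congr {r : Pt n} {f g : En n → ℝ} (h : EqOn f g r.U) (k : Fin n) :
    EqOn (pderiv k f) (pderiv k g) r.U := by
  intro x hx
  have : f =ᶠ[𝓝 x] g := h.eventuallyEq_of_mem (r.op.mem_nhds hx)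
  simp only [pderiv, this.fderiv_eq]

variable {ι : Type*} (r : ι → Pt n)

/-- smooth, uniformly bounded at the points -/
def B0 (f : ι → En n → ℝ) : Prop := (∀ i, Sm (r i) (f i)) ∧ ∃ C : ℝ, ∀ i, |f i (r i).x| ≤ C

/-- scale invariant partial derivative -/
def D (k : Fin n) (f : ι → En n → ℝ) : ι → En n → ℝ := fun i x => (r i).ρ * pderiv k (f i) x

/-- smooth with scale invariant derivatives of order `≤ m` uniformly bounded at the points -/
def Bd : ℕ → (ι → En n → ℝ) → Prop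
  | 0, f => B0 r f
  | m + 1, f => B0 r f ∧ ∀ k, Bd m (D r k f)

variable {r}

theorem Bd.zero {m : ℕ} {f : ι → En n → ℝ} (h : Bd r m f) : Bd r 0 f := by
  cases m with
  | zero => exact h
  | succ m => exact h.1

theorem Bd.sm {m : ℕ} {f : ι → En n → ℝ} (h : Bd r m f) (i : ι) : Sm (r i) (f i) := h.zero.1 i

theorem Bd.pred {m : ℕ} : ∀ {f : ι → En n → ℝ}, Bd r (m + 1) f → Bd r m f := by
  induction m with
  | zero => exact fun h => h.zero
  | succ m ih => exact fun h => ⟨h.1, fun k => ih (h.2 k)⟩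

theorem Bd.mono {m m' : ℕ} {f : ι → En n → ℝ} (h : Bd r m' f) (hm : m ≤ m') : Bd r m f := by
  induction hm with
  | refl => exact h
  | step _ ih => exact ih h.pred

theorem Bd.congr {m : ℕ} : ∀ {f g : ι → En n → ℝ}, Bd r m f →
    (∀ i, EqOn (g i) (f i) (r i).U) → Bd r m g := by
  have h0 : ∀ {f g : ι → En n → ℝ}, Bd r 0 f → (∀ i, EqOn (g i) (f i) (r i).U) → Bd r 0 g := by
    intro f g hf h
    obtain ⟨C, hC⟩ := hf.2
    exact ⟨fun i => (hf.1 i).congr (h i), C, fun i => by rw [h i (r i).mem]; exact hC i⟩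
  induction m with
  | zero => exact h0
  | succ m ih =>
    intro f g hf h
    refine ⟨h0 hf.1 h, fun k => ih (hf.2 k) fun i x hx => ?_⟩
    simp only [D, pderiv_congr (h i) k hx]

theorem Bd.add {m : ℕ} : ∀ {f g : ι → En n → ℝ}, Bd r m f → Bd r m g →
    Bd r m (fun i x => f i x + g i x) := by
  have h0 : ∀ {f g : ι → En n → ℝ}, Bd r 0 f → Bd r 0 g → Bd r 0 (fun i x => f i x + g i x) := by
    intro f g hf hg
    obtain ⟨C, hC⟩ := hf.2
    obtain ⟨C', hC'⟩ := hg.2
    exact ⟨fun i => (hf.1 i).add (hg.1 i), C + C', fun i =>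
      (abs_add_le _ _).trans (add_le_add (hC i) (hC' i))⟩
  induction m with
  | zero => exact h0
  | succ m ih =>
    intro f g hf hg
    refine ⟨h0 hf.1 hg.1, fun k => (ih (hf.2 k) (hg.2 k)).congr fun i x hx => ?_⟩
    simp only [D, F.pd_add ((hf.sm i).da hx) ((hg.sm i).da hx)]
    ring

theorem Bd.mul {m : ℕ} : ∀ {f g : ι → En n → ℝ}, Bd r m f → Bd r m g →
    Bd r m (fun i x => f i x * g i x) := by
  have h0 : ∀ {f g : ι → En n → ℝ}, Bd r 0 f → Bd r 0 g → Bd r 0 (fun i x => f i x * g i x) := by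
    intro f g hf hg
    obtain ⟨C, hC⟩ := hf.2
    obtain ⟨C', hC'⟩ := hg.2
    refine ⟨fun i => (hf.1 i).mul (hg.1 i), C * C', fun i => ?_⟩
    rw [abs_mul]
    exact mul_le_mul (hC i) (hC' i) (abs_nonneg _) ((abs_nonneg _).trans (hC i))
  induction m with
  | zero => exact h0
  | succ m ih =>
    intro f g hf hg
    refine ⟨h0 hf.1 hg.1, fun k =>
      ((ih (hf.2 k) hg.pred).add (ih hf.pred (hg.2 k))).congr fun i x hx => ?_⟩
    simp only [D, F.pd_mul ((hf.sm i).da hx) ((hg.sm i).da hx)]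
    ring

theorem Bd.const {m : ℕ} : ∀ {c : ι → ℝ}, (∃ C, ∀ i, |c i| ≤ C) →
    Bd r m (fun i (_ : En n) => c i) := by
  have h0 : ∀ {c : ι → ℝ}, (∃ C, ∀ i, |c i| ≤ C) → Bd r 0 (fun i (_ : En n) => c i) :=
    fun ⟨C, hC⟩ => ⟨fun _ => contDiffOn_const, C, hC⟩
  induction m with
  | zero => exact h0
  | succ m ih =>
    intro c hc
    refine ⟨h0 hc, fun k => (ih (c := fun _ => 0) ⟨0, by simp⟩).congr fun i x _ => ?_⟩
    simp only [D, F.pd_const, mul_zero]

theorem Bd.const' {m : ℕ} (c : ℝ) : Bd r m (fun _ (_ : En n) => c) :=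
  Bd.const ⟨|c|, fun _ => le_rfl⟩

theorem Bd.neg {m : ℕ} {f : ι → En n → ℝ} (hf : Bd r m f) : Bd r m (fun i x => -f i x) :=
  ((Bd.const' (-1)).mul hf).congr fun i x _ => by simp

theorem Bd.sub {m : ℕ} {f g : ι → En n → ℝ} (hf : Bd r m f) (hg : Bd r m g) :
    Bd r m (fun i x => f i x - g i x) :=
  (hf.add hg.neg).congr fun i x _ => by simp [sub_eq_add_neg]

theorem Bd.sum {m : ℕ} {κ : Type*} (s : Finset κ) {f : κ → ι → En n → ℝ}
    (hf : ∀ a ∈ s, Bd r m (f a)) : Bd r m (fun i x => ∑ a ∈ s, f a i x) := by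
  classical
  induction s using Finset.induction_on with
  | empty => simpa using Bd.const' 0
  | insert a s ha ih =>
    simp only [Finset.sum_insert ha]
    exact (hf a (Finset.mem_insert_self _ _)).add
      (ih fun b hb => hf b (Finset.mem_insert_of_mem hb))

theorem exists_b0 {κ : Type*} [Fintype κ] {f : κ → ι → En n → ℝ} (hf : ∀ a, Bd r 0 (f a)) :
    ∃ F, 0 ≤ F ∧ ∀ a i, |f a i (r i).x| ≤ F := by
  choose C hC using fun a => (hf a).2
  refine ⟨∑ a, |C a|, by positivity, fun a i => (hC a i).trans ?_⟩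
  exact (le_abs_self _).trans
    (Finset.single_le_sum (f := fun a => |C a|) (fun _ _ => abs_nonneg _) (Finset.mem_univ a))

theorem jet_succ_le {ρ : Pt n} {f : En n → ℝ} (hf : Sm ρ f) {x : En n} (hx : x ∈ ρ.U) (m : ℕ) :
    ‖iteratedFDeriv ℝ (m + 1) f x‖ ≤ ∑ k, ‖iteratedFDeriv ℝ m (pderiv k f) x‖ := by
  rw [← norm_iteratedFDeriv_fderiv]
  set P : Fin n → ℝ →L[ℝ] (En n →L[ℝ] ℝ) := fun k =>
    ContinuousLinearMap.toSpanSingleton ℝ (EuclideanSpace.proj k : En n →L[ℝ] ℝ) with hP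
  have e : fderiv ℝ f = fun y => ∑ k, (P k ∘ pderiv k f) y := by
    funext y
    ext v
    rw [F.fderiv_eq_sum]
    simp [hP, mul_comm]
  have hc : ∀ k, ContDiffAt ℝ m (pderiv k f) x := fun k =>
    ((hf.pd k).cda hx).of_le (by exact_mod_cast le_top)
  rw [e, iteratedFDeriv_fun_sum_apply (fun k _ => (P k).contDiff.contDiffAt.comp x (hc k))]
  refine (norm_sum_le _ _).trans (Finset.sum_le_sum fun k _ => ?_)
  refine ((P k).norm_iteratedFDeriv_comp_left (hc k) le_rfl).trans ?_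
  refine mul_le_of_le_one_left (norm_nonneg _) ?_
  rw [hP, ContinuousLinearMap.norm_toSpanSingleton]
  refine ContinuousLinearMap.opNorm_le_bound _ zero_le_one fun v => ?_
  simpa using PiLp.norm_apply_le v k

theorem jet_pd_le {ρ : Pt n} {f : En n → ℝ} (hf : Sm ρ f) {x : En n} (hx : x ∈ ρ.U) (m : ℕ)
    (k : Fin n) :
    ‖iteratedFDeriv ℝ m (pderiv k f) x‖ ≤ ‖iteratedFDeriv ℝ (m + 1) f x‖ := by
  rw [← norm_iteratedFDeriv_fderiv]
  have hc : ContDiffAt ℝ m (fderiv ℝ f) x :=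
    (hf.cda hx).fderiv_right (by exact_mod_cast le_top)
  set L : (En n →L[ℝ] ℝ) →L[ℝ] ℝ := ContinuousLinearMap.apply ℝ ℝ (EuclideanSpace.single k 1)
  have e : pderiv k f = L ∘ fderiv ℝ f := rfl
  rw [e]
  refine (L.norm_iteratedFDeriv_comp_left hc le_rfl).trans ?_
  refine mul_le_of_le_one_left (norm_nonneg _) ?_
  refine ContinuousLinearMap.opNorm_le_bound _ zero_le_one fun φ => ?_
  simpa [L] using φ.le_opNorm (EuclideanSpace.single k 1)

theorem jet_D {f : ι → En n → ℝ} {i : ι} (hs : Sm (r i) (f i)) (j : ℕ) (k : Fin n) :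
    ‖iteratedFDeriv ℝ j (D r k f i) (r i).x‖ =
      (r i).ρ * ‖iteratedFDeriv ℝ j (pderiv k (f i)) (r i).x‖ := by
  have hc : ContDiffAt ℝ j (pderiv k (f i)) (r i).x :=
    ((hs.pd k).cda (r i).mem).of_le (by exact_mod_cast le_top)
  have : iteratedFDeriv ℝ j (D r k f i) (r i).x =
      (r i).ρ • iteratedFDeriv ℝ j (pderiv k (f i)) (r i).x :=
    iteratedFDeriv_const_smul_apply' (a := (r i).ρ) hc
  rw [this, norm_smul, Real.norm_of_nonneg (r i).pos.le]

theorem Bd.to_jet (m : ℕ) : ∀ {f : ι → En n → ℝ}, Bd r m f →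
    ∃ C, 0 ≤ C ∧ ∀ i, ‖iteratedFDeriv ℝ m (f i) (r i).x‖ * (r i).ρ ^ m ≤ C := by
  induction m with
  | zero =>
    intro f hf
    obtain ⟨C, hC⟩ := hf.2
    exact ⟨|C|, abs_nonneg _, fun i => by
      simpa [norm_iteratedFDeriv_zero] using (hC i).trans (le_abs_self C)⟩
  | succ m ih =>
    intro f hf
    choose C hC0 hC using fun k => ih (hf.2 k)
    refine ⟨∑ k, C k, Finset.sum_nonneg fun k _ => hC0 k, fun i => ?_⟩
    refine (mul_le_mul_of_nonneg_right (jet_succ_le (hf.sm i) (r i).mem m)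
      (pow_nonneg (r i).pos.le _)).trans ?_
    rw [Finset.sum_mul]
    refine Finset.sum_le_sum fun k _ => le_trans (le_of_eq ?_) (hC k i)
    rw [jet_D (hf.sm i)]
    ring

theorem Bd.of_jets (m : ℕ) : ∀ {f : ι → En n → ℝ}, (∀ i, Sm (r i) (f i)) →
    (∀ j ≤ m, ∃ C, ∀ i, ‖iteratedFDeriv ℝ j (f i) (r i).x‖ * (r i).ρ ^ j ≤ C) → Bd r m f := by
  have h0 : ∀ {f : ι → En n → ℝ}, (∀ i, Sm (r i) (f i)) →
      (∃ C, ∀ i, ‖iteratedFDeriv ℝ 0 (f i) (r i).x‖ * (r i).ρ ^ 0 ≤ C) → Bd r 0 f :=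
    fun hs ⟨C, hC⟩ => ⟨hs, C, fun i => by simpa using hC i⟩
  induction m with
  | zero => exact fun hs h => h0 hs (h 0 le_rfl)
  | succ m ih =>
    intro f hs h
    refine ⟨h0 hs (h 0 (Nat.zero_le _)), fun k => ih
      (fun i => contDiffOn_const.mul ((hs i).pd k)) fun j hj => ?_⟩
    obtain ⟨C, hC⟩ := h (j + 1) (by omega)
    refine ⟨C, fun i => le_trans ?_ (hC i)⟩
    have hρ := (r i).pos
    rw [jet_D (hs i), pow_succ, mul_comm (r i).ρ, mul_assoc, mul_comm (r i).ρ]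
    gcongr
    exact jet_pd_le (hs i) (r i).mem j k

/-- two-sided Grönwall estimate with a positive weight of total mass at most one -/
theorem wgron {V : Type*} [NormedAddCommGroup V] [NormedSpace ℝ V] {v v' : ℝ → V} {w : ℝ → ℝ}
    {a b K F δ : ℝ} (hK : 0 ≤ K) (hF : 0 ≤ F) (hw : ContinuousOn w (uIcc a b))
    (hw0 : ∀ s ∈ uIcc a b, 0 < w s) (hw1 : |∫ s in a..b, w s| ≤ 1)
    (hd : ∀ s ∈ uIcc a b, HasDerivAt v (v' s) s)
    (hb : ∀ s ∈ uIcc a b, ‖v' s‖ ≤ w s * (K * ‖v s‖ + F)) (h0 : ‖v a‖ ≤ δ) :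
    ‖v b‖ ≤ (δ + F + 1) * Real.exp (K + 1) := by
  have hδ : 0 ≤ δ := (norm_nonneg _).trans h0
  rcases eq_or_ne a b with rfl | hab
  · nlinarith [Real.one_le_exp (by linarith : 0 ≤ K + 1)]
  have hab' : 0 < |b - a| := abs_pos.2 (sub_ne_zero.2 hab.symm)
  have hm : ∀ σ ∈ Icc (0 : ℝ) 1, a + σ * (b - a) ∈ uIcc a b := by
    intro σ hσ
    have := (convex_uIcc a b).add_smul_sub_mem left_mem_uIcc right_mem_uIcc hσ
    simpa using this
  have hl : ∀ σ : ℝ, HasDerivAt (fun σ : ℝ => a + σ * (b - a)) (b - a) σ := fun σ => by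
    simpa using ((hasDerivAt_id σ).mul_const (b - a)).const_add a
  set p : ℝ → ℝ := fun σ => projIcc 0 1 zero_le_one σ with hp
  have hpc : Continuous p := continuous_subtype_val.comp continuous_projIcc
  have hpm : ∀ σ, p σ ∈ Icc (0 : ℝ) 1 := fun σ => (projIcc 0 1 zero_le_one σ).2
  have hpe : ∀ σ ∈ Icc (0 : ℝ) 1, p σ = σ := fun σ hσ => by
    simp only [hp, projIcc_of_mem zero_le_one hσ]
  set W : ℝ → ℝ := fun σ => |b - a| * w (a + p σ * (b - a)) with hW
  have hWc : Continuous W := continuous_const.mul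
    (hw.comp_continuous (by fun_prop) fun σ => hm _ (hpm σ))
  have hW0 : ∀ σ, 0 < W σ := fun σ => mul_pos hab' (hw0 _ (hm _ (hpm σ)))
  set Z : ℝ → ℝ := fun σ => ∫ u in (0 : ℝ)..σ, W u with hZ
  have hZd : ∀ σ, HasDerivAt Z (W σ) σ := fun σ =>
    intervalIntegral.integral_hasDerivAt_right (hWc.intervalIntegrable _ _)
      (hWc.stronglyMeasurableAtFilter _ _) hWc.continuousAt
  have hZ0 : ∀ σ, 0 ≤ σ → 0 ≤ Z σ := fun σ hσ =>
    intervalIntegral.integral_nonneg hσ fun u _ => (hW0 u).le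
  have hZ1 : Z 1 ≤ 1 := by
    have h1 : Z 1 = |b - a| * ∫ u in (0 : ℝ)..1, w ((b - a) * u + a) := by
      rw [← intervalIntegral.integral_const_mul]
      refine intervalIntegral.integral_congr fun u hu => ?_
      rw [uIcc_of_le zero_le_one] at hu
      simp only [hW, hpe u hu]
      ring_nf
    have h2 := intervalIntegral.smul_integral_comp_mul_add (a := 0) (b := 1) w (b - a) a
    simp only [mul_zero, zero_add, mul_one, sub_add_cancel, smul_eq_mul] at h2
    rw [← h2, abs_mul] at hw1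
    rw [h1]
    exact (mul_le_mul_of_nonneg_left (le_abs_self _) hab'.le).trans hw1
  have h := image_norm_le_of_norm_deriv_right_lt_deriv_boundary (a := 0) (b := 1)
    (f := fun σ => v (a + σ * (b - a))) (f' := fun σ => (b - a) • v' (a + σ * (b - a)))
    (fun σ hσ => ((hd _ (hm σ hσ)).scomp σ (hl σ)).continuousAt.continuousWithinAt)
    (fun σ hσ => ((hd _ (hm σ (Ico_subset_Icc_self hσ))).scomp σ (hl σ)).hasDerivWithinAt)
    (B := fun σ => (δ + F + 1) * Real.exp ((K + 1) * Z σ))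
    (B' := fun σ => (δ + F + 1) * (Real.exp ((K + 1) * Z σ) * ((K + 1) * W σ)))
    (by simp only [hZ, intervalIntegral.integral_same, mul_zero, Real.exp_zero, zero_mul,
      add_zero]; linarith)
    (fun σ => (((hZd σ).const_mul (K + 1)).exp).const_mul _)
    (by
      intro σ hσ he
      have hσ' := Ico_subset_Icc_self hσ
      have h1 := hb _ (hm σ hσ')
      have h2 : 1 ≤ Real.exp ((K + 1) * Z σ) :=
        Real.one_le_exp (mul_nonneg (by linarith) (hZ0 σ hσ.1))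
      have h3 : W σ = |b - a| * w (a + σ * (b - a)) := by simp only [hW, hpe σ hσ']
      rw [norm_smul, Real.norm_eq_abs]
      have h4 : F < (δ + F + 1) * Real.exp ((K + 1) * Z σ) := by nlinarith
      calc |b - a| * ‖v' (a + σ * (b - a))‖
          ≤ W σ * (K * ((δ + F + 1) * Real.exp ((K + 1) * Z σ)) + F) := by
            rw [h3, mul_assoc, ← he]; gcongr
        _ < W σ * (K * ((δ + F + 1) * Real.exp ((K + 1) * Z σ)) +
              (δ + F + 1) * Real.exp ((K + 1) * Z σ)) := by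
            have := hW0 σ
            gcongr
        _ = _ := by ring) (x := 1) ⟨zero_le_one, le_rfl⟩
  simp only [one_mul, add_sub_cancel] at h
  refine h.trans ?_
  gcongr
  nlinarith

end Crest.Agent.N207.Pw
end
end

-- ▼ part N207/T/Pers2
section

/-!
# Row 207 (helper7): persistence of the jets of a Ricci flow at one point of a chart
-/

set_option autoImplicit false

open Set Metric Filter Topology Function MeasureTheory
open scoped ContDiff BigOperators
open Crest.GeometryTopology.CoordMetric Crest.GeometryTopology.ChartCurvature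
open Crest.Agent.R202.Tens Crest.Agent.N207.AI

noncomputable section

namespace Crest.Agent.N207.Pw

variable {n : ℕ} {ι : Type*}

/-- time windows with a weight of mass at most one -/
structure Win (t s : ι → ℝ) (w : ι → ℝ → ℝ) (J : ι → Set ℝ) : Prop where
  op : ∀ i, IsOpen (J i)
  sub : ∀ i, uIcc (t i) (s i) ⊆ J i
  wc : ∀ i, ContinuousOn (w i) (uIcc (t i) (s i))
  w0 : ∀ i, ∀ σ ∈ uIcc (t i) (s i), 0 < w i σ
  w1 : ∀ i, |∫ σ in t i..s i, w i σ| ≤ 1

variable {r : ι → Pt n} {t s : ι → ℝ} {w : ι → ℝ → ℝ} {J : ι → Set ℝ}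

theorem Win.w1' (W : Win t s w J) (i : ι) {a b : ℝ} (ha : a ∈ uIcc (t i) (s i))
    (hb : b ∈ uIcc (t i) (s i)) : |∫ σ in a..b, w i σ| ≤ 1 := by
  refine le_trans (intervalIntegral.abs_integral_mono_interval
    (uIoc_subset_uIoc_of_uIcc_subset_uIcc (uIcc_subset_uIcc ha hb)) ?_
    (W.wc i).intervalIntegrable) (W.w1 i)
  filter_upwards [ae_restrict_mem measurableSet_uIoc] with σ hσ
  exact (W.w0 i σ (uIoc_subset_uIcc hσ)).le

/-- **linear ODEs in time.** -/
theorem Bd.tode (W : Win t s w J) {κ Q : Type*} [Fintype κ] [Fintype Q] (π : κ → Q → κ)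
    {C : κ → Q → ι → ℝ → En n → ℝ} (m : ℕ) : ∀ {u f : κ → ι → ℝ → En n → ℝ},
      (∀ a i, St (u a i) (J i) (r i).U) →
      (∀ a i, ∀ σ ∈ uIcc (t i) (s i), ∀ x ∈ (r i).U, HasDerivAt (fun σ => u a i σ x)
        (w i σ * (∑ q, C a q i σ x * u (π a q) i σ x + f a i σ x)) σ) →
      (∀ a q, Bd (fun p : F.TI t s => r p.1.1) m fun p => C a q p.1.1 p.1.2) →
      (∀ a, Bd (fun p : F.TI t s => r p.1.1) m fun p => f a p.1.1 p.1.2) →
      (∀ a, Bd r m fun i => u a i (t i)) →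
      ∀ a, Bd (fun p : F.TI t s => r p.1.1) m fun p => u a p.1.1 p.1.2 := by
  have h0 : ∀ {u f : κ → ι → ℝ → En n → ℝ}, (∀ a i, St (u a i) (J i) (r i).U) →
      (∀ a i, ∀ σ ∈ uIcc (t i) (s i), ∀ x ∈ (r i).U, HasDerivAt (fun σ => u a i σ x)
        (w i σ * (∑ q, C a q i σ x * u (π a q) i σ x + f a i σ x)) σ) →
      (∀ a q, Bd (fun p : F.TI t s => r p.1.1) 0 fun p => C a q p.1.1 p.1.2) →
      (∀ a, Bd (fun p : F.TI t s => r p.1.1) 0 fun p => f a p.1.1 p.1.2) →
      (∀ a, Bd r 0 fun i => u a i (t i)) →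
      ∀ a, Bd (fun p : F.TI t s => r p.1.1) 0 fun p => u a p.1.1 p.1.2 := by
    intro u f hu hd hC hf hi a
    obtain ⟨A, hA0, hA⟩ := exists_b0
      (f := fun (c : κ × Q) (p : F.TI t s) => C c.1 c.2 p.1.1 p.1.2) fun c => hC c.1 c.2
    obtain ⟨F, hF0, hF⟩ := exists_b0 hf
    obtain ⟨B, hB0, hB⟩ := exists_b0 hi
    refine ⟨fun p => st_slice (hu a p.1.1) (W.sub _ p.2),
      (B + F + 1) * Real.exp (Fintype.card Q * A + 1), ?_⟩
    rintro ⟨⟨i, σ⟩, hσ⟩
    have hsub : uIcc (t i) σ ⊆ uIcc (t i) (s i) := uIcc_subset_uIcc left_mem_uIcc hσ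
    have h := wgron (v := fun σ a => u a i σ (r i).x)
      (v' := fun σ a => w i σ * (∑ q, C a q i σ (r i).x * u (π a q) i σ (r i).x +
        f a i σ (r i).x)) (w := w i)
      (a := t i) (b := σ) (K := Fintype.card Q * A) (F := F) (δ := B) (by positivity) hF0
      ((W.wc i).mono hsub) (fun z hz => W.w0 i z (hsub hz)) (W.w1' i left_mem_uIcc hσ)
      (fun z hz => hasDerivAt_pi.2 fun a => hd a i z (hsub hz) _ (r i).mem) ?_
      ((pi_norm_le_iff_of_nonneg hB0).2 fun a => hB a i)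
    · exact (norm_le_pi_norm (fun a => u a i σ (r i).x) a).trans h
    · intro z hz
      have hw := W.w0 i z (hsub hz)
      refine (pi_norm_le_iff_of_nonneg (by positivity)).2 fun a => ?_
      rw [Real.norm_eq_abs, abs_mul, abs_of_pos hw]
      refine mul_le_mul_of_nonneg_left ?_ hw.le
      refine (abs_add_le _ _).trans (add_le_add ?_ (hF a ⟨(i, z), hsub hz⟩))
      refine (Finset.abs_sum_le_sum_abs _ _).trans ?_
      rw [mul_assoc, ← nsmul_eq_mul, ← Finset.card_univ, ← Finset.sum_const]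
      refine Finset.sum_le_sum fun q _ => ?_
      rw [abs_mul]
      exact mul_le_mul (hA (a, q) ⟨(i, z), hsub hz⟩)
        (norm_le_pi_norm (fun a => u a i z (r i).x) (π a q)) (abs_nonneg _) hA0
  induction m with
  | zero => exact h0
  | succ m ih =>
    intro u f hu hd hC hf hi a
    have hum := ih hu hd (fun a q => (hC a q).pred) (fun a => (hf a).pred) (fun a => (hi a).pred)
    refine ⟨h0 hu hd (fun a q => (hC a q).zero) (fun a => (hf a).zero) (fun a => (hi a).zero) a,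
      fun k => ?_⟩
    refine ih (u := fun a i σ x => (r i).ρ * pderiv k (u a i σ) x)
      (f := fun a i σ x => ∑ q, (r i).ρ * pderiv k (C a q i σ) x * u (π a q) i σ x +
        (r i).ρ * pderiv k (f a i σ) x)
      (fun a i => contDiffOn_const.mul (st_pderiv (r i).op (hu a i) k)) ?_
      (fun a q => (hC a q).pred)
      (fun a => (Bd.sum _ fun q _ => ((hC a q).2 k).mul (hum _)).add ((hf a).2 k))
      (fun a => (hi a).2 k) a
    intro a i σ hσ x hx
    have h1 := (F.dt_pd (W.op i) (r i).op (hu a i) (W.sub i hσ) (hd a i σ hσ) hx k).const_mul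
      (r i).ρ
    refine h1.congr_deriv ?_
    have hCd : ∀ q, DifferentiableAt ℝ (C a q i σ) x := fun q =>
      ((hC a q).sm ⟨(i, σ), hσ⟩).da hx
    have hud : ∀ b, DifferentiableAt ℝ (u b i σ) x := fun b => ((hum b).sm ⟨(i, σ), hσ⟩).da hx
    have hfd : DifferentiableAt ℝ (f a i σ) x := ((hf a).sm ⟨(i, σ), hσ⟩).da hx
    have hCu : ∀ q, DifferentiableAt ℝ (fun x => C a q i σ x * u (π a q) i σ x) x := fun q =>
      (hCd q).mul (hud _)
    have hS : DifferentiableAt ℝ (fun x => ∑ q, C a q i σ x * u (π a q) i σ x) x :=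
      DifferentiableAt.fun_sum fun q _ => hCu q
    rw [F.pd_mul (differentiableAt_const _) (hS.fun_add hfd), F.pd_const, F.pd_add hS hfd,
      F.pd_sum _ (fun q _ => hCu q)]
    simp only [F.pd_mul (hCd _) (hud _), Finset.sum_add_distrib]
    have e2 : ∑ q, C a q i σ x * ((r i).ρ * pderiv k (u (π a q) i σ) x) =
        (r i).ρ * ∑ q, C a q i σ x * pderiv k (u (π a q) i σ) x := by
      rw [Finset.mul_sum]
      exact Finset.sum_congr rfl fun b _ => by ring
    have e3 : ∑ q, (r i).ρ * pderiv k (C a q i σ) x * u (π a q) i σ x =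
        (r i).ρ * ∑ q, pderiv k (C a q i σ) x * u (π a q) i σ x := by
      rw [Finset.mul_sum]
      exact Finset.sum_congr rfl fun b _ => by ring
    rw [e2, e3]
    ring

/-- a Ricci flow in a chart, with bounds at one point -/
structure PDat (n M : ℕ) (K : ℝ) (A B : ℕ → ℝ) where
  D : Pt n
  G : ℝ → MetricField n
  J : Set ℝ
  t : ℝ
  s : ℝ
  w : ℝ → ℝ
  δ : ℝ
  fl : CFlow G J D.U
  sub : uIcc t s ⊆ J
  wc : ContinuousOn w (uIcc t s)
  w0 : ∀ σ ∈ uIcc t s, 0 < w σ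
  w1 : |∫ σ in t..s, w σ| ≤ 1
  hδ : 0 < δ
  hK : δ ≤ K
  ric : ∀ j ≤ M, ∀ σ ∈ uIcc t s,
    D.ρ ^ j * √(nsq (G σ) (covN (G σ) (ricT (G σ)) j) D.x) ≤ A j * (δ * w σ)
  lo : ∀ v : En n, ‖v‖ ^ 2 ≤ 2 * bil (G t D.x) v v
  up : ∀ v : En n, bil (G t D.x) v v ≤ 2 * ‖v‖ ^ 2
  jet : ∀ j ≤ M, ∀ a b, ‖iteratedFDeriv ℝ j
    (fun y => G t y a b - (1 : Matrix (Fin n) (Fin n) ℝ) a b) D.x‖ * D.ρ ^ j ≤ B j

namespace PDat

variable {M : ℕ} {K : ℝ} {A B : ℕ → ℝ}

theorem win : Win (fun d : PDat n M K A B => d.t) (fun d => d.s) (fun d => d.w) fun d => d.J :=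
  ⟨fun d => d.fl.isOpenJ, fun d => d.sub, fun d => d.wc, fun d => d.w0, fun d => d.w1⟩

theorem riem (d : PDat n M K A B) {σ : ℝ} (hσ : σ ∈ uIcc d.t d.s) :
    IsRiemannianOn (d.G σ) d.D.U := d.fl.toCFam.riem (d.sub hσ)

/-- the metrics of the window are comparable -/
theorem bil_le (d : PDat n M K A B) {a b : ℝ} (ha : a ∈ uIcc d.t d.s) (hb : b ∈ uIcc d.t d.s)
    (v : En n) : bil (d.G b d.D.x) v v ≤
      2 * Real.exp (2 * (|A 0| * |K|) + 1) * bil (d.G a d.D.x) v v := by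
  rcases eq_or_ne v 0 with rfl | hv
  · simp
  have hx := d.D.mem
  have hsub : uIcc a b ⊆ uIcc d.t d.s := uIcc_subset_uIcc ha hb
  have hnn : ∀ σ ∈ uIcc d.t d.s, 0 < bil (d.G σ d.D.x) v v := fun σ hσ =>
    bil_pos (d.riem hσ) hx hv
  have ha0 := hnn a ha
  have h := wgron (v := fun σ => bil (d.G σ d.D.x) v v / bil (d.G a d.D.x) v v)
    (v' := fun σ => -2 * evT (ricT (d.G σ) d.D.x) ![v, v] / bil (d.G a d.D.x) v v) (w := d.w)
    (a := a) (b := b) (K := 2 * (|A 0| * |K|)) (F := 0) (δ := 1) (by positivity) le_rfl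
    (d.wc.mono hsub) (fun z hz => d.w0 z (hsub hz)) (win.w1' d ha hb) ?_ ?_
    (by simp [div_self ha0.ne'])
  · rw [Real.norm_of_nonneg (div_pos (hnn b hb) ha0).le, div_le_iff₀ ha0] at h
    refine h.trans_eq ?_
    ring
  · intro σ hσ
    refine HasDerivAt.div_const ?_ _
    simp only [bil_apply, evT_two, Finset.mul_sum]
    refine HasDerivAt.fun_sum fun i _ => HasDerivAt.fun_sum fun j _ => ?_
    refine (((d.fl.rf σ (d.sub (hsub hσ)) _ hx i j).mul_const (v i)).mul_const (v j)).congr_deriv ?_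
    show _ = -2 * (ricci (d.G σ) d.D.x i j * v i * v j)
    ring
  · intro σ hσ
    have hw := d.w0 σ (hsub hσ)
    have hδ := d.hδ
    have h1 := Ar.abs_evT_le ((d.riem (hsub hσ)).posDef _ hx) (ricT (d.G σ) d.D.x) ![v, v]
    have h2 : √(ipA (d.G σ d.D.x)⁻¹ (ricT (d.G σ) d.D.x) (ricT (d.G σ) d.D.x)) ≤
        |A 0| * (|K| * d.w σ) := by
      have h3 := d.ric 0 (Nat.zero_le _) σ (hsub hσ)
      rw [pow_zero, one_mul] at h3
      refine h3.trans ?_
      have := d.hK.trans (le_abs_self K)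
      gcongr
      exact le_abs_self _
    have h4 := hnn σ (hsub hσ)
    rw [Fin.prod_univ_two] at h1
    simp only [Matrix.cons_val_zero, Matrix.cons_val_one] at h1
    rw [Real.mul_self_sqrt h4.le] at h1
    rw [Real.norm_of_nonneg (div_pos h4 ha0).le, Real.norm_eq_abs, abs_div, abs_of_pos ha0,
      add_zero, abs_mul, abs_neg, abs_two, div_le_iff₀ ha0]
    calc 2 * |evT (ricT (d.G σ) d.D.x) ![v, v]|
        ≤ 2 * (|A 0| * (|K| * d.w σ) * bil (d.G σ d.D.x) v v) := by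
          gcongr
          exact h1.trans (by gcongr)
      _ = _ := by field_simp

variable (n M K A B)

/-- the index type: data and a time of the window -/
abbrev P : Type := F.TI (fun d : PDat n M K A B => d.t) fun d => d.s

/-- the points -/
abbrev R : P n M K A B → Pt n := fun p => p.1.1.D

/-- `G - 1` -/
def U (a b : Fin n) (d : PDat n M K A B) (σ : ℝ) (x : En n) : ℝ :=
  d.G σ x a b - (1 : Matrix (Fin n) (Fin n) ℝ) a b

/-- normalised components of `∇ʲ Ric` -/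
def T (j : ℕ) (I : Fin (2 + j) → Fin n) (d : PDat n M K A B) (σ : ℝ) (x : En n) : ℝ :=
  d.D.ρ ^ j / (d.δ * d.w σ) * covN (d.G σ) (ricT (d.G σ)) j x I

variable {n M K A B}

theorem smT (p : P n M K A B) (j : ℕ) :
    SmT (covN (p.1.1.G p.1.2) (ricT (p.1.1.G p.1.2)) j) p.1.1.D.U :=
  (SmT.ricT (p.1.1.riem p.2)).covN (p.1.1.riem p.2) j

theorem bd0_T {j : ℕ} (hj : j ≤ M) (I : Fin (2 + j) → Fin n) :
    Bd (R n M K A B) 0 fun p => T n M K A B j I p.1.1 p.1.2 := by
  set c := 2 * Real.exp (2 * (|A 0| * |K|) + 1) * 2 with hc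
  have hc0 : 0 < c := by positivity
  refine ⟨fun p => contDiffOn_const.mul (smT p j I), √(c ^ (2 + j)) * A j, ?_⟩
  rintro ⟨⟨d, σ⟩, hσ⟩
  have hw := d.w0 σ hσ
  have hδ := d.hδ
  have hρ := d.D.pos
  have h1 := Ar.comp_sq_le ((d.riem hσ).posDef _ d.D.mem) (c := c) (fun v => by
    refine (d.bil_le left_mem_uIcc hσ v).trans ?_
    rw [hc, mul_assoc _ 2]
    exact mul_le_mul_of_nonneg_left (d.up v) (by positivity))
    (covN (d.G σ) (ricT (d.G σ)) j d.D.x) I
  have h3 := Real.abs_le_sqrt h1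
  rw [Real.sqrt_mul (by positivity)] at h3
  have h4 := d.ric j hj σ hσ
  show |d.D.ρ ^ j / (d.δ * d.w σ) * covN (d.G σ) (ricT (d.G σ)) j d.D.x I| ≤ _
  rw [abs_mul, abs_of_pos (by positivity : 0 < d.D.ρ ^ j / (d.δ * d.w σ)), div_mul_eq_mul_div,
    div_le_iff₀ (by positivity)]
  calc _ ≤ d.D.ρ ^ j * (√(c ^ (2 + j)) * √(nsq (d.G σ) (covN (d.G σ) (ricT (d.G σ)) j) d.D.x)) :=
        mul_le_mul_of_nonneg_left h3 (by positivity)
    _ = √(c ^ (2 + j)) * (d.D.ρ ^ j * √(nsq (d.G σ) (covN (d.G σ) (ricT (d.G σ)) j) d.D.x)) := by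
        ring
    _ ≤ √(c ^ (2 + j)) * (A j * (d.δ * d.w σ)) := by gcongr
    _ = _ := by ring

theorem bd0_inv (a b : Fin n) : Bd (R n M K A B) 0 fun p x => (p.1.1.G p.1.2 x)⁻¹ a b := by
  set c := 2 * (2 * Real.exp (2 * (|A 0| * |K|) + 1)) with hc
  have hc0 : 0 < c := by positivity
  refine ⟨fun p => sm_inv (p.1.1.riem p.2) a b, c, ?_⟩
  rintro ⟨⟨d, σ⟩, hσ⟩
  have hP := (d.riem hσ).posDef _ d.D.mem
  let e : Fin n → Arr n 1 := fun a I => if I 0 = a then 1 else 0
  have he : ∀ a b, ipA (d.G σ d.D.x)⁻¹ (e a) (e b) = (d.G σ d.D.x)⁻¹ a b := fun a b => by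
    simp [Ar.ipA_rank1, e]
  have h1 : ∀ a, ipA (d.G σ d.D.x)⁻¹ (e a) (e a) ≤ c := fun a => by
    have := Ar.ipA_le_sum_sq hP hc0.le (fun v => by
      refine (d.lo v).trans ?_
      rw [hc, mul_assoc]
      gcongr
      exact d.bil_le hσ left_mem_uIcc v) (e a)
    rw [AI.sum_cons] at this
    simpa [e] using this
  have h2 := Ar.abs_ipA_le hP (e a) (e b)
  rw [he] at h2
  refine h2.trans ?_
  calc _ ≤ √c * √c := by gcongr <;> exact h1 _
    _ = c := Real.mul_self_sqrt hc0.le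

theorem bd_del {m : ℕ} : Bd (R n M K A B) m fun p _ => p.1.1.δ :=
  Bd.const ⟨K, fun p => by rw [abs_of_pos p.1.1.hδ]; exact p.1.1.hK⟩

theorem st_U (a b : Fin n) (d : PDat n M K A B) : St (U n M K A B a b d) d.J d.D.U :=
  (d.fl.sm a b).sub contDiffOn_const

theorem bd_init {m : ℕ} (hm : m ≤ M) (a b : Fin n) :
    Bd (fun d : PDat n M K A B => d.D) m fun d => U n M K A B a b d d.t :=
  Bd.of_jets m (fun d => st_slice (st_U a b d) (d.sub left_mem_uIcc))
    fun j hj => ⟨B j, fun d => d.jet j (hj.trans hm) a b⟩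

theorem dt_U (a b : Fin n) (d : PDat n M K A B) {σ : ℝ} (hσ : σ ∈ uIcc d.t d.s) {x : En n}
    (hx : x ∈ d.D.U) : HasDerivAt (fun σ => U n M K A B a b d σ x)
      (-2 * ricci (d.G σ) x a b) σ :=
  (d.fl.rf σ (d.sub hσ) x hx a b).sub_const _

theorem T_zero (a b : Fin n) (d : PDat n M K A B) (σ : ℝ) (x : En n) :
    T n M K A B 0 ![a, b] d σ x = (d.δ * d.w σ)⁻¹ * ricci (d.G σ) x a b := by
  have : T n M K A B 0 ![a, b] d σ x = d.D.ρ ^ 0 / (d.δ * d.w σ) * ricci (d.G σ) x a b := rfl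
  rw [this, pow_zero, one_div]


end PDat

end Crest.Agent.N207.Pw
end
end

-- ▼ part N207/T/Pers3

/-!
# Row 207 (helper7): the statements `PERS` and `CURV` of block TOP
-/

set_option autoImplicit false
set_option linter.unusedSectionVars false

open Set Metric Filter Topology Function MeasureTheory
open scoped ContDiff BigOperators Manifold
open Crest.GeometryTopology.CoordMetric Crest.GeometryTopology.ChartCurvature
open Crest.Agent.R202.Tens Crest.Agent.N207.AI

noncomputable section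

namespace Crest.Agent.N207.Pw

namespace PDat

variable {n M : ℕ} {K : ℝ} {A B : ℕ → ℝ}

theorem chr_eq (d : PDat n M K A B) {σ : ℝ} (hσ : σ ∈ uIcc d.t d.s) {x : En n} (hx : x ∈ d.D.U)
    (l i j : Fin n) : d.D.ρ * christoffel (d.G σ) x l i j =
      ∑ p, 1 / 2 * (d.G σ x)⁻¹ l p * (d.D.ρ * pderiv i (U n M K A B j p d σ) x +
        d.D.ρ * pderiv j (U n M K A B i p d σ) x - d.D.ρ * pderiv p (U n M K A B i j d σ) x) := by
  have e : ∀ k a b, pderiv k (U n M K A B a b d σ) x = pderiv k (fun y => d.G σ y a b) x := by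
    intro k a b
    have hd := differentiableAt_entry (d.riem hσ) hx a b
    unfold U
    rw [F.pd_sub hd (differentiableAt_const _), F.pd_const, sub_zero]
  simp only [christoffel, e, inverseField, Finset.mul_sum]
  refine Finset.sum_congr rfl fun p _ => ?_
  ring

theorem step {m : ℕ} (hm : m + 1 ≤ M)
    (hinv : ∀ a b, Bd (R n M K A B) m fun p x => (p.1.1.G p.1.2 x)⁻¹ a b)
    (hT : ∀ j, j + m ≤ M → ∀ I, Bd (R n M K A B) m fun p => T n M K A B j I p.1.1 p.1.2)
    (k a b : Fin n) :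
    Bd (R n M K A B) m fun p x => p.1.1.D.ρ * pderiv k (U n M K A B a b p.1.1 p.1.2) x := by
  let π : Fin n × Fin n × Fin n → Fin n × Fin n × Fin 6 → Fin n × Fin n × Fin n := fun c q =>
    ![(c.1, c.2.1, q.2.1), (c.2.1, c.1, q.2.1), (q.2.1, c.1, c.2.1),
      (c.1, c.2.2, q.2.1), (c.2.2, c.1, q.2.1), (q.2.1, c.1, c.2.2)] q.2.2
  let sg : Fin 6 → ℝ := ![-1, -1, 1, -1, -1, 1]
  let ix : Fin n × Fin n × Fin n → Fin n × Fin n × Fin 6 → Fin (2 + 0) → Fin n := fun c q =>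
    ![![q.1, c.2.2], ![q.1, c.2.2], ![q.1, c.2.2], ![c.2.1, q.1], ![c.2.1, q.1], ![c.2.1, q.1]]
      q.2.2
  refine Bd.tode win π (C := fun c q d σ x => sg q.2.2 * d.δ * (d.G σ x)⁻¹ q.1 q.2.1 *
      T n M K A B 0 (ix c q) d σ x) m
    (u := fun c d σ x => d.D.ρ * pderiv c.1 (U n M K A B c.2.1 c.2.2 d σ) x)
    (f := fun c d σ x => -2 * d.δ * T n M K A B 1 ![c.1, c.2.1, c.2.2] d σ x)
    (fun c d => contDiffOn_const.mul (st_pderiv d.D.op (st_U _ _ d) _)) ?_
    (fun c q => (((Bd.const' _).mul bd_del).mul (hinv _ _)).mul (hT 0 (by omega) _))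
    (fun c => ((Bd.const' _).mul bd_del).mul (hT 1 (by omega) _))
    (fun c => (bd_init hm _ _).2 c.1) (k, a, b)
  rintro ⟨k, i, j⟩ d σ hσ x hx
  have h1 := (F.dt_pd d.fl.isOpenJ d.D.op (st_U i j d) (d.sub hσ)
    (fun y hy => dt_U i j d hσ hy) hx k).const_mul d.D.ρ
  refine h1.congr_deriv ?_
  have hw := (d.w0 σ hσ).ne'
  have hδ := d.hδ.ne'
  have hd : DifferentiableAt ℝ (fun y => ricci (d.G σ) y i j) x :=
    (SmT.ricT (d.riem hσ)).dAt d.D.op hx ![i, j]
  have e1 : pderiv k (fun y => -2 * ricci (d.G σ) y i j) x =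
      -2 * pderiv k (fun y => ricci (d.G σ) y i j) x := by
    rw [F.pd_mul (differentiableAt_const _) hd, F.pd_const]
    ring
  have e2 : T n M K A B 1 ![k, i, j] d σ x = d.D.ρ ^ 1 / (d.δ * d.w σ) *
      (pderiv k (fun y => ricci (d.G σ) y i j) x
        - ∑ l, christoffel (d.G σ) x l k i * ricci (d.G σ) x l j
        - ∑ l, christoffel (d.G σ) x l k j * ricci (d.G σ) x i l) :=
    congrArg (d.D.ρ ^ 1 / (d.δ * d.w σ) * ·) (cov_two (d.G σ) (ricT (d.G σ)) x k i j)
  have e4 : ∑ q : Fin n × Fin n × Fin 6, sg q.2.2 * d.δ * (d.G σ x)⁻¹ q.1 q.2.1 *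
      T n M K A B 0 (ix (k, i, j) q) d σ x * (d.D.ρ * pderiv (π (k, i, j) q).1
        (U n M K A B (π (k, i, j) q).2.1 (π (k, i, j) q).2.2 d σ) x) =
      -2 * (d.δ * (d.δ * d.w σ)⁻¹) *
        (∑ l, d.D.ρ * christoffel (d.G σ) x l k i * ricci (d.G σ) x l j +
          ∑ l, d.D.ρ * christoffel (d.G σ) x l k j * ricci (d.G σ) x i l) := by
    rw [Fintype.sum_prod_type, ← Finset.sum_add_distrib, Finset.mul_sum]
    refine Finset.sum_congr rfl fun l _ => ?_
    rw [Fintype.sum_prod_type, d.chr_eq hσ hx, d.chr_eq hσ hx, Finset.sum_mul, Finset.sum_mul,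
      ← Finset.sum_add_distrib, Finset.mul_sum]
    refine Finset.sum_congr rfl fun p _ => ?_
    simp only [Fin.sum_univ_six, π, sg, ix, Matrix.cons_val, T_zero]
    ring
  rw [e1, e4, e2]
  simp only [mul_assoc, ← Finset.mul_sum]
  field_simp
  ring

theorem bd_all (m : ℕ) : m ≤ M →
    (∀ a b, Bd (R n M K A B) m fun p x => (p.1.1.G p.1.2 x)⁻¹ a b) ∧
    ∀ j, j + m ≤ M → ∀ I, Bd (R n M K A B) m fun p => T n M K A B j I p.1.1 p.1.2 := by
  induction m with
  | zero => exact fun _ => ⟨bd0_inv, fun j hj => bd0_T hj⟩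
  | succ m ih =>
    intro hm
    obtain ⟨hinv, hT⟩ := ih (by omega)
    have hA := step hm hinv hT
    have hΓ : ∀ l i j, Bd (R n M K A B) m fun p x =>
        p.1.1.D.ρ * christoffel (p.1.1.G p.1.2) x l i j := fun l i j =>
      (Bd.sum Finset.univ fun q _ => ((Bd.const' (1 / 2)).mul (hinv l q)).mul
        (((hA i j q).add (hA j i q)).sub (hA q i j))).congr fun p x hx => by
          simp only [p.1.1.chr_eq p.2 hx]
    refine ⟨fun a b => ⟨bd0_inv a b, fun k => ?_⟩, fun j hj I => ⟨bd0_T (by omega) I, fun k => ?_⟩⟩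
    · refine ((Bd.sum Finset.univ fun q _ => (hΓ a k q).mul (hinv q b)).neg.sub
        (Bd.sum Finset.univ fun q _ => (hΓ b k q).mul (hinv a q))).congr fun p x hx => ?_
      simp only [Pw.D, pd_ginv (p.1.1.riem p.2) hx, mul_sub, mul_neg, Finset.mul_sum, mul_assoc]
    · refine ((hT (j + 1) (by omega) (Fin.cons k I : Fin (2 + j + 1) → Fin n)).add
        (Bd.sum Finset.univ fun s _ => Bd.sum Finset.univ fun q _ =>
          (hΓ q k (I s)).mul (hT j (by omega) (update I s q)))).congr ?_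
      rintro ⟨⟨d, σ⟩, hσ⟩ x hx
      have hd := (smT ⟨(d, σ), hσ⟩ j).dAt d.D.op hx I
      have e1 : pderiv k (T n M K A B j I d σ) x = d.D.ρ ^ j / (d.δ * d.w σ) *
          pderiv k (fun y => covN (d.G σ) (ricT (d.G σ)) j y I) x := by
        unfold T
        rw [F.pd_mul (differentiableAt_const _) hd, F.pd_const]
        ring
      have e2 : T n M K A B (j + 1) (Fin.cons k I : Fin (2 + j + 1) → Fin n) d σ x =
          d.D.ρ ^ (j + 1) / (d.δ * d.w σ) *
            (pderiv k (fun y => covN (d.G σ) (ricT (d.G σ)) j y I) x -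
              ∑ s, ∑ q, christoffel (d.G σ) x q k (I s) *
                covN (d.G σ) (ricT (d.G σ)) j x (update I s q)) := rfl
      simp only [Pw.D, e1, e2]
      simp only [T, mul_sub, Finset.mul_sum]
      rw [sub_add, ← Finset.sum_sub_distrib, Finset.sum_eq_zero, sub_zero]
      · ring
      · intro s _
        rw [← Finset.sum_sub_distrib]
        exact Finset.sum_eq_zero fun q _ => by ring

theorem bd_V (a b : Fin n) : Bd (R n M K A B) M fun p x =>
    p.1.1.δ⁻¹ * (p.1.1.G p.1.2 x a b - p.1.1.G p.1.1.t x a b) := by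
  refine Bd.tode win (κ := Unit) (Q := Empty) (fun _ _ => ()) (C := fun _ _ _ _ _ => 0) M
    (u := fun _ d σ x => d.δ⁻¹ * (d.G σ x a b - d.G d.t x a b))
    (f := fun _ d σ x => -2 * T n M K A B 0 ![a, b] d σ x)
    (fun _ d => contDiffOn_const.mul ((d.fl.sm a b).sub
      (st_const ((d.riem left_mem_uIcc).contDiffOn a b)))) ?_ (fun _ q => q.elim)
    (fun _ => (Bd.const' _).mul ((bd_all M le_rfl).2 0 (by omega) _))
    (fun _ => (Bd.const' 0).congr fun d x _ => by simp) ()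
  intro _ d σ hσ x hx
  refine (((d.fl.rf σ (d.sub hσ) x hx a b).sub_const _).const_mul _).congr_deriv ?_
  have hw := (d.w0 σ hσ).ne'
  have hδ := d.hδ.ne'
  rw [T_zero]
  simp only [Finset.univ_eq_empty, Finset.sum_empty]
  field_simp
  ring

end PDat

/-- persistence of the jet of order `M` -/
theorem pt_bound (n M : ℕ) (K : ℝ) (A B : ℕ → ℝ) : ∃ C, 0 ≤ C ∧ ∀ (d : PDat n M K A B) (a b : Fin n),
    ‖iteratedFDeriv ℝ M (fun y => d.G d.s y a b - d.G d.t y a b) d.D.x‖ * d.D.ρ ^ M ≤ C * d.δ := by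
  choose C hC0 hC using fun p : Fin n × Fin n =>
    (PDat.bd_V (M := M) (K := K) (A := A) (B := B) p.1 p.2).to_jet
  refine ⟨∑ p, C p, Finset.sum_nonneg fun p _ => hC0 p, fun d a b => ?_⟩
  have h2 := (hC (a, b) ⟨(d, d.s), right_mem_uIcc⟩).trans
    (Finset.single_le_sum (f := C) (fun p _ => hC0 p) (Finset.mem_univ _))
  have hδ := d.hδ
  have hc : ContDiffAt ℝ M (fun y => d.G d.s y a b - d.G d.t y a b) d.D.x :=
    ((((d.riem right_mem_uIcc).contDiffOn a b).sub
      ((d.riem left_mem_uIcc).contDiffOn a b)).contDiffAt (d.D.op.mem_nhds d.D.mem)).of_le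
      (by exact_mod_cast le_top)
  have e := iteratedFDeriv_const_smul_apply' (a := d.δ⁻¹) hc
  simp only [smul_eq_mul] at e h2
  rwa [e, norm_smul, Real.norm_of_nonneg (by positivity), mul_assoc, inv_mul_le_iff₀ hδ,
    mul_comm d.δ] at h2

end Crest.Agent.N207.Pw

namespace Crest.Agent.N207.T

open Sk

variable {M : Type*} [TopologicalSpace M] [ChartedSpace E4 M] [IsManifold 𝓘(ℝ, E4) ∞ M]

theorem curv : CURV M := by
  refine ⟨30000 ^ 2, by norm_num, fun g Ψ U x r δ hP hx hr hδ0 hδ h => ?_⟩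
  have h1 := Rad.jg_rm (hP.riem g) hx h hδ le_rfl hr
  rw [Real.sqrt_le_left (by positivity)] at h1
  rw [hP.par_rm g 0 hx]
  refine h1.trans_eq ?_
  field_simp

variable [T3Space M] [ConnectedSpace M] [MeasurableSpace M] [BorelSpace M]

theorem pers (F : Flow M) : PERS F := by
  intro Cs B
  choose C hC0 hC using fun k => Pw.pt_bound 4 k 2 (fun j => |B j|) Cs
  refine ⟨1, fun k => C k + 1, one_pos, fun k => by linarith [hC0 k], ?_⟩
  intro m Ψ U x r t0 t1 ζ hP hx hr hsub hJ0 hJ hζ hζ0 hric hint k hk i j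
  rcases eq_or_ne t0 t1 with rfl | hne
  · simp [J1, iteratedFDeriv_fun_zero]
  have fl := hP.cflow F
  have hric' : ∀ l ≤ m, ∀ s ∈ uIcc t0 t1, r ^ l * √(nsq ((F.m s).pm Ψ)
      (covN ((F.m s).pm Ψ) (ricT ((F.m s).pm Ψ)) l) x) ≤ B l * ζ s := by
    intro l hl s hs
    have h1 : ContinuousOn (fun s => nsq ((F.m s).pm Ψ)
        (covN ((F.m s).pm Ψ) (ricT ((F.m s).pm Ψ)) l) x) (uIcc t0 t1) :=
      (st_tslice (fl.toCFam.st_nsq (fl.toCFam.smTT_ricT.covN fl.toCFam l)) hx).continuousOn.mono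
        hsub
    have hcl : closure (Ioo (min t0 t1) (max t0 t1)) = uIcc t0 t1 :=
      closure_Ioo (min_lt_max.2 hne).ne
    refine le_on_closure (s := Ioo (min t0 t1) (max t0 t1))
      (f := fun s => r ^ l * √(nsq ((F.m s).pm Ψ)
        (covN ((F.m s).pm Ψ) (ricT ((F.m s).pm Ψ)) l) x)) (g := fun s => B l * ζ s)
      (fun s hs => ?_) ?_ ?_ (hcl ▸ hs)
    · rw [← hP.par_rc _ l hx]; exact hric s hs l hl
    · rw [hcl]; exact continuousOn_const.mul h1.sqrt
    · rw [hcl]; exact continuousOn_const.mul hζ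
  set Z := |∫ s in t0..t1, ζ s| with hZ
  have hZ0 : 0 ≤ Z := abs_nonneg _
  have hL : 0 < |t1 - t0| := abs_pos.2 (sub_ne_zero.2 hne.symm)
  have key : ∀ ε, 0 < ε → ε ≤ 1 → ‖iteratedFDeriv ℝ k
      (fun y => (F.m t1).pm Ψ y i j - (F.m t0).pm Ψ y i j) x‖ * r ^ k ≤ C k * (Z + ε) := by
    intro ε hε hε1
    have hδ : 0 < Z + ε := by positivity
    let d : Pw.PDat 4 k 2 (fun j => |B j|) Cs :=
      { D := ⟨U, x, r, hP.isOpen, hx, hr⟩, G := fun σ => (F.m σ).pm Ψ, J := Ioo 0 F.T, t := t0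
        s := t1, w := fun σ => (ζ σ + ε / |t1 - t0|) / (Z + ε), δ := Z + ε, fl := fl, sub := hsub
        wc := (hζ.add continuousOn_const).div_const _
        w0 := fun σ hσ => by have := hζ0 σ hσ; positivity
        w1 := by
          rw [intervalIntegral.integral_div, intervalIntegral.integral_add hζ.intervalIntegrable
            intervalIntegrable_const, abs_div, abs_of_pos hδ, div_le_one hδ]
          refine (abs_add_le _ _).trans (add_le_add le_rfl (le_of_eq ?_))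
          rw [intervalIntegral.integral_const, smul_eq_mul, abs_mul, abs_of_pos (by positivity :
            0 < ε / |t1 - t0|)]
          field_simp
        hδ := hδ, hK := by linarith
        ric := fun l hl σ hσ => by
          refine (hric' l (hl.trans hk) σ hσ).trans ?_
          have h1 := hζ0 σ hσ
          have h2 : 0 < ε / |t1 - t0| := by positivity
          rw [mul_div_cancel₀ _ hδ.ne']
          exact mul_le_mul (le_abs_self _) (by linarith) h1 (abs_nonneg _)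
        lo := Rad.jg_low hJ0 le_rfl
        up := Rad.jg_up hJ0 le_rfl
        jet := fun l hl a b => hJ l (hl.trans hk) a b }
    exact hC k d i j
  refine le_of_forall_pos_le_add fun ε hε => ?_
  have h1 := key (min 1 (ε / (C k + 1))) (lt_min one_pos (by have := hC0 k; positivity))
    (min_le_left _ _)
  have h2 : C k * min 1 (ε / (C k + 1)) ≤ ε := by
    have := hC0 k
    refine (mul_le_mul_of_nonneg_left (min_le_right _ _) this).trans ?_
    rw [mul_div_assoc', div_le_iff₀ (by positivity)]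
    nlinarith
  nlinarith

end Crest.Agent.N207.T
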