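import Crest.Agent.N207.T.Kit3
import Crest.Agent.N207.T.St
import Crest.Agent.N207.C.Max
import Crest.Agent.N207.GE.Rad
import Crest.Agent.N207.GE.Dist
import Crest.Agent.N207.AI.EvoS
import Crest.Agent.N207.AI.Par2

-- ▼ part N207/T/Trk1
section

/-!
# Row 207 (helper36): cluster tracking, part 1: the setting
-/

set_option autoImplicit false
set_option linter.unusedSectionVars false

open scoped ContDiff Topology
open Set MeasureTheory Filter

noncomputable section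

namespace Crest.Agent.N207.T

variable {M : Type*} [TopologicalSpace M] [CompactSpace M] [MeasurableSpace M]
  [OpensMeasurableSpace M]

/-- the constants -/
structure Kn (H : HC M) where
  ε0 : ℝ
  E : ℝ
  K : ℝ
  cP : ℝ
  lam : ℝ
  cE : ℝ
  CE : ℝ
  CV : ℝ
  CT : ℝ
  β : ℝ
  θv : ℝ
  v1 : ℝ
  v2 : ℝ
  Λ : ℝ
  ε3 : ℝ
  η2 : ℝ
  μ : ℝ
  r1 : ℝ
  ε0_pos : 0 < ε0
  hE : ∀ t ∈ Ico (H.T / 2) H.T, ∫ x, H.N 0 t x ∂H.vol t ≤ E
  K_ge : 44 ≤ K
  cP_pos : 0 < cP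
  lam_pos : 0 < lam
  lam_le : lam ≤ 1
  cE_pos : 0 < cE
  CE_pos : 0 < CE
  CV_pos : 0 < CV
  CT_pos : 0 < CT
  β_le : β ≤ 1
  Kβ : 1 ≤ K * β
  θv_pos : 0 < θv
  v1_pos : 0 < v1
  Λ_gt : 1 < Λ
  Λ_le : Λ ≤ 2
  v12 : Λ ^ 5 * v1 < v2
  ε3_pos : 0 < ε3
  ε3_le : ε3 ≤ ε0 / 16
  η2_pos : 0 < η2
  η2_le : η2 ≤ ε3 / 2
  η2_le1 : η2 ≤ 1
  η2_pot : 8 * E / ε0 * (η2 * (2 * E + 1)) ≤ ε3 * ε0 / 32
  μ_pos : 0 < μ
  μ_le : μ ≤ 1
  μ_en : CE * CV * μ ^ 4 ≤ ε0 / 8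
  r1_le : r1 ≤ 1
  pers : ∀ t ∈ Ico (H.T / 2) H.T, ∀ x r, 0 < r → r ≤ r1 → H.en t x r ≤ ε0 / 2 →
    ∀ s ∈ Ioo 0 H.T, |s - t| ≤ cP * r ^ 2 → H.en s x (lam * r) ≤ ε0
  reg : ∀ t ∈ Ico (H.T / 2) H.T, ∀ x r, 0 < r → r ≤ r1 → H.en t x r ≤ ε0 →
    ∀ s ∈ Ioo 0 H.T, |s - t| ≤ cE * r ^ 2 → H.N 0 s x ≤ CE / r ^ 4
  up : ∀ t ∈ Ico (H.T / 2) H.T, ∀ x, ∀ r > 0, (H.vol t).real (H.B t x r) ≤ CV * r ^ 4
  tr : ∀ {t b A B : ℝ} {G : Set M} {ζ : ℝ → ℝ}, Reg H t b G ζ A B →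
    H.T / 2 ≤ t → b - t ≤ 1 → 0 ≤ A → 0 ≤ B → Real.exp (∫ u in t..b, ζ u) ≤ 2 →
    ∀ (w : M) (α : ℝ), 0 < α → α ≤ 1 → (∀ x, α < H.d b w x → H.d b w x < 4 * α → x ∈ G) →
      ∫ x in H.B b w α, H.N 0 t x ∂H.vol t ≤
        H.en b w (2 * α) + CT * (A * B * α ^ 3 * (∫ u in t..b, ζ u) + α ^ 2)
  nv : ∀ t ∈ Ico (H.T / 2) H.T, ∀ (y : M) (ρ : ℝ), 0 < ρ → ρ ≤ r1 → ε0 / 16 ≤ H.en t y (β * ρ) →
    H.en t y (4 * ρ) ≤ H.en t y (β * ρ) + (ε3 + η2) →
    (H.vol t).real (H.B t y (Λ * (θv * ρ))) ≤ v1 * (Λ * (θv * ρ)) ^ 4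
  vol : ∀ s ∈ Ioo 0 H.T, ∀ t ∈ Ioo 0 H.T, |t - s| ≤ r1 → ∀ S : Set M,
    (H.vol t).real S ≤ Λ * (H.vol s).real S

variable {H : HC M}

/-- the data of one tracking problem -/
structure Tk (k : Kn H) (s τ a σ L ϑ A B δ C0 : ℝ) (z : ℝ → M) (ζ : ℝ → ℝ) : Prop where
  ok : H.Ok
  s_ge : H.T / 2 ≤ s
  le : s ≤ τ
  lt : τ < H.T
  len : τ - s ≤ k.r1
  σ_pos : 0 < σ
  σ_le : σ ≤ a
  a_le : a ≤ k.r1
  C0_ge : 1 ≤ C0
  L_ge : C0 + 4 ≤ L
  A_nn : 0 ≤ A
  B_nn : 0 ≤ B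
  cont : ContinuousOn ζ (Icc s τ)
  nn : ∀ t ∈ Icc s τ, 0 ≤ ζ t
  int : ∫ t in s..τ, ζ t ≤ δ
  exp_lt : Real.exp δ < k.Λ
  err : k.CT * (A * B * σ ^ 3 * δ + σ ^ 2) ≤ k.η2 / 2
  conc : ∀ t ∈ Icc s τ, ∀ y, H.d τ (z τ) y < 2 * L * a → ∀ r, 0 < r → r ≤ a →
    k.ε0 / 8 < H.en t y r → H.d t (z t) y < 2 * r + a
  key : ∀ t1 ∈ Icc s τ, (∀ t ∈ Ioc t1 τ, ∀ y, a ≤ H.d τ (z τ) y → H.d τ (z τ) y < 2 * L * a →
    H.en t y ϑ ≤ k.ε0) → (∀ t ∈ Icc t1 τ, H.d t (z t) (z τ) ≤ C0 * a) ∧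
      ∀ t ∈ Ioc t1 τ, ∀ y, H.d τ (z τ) y < 2 * L * a → H.en t y ϑ ≤ k.ε0 →
        √(H.N 0 t y) ≤ A ∧ √(H.Q 0 t y) ≤ ζ t ∧ √(H.Q 1 t y) ≤ B * ζ t

/-- the annulus `α ≤ d τ p · < β` is regular on `(b, τ]` -/
def Ann (H : HC M) (τ : ℝ) (p : M) (ϑ ε b α β : ℝ) : Prop :=
  ∀ t ∈ Ioc b τ, ∀ y, α ≤ H.d τ p y → H.d τ p y < β → H.en t y ϑ ≤ ε

theorem Ann.mono {τ : ℝ} {p : M} {ϑ ε b α β b' α' : ℝ} (h : Ann H τ p ϑ ε b α β) (hb : b ≤ b')
    (hα : α ≤ α') : Ann H τ p ϑ ε b' α' β :=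
  fun t ht y h1 h2 => h t ⟨hb.trans_lt ht.1, ht.2⟩ y (hα.trans h1) h2

/-- clusters at time `b` -/
structure Cd (k : Kn H) (U : Set M) (b γ ρ : ℝ) (F : Finset M) (Ω : M → Set M) : Prop where
  mem : ∀ w ∈ F, w ∈ U
  γ_pos : 0 < γ
  γρ : k.K * γ ≤ ρ
  card : F.card * (k.ε0 / 8) ≤ k.E
  en : ∀ w ∈ F, k.ε0 / 8 < H.en b w γ
  sep : ∀ w ∈ F, ∀ w' ∈ F, w ≠ w' → 2 * (k.K * ρ) ≤ H.d b w w'
  ann : ∀ w ∈ F, H.en b w (k.K * ρ) ≤ H.en b w (ρ / k.K) + k.η2 / 2
  cap : ∀ w ∈ F, Cap H b w ρ k.θv k.v2 (Ω w)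
  reg : ∀ y ∈ U, (∀ w ∈ F, y ∉ Ω w) → H.en b y γ ≤ k.ε0 / 8

theorem exists_inf {s b h : ℝ} (hs : s ≤ b) (hh : 0 < h) (E : ℝ → Prop) :
    ∃ t' ∈ Icc s b, (∀ t ∈ Ioc t' b, E t) ∧ (t' = s ∨ ¬∀ t ∈ Icc s b, |t - t'| ≤ h → E t) := by
  set S : Set ℝ := {t | t ∈ Icc s b ∧ ∀ u ∈ Ioc t b, E u} with hS
  have hb : b ∈ S := ⟨⟨hs, le_rfl⟩, fun u hu => absurd hu.1 (not_lt.2 hu.2)⟩
  have hbd : BddBelow S := ⟨s, fun t ht => ht.1.1⟩
  have h1 : s ≤ sInf S := le_csInf ⟨b, hb⟩ fun t ht => ht.1.1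
  have h2 : ∀ t ∈ Ioc (sInf S) b, E t := fun t ht => by
    obtain ⟨u, hu, hut⟩ := exists_lt_of_csInf_lt ⟨b, hb⟩ ht.1
    exact hu.2 t ⟨hut, ht.2⟩
  refine ⟨sInf S, ⟨h1, csInf_le hbd hb⟩, h2, ?_⟩
  rcases h1.eq_or_lt with h3 | h3
  · exact Or.inl h3.symm
  · refine Or.inr fun hc => ?_
    have h4 : max s (sInf S - h) ∈ S := by
      refine ⟨⟨le_max_left _ _, max_le hs (by linarith [csInf_le hbd hb])⟩, fun u hu => ?_⟩
      by_cases h5 : sInf S < u
      · exact h2 u ⟨h5, hu.2⟩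
      · have h6 := (le_max_right s _).trans_lt hu.1
        exact hc u ⟨((le_max_left s _).trans_lt hu.1).le, hu.2⟩
          (abs_le.2 ⟨by linarith, by linarith [not_lt.1 h5]⟩)
    have := csInf_le hbd h4
    rcases le_max_iff.1 this with h5 | h5 <;> linarith

namespace Tk

variable {k : Kn H} {s τ a σ L ϑ A B δ C0 : ℝ} {z : ℝ → M} {ζ : ℝ → ℝ}
  (T : Tk k s τ a σ L ϑ A B δ C0 z ζ)
include T

theorem a_pos : 0 < a := T.σ_pos.trans_le T.σ_le

theorem mem {t : ℝ} (ht : t ∈ Icc s τ) : t ∈ Ioo 0 H.T :=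
  ⟨by linarith [T.s_ge, T.ok.alg.T_pos, ht.1], ht.2.trans_lt T.lt⟩

theorem late {t : ℝ} (ht : t ∈ Icc s τ) : t ∈ Ico (H.T / 2) H.T :=
  ⟨T.s_ge.trans ht.1, ht.2.trans_lt T.lt⟩

theorem memτ : τ ∈ Ioo 0 H.T := T.mem ⟨T.le, le_rfl⟩

theorem int_le {t1 t2 : ℝ} (h1 : s ≤ t1) (h12 : t1 ≤ t2) (h2 : t2 ≤ τ) :
    ∫ t in t1..t2, ζ t ≤ δ :=
  le_trans (intervalIntegral.integral_mono_interval h1 h12 h2
    ((ae_restrict_mem measurableSet_Ioc).mono fun t ht => T.nn t (Ioc_subset_Icc_self ht))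
    (T.cont.intervalIntegrable_of_Icc T.le)) T.int

theorem exp_le {t1 t2 : ℝ} (h1 : s ≤ t1) (h12 : t1 ≤ t2) (h2 : t2 ≤ τ) :
    Real.exp (∫ t in t1..t2, ζ t) ≤ 2 :=
  (Real.exp_le_exp.2 (T.int_le h1 h12 h2)).trans (T.exp_lt.le.trans k.Λ_le)

theorem reg {t1 t2 α : ℝ} (h1 : s ≤ t1) (h12 : t1 ≤ t2) (h2 : t2 ≤ τ)
    (hA : Ann H τ (z τ) ϑ k.ε0 t1 α (2 * L * a)) (hα : α ≤ a) {G : Set M}
    (hG : ∀ y ∈ G, H.d τ (z τ) y < 2 * L * a) (hE : ∀ t ∈ Ioo t1 t2, ∀ y ∈ G, H.en t y ϑ ≤ k.ε0) :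
    Reg H t1 t2 G ζ A B := by
  have hk := (T.key t1 ⟨h1, h12.trans h2⟩ (hA.mono le_rfl hα)).2
  have hs : Icc t1 t2 ⊆ Icc s τ := Icc_subset_Icc h1 h2
  exact ⟨(T.mem ⟨h1, h12.trans h2⟩).1, h12, h2.trans_lt T.lt, T.cont.mono hs,
    fun t ht => T.nn t (hs ht),
    fun t ht x hx => (hk t ⟨ht.1, ht.2.le.trans h2⟩ x (hG x hx) (hE t ht x hx)).2.1,
    fun t ht x hx => (hk t ⟨ht.1, ht.2.le.trans h2⟩ x (hG x hx) (hE t ht x hx)).2.2,
    fun t ht x hx => (hk t ⟨ht.1, ht.2.le.trans h2⟩ x (hG x hx) (hE t ht x hx)).1⟩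

/-- short paths do not cross the static annulus -/
theorem out_lt {t α : ℝ} (ht : t ∈ Icc s τ) (hA : Ann H τ (z τ) ϑ k.ε0 t α (2 * L * a))
    (hα : α ≤ a) {x y : M} {A' r : ℝ} (hx : H.d τ (z τ) x ≤ A') (hA' : α ≤ A')
    (hy : H.d t x y < r) (hr : A' + 2 * r ≤ 2 * L * a) : H.d τ (z τ) y < A' + 2 * r := by
  have R := T.reg ht.1 ht.2 le_rfl hA hα
    (G := {y | α ≤ H.d τ (z τ) y ∧ H.d τ (z τ) y < 2 * L * a}) (fun y hy => hy.2)
    fun u hu y hy => hA u ⟨hu.1, hu.2.le⟩ y hy.1 hy.2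
  exact cross_lt T.ok (T.mem ht) T.memτ two_pos (R.cp T.ok (T.exp_le ht.1 ht.2 le_rfl)).1
    (fun x h1 h2 => ⟨h1.le, h2⟩) hx hA' hy hr

/-- concentration points are deep inside -/
theorem deep {t α : ℝ} (ht : t ∈ Icc s τ) (hA : Ann H τ (z τ) ϑ k.ε0 t α (2 * L * a))
    (hα : α ≤ a) {y : M} (hy : H.d τ (z τ) y < 2 * L * a) {r : ℝ} (hr : 0 < r) (hra : 2 * r ≤ a)
    (he : k.ε0 / 8 < H.en t y r) : H.d τ (z τ) y < (2 * C0 + 5) * a := by
  have ha := T.a_pos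
  have h1 := T.conc t ht y hy r hr (by linarith) he
  have h2 := (T.key t ht (hA.mono le_rfl hα)).1 t ⟨le_rfl, ht.2⟩
  have h3 := T.ok.dist.tri t (T.mem ht) (z τ) (z t) y
  have h4 := T.ok.dist.symm t (T.mem ht) (z τ) (z t)
  have hL := T.L_ge
  have h6 := T.out_lt ht hA hα (x := z τ) (y := y) (A' := a) (r := (C0 + 2) * a)
    (by rw [T.ok.dist.self τ T.memτ]; exact ha.le) hα (by linarith) (by nlinarith)
  linarith

theorem deep2 {t α : ℝ} (ht : t ∈ Icc s τ) (hA : Ann H τ (z τ) ϑ k.ε0 t α (2 * L * a))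
    (hα : α ≤ a) {y x : M} (hy : H.d τ (z τ) y < (2 * C0 + 5) * a) (hx : H.d t y x < a) :
    H.d τ (z τ) x < 2 * L * a := by
  have ha := T.a_pos
  have hL := T.L_ge
  have hC := T.C0_ge
  have h6 := T.out_lt ht hA hα hy.le (by nlinarith) hx (by nlinarith)
  nlinarith

end Tk

end Crest.Agent.N207.T

end
end

-- ▼ part N207/T/Trk2
section

/-!
# Row 207 (helper36): cluster tracking, part 2: one stage
-/

set_option autoImplicit false
set_option linter.unusedSectionVars false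
set_option linter.dupNamespace false

open scoped ContDiff Topology
open Set MeasureTheory Filter

noncomputable section

namespace Crest.Agent.N207.T

variable {M : Type*} [TopologicalSpace M] [CompactSpace M] [MeasurableSpace M]
  [OpensMeasurableSpace M] {H : HC M}

/-- the part of `U` outside the caps -/
def Out (U : Set M) (F : Finset M) (Ω : M → Set M) : Set M := {y | y ∈ U ∧ ∀ w ∈ F, y ∉ Ω w}

/-- one stage -/
structure Sg (k : Kn H) (s τ a σ L ϑ A B δ C0 : ℝ) (z : ℝ → M) (ζ : ℝ → ℝ) (b α α' γ ρ : ℝ)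
    (F : Finset M) (Ω : M → Set M) : Prop where
  T : Tk k s τ a σ L ϑ A B δ C0 z ζ
  hb : b ∈ Icc s τ
  ann : Ann H τ (z τ) ϑ k.ε0 b α (2 * L * a)
  cd : Cd k (H.B τ (z τ) (2 * L * a)) b γ ρ F Ω
  loc : ∀ w ∈ F, H.d τ (z τ) w < α
  α'_ge : α + 6 * ρ ≤ α'
  α'_le : α' ≤ a
  Kρ : k.K * ρ ≤ σ
  ϑ_le : ϑ ≤ k.lam * (γ / 8)

namespace Sg

variable {k : Kn H} {s τ a σ L ϑ A B δ C0 : ℝ} {z : ℝ → M} {ζ : ℝ → ℝ} {b α α' γ ρ : ℝ}
  {F : Finset M} {Ω : M → Set M} (S : Sg k s τ a σ L ϑ A B δ C0 z ζ b α α' γ ρ F Ω)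
include S

theorem γ_le : 44 * γ ≤ ρ := by
  have := S.cd.γρ
  have := k.K_ge
  have := S.cd.γ_pos
  nlinarith

theorem ρ_pos : 0 < ρ := by linarith [S.γ_le, S.cd.γ_pos]

theorem ρ_le : 44 * ρ ≤ k.K * ρ := by
  have := k.K_ge
  have := S.ρ_pos
  nlinarith

theorem α_le : α ≤ a := by linarith [S.α'_ge, S.α'_le, S.ρ_pos]

theorem memb : b ∈ Ioo 0 H.T := S.T.mem S.hb

theorem θ_pos : 0 < k.lam * (γ / 8) := mul_pos k.lam_pos (by linarith [S.cd.γ_pos])

theorem θ_le : k.lam * (γ / 8) ≤ γ / 8 :=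
  mul_le_of_le_one_left (by linarith [S.cd.γ_pos]) k.lam_le

theorem mem_out {w x : M} (hw : w ∈ F) (hx : H.d b w x < k.K * ρ) (hΩ : x ∉ Ω w) :
    x ∈ Out (H.B τ (z τ) (2 * L * a)) F Ω := by
  have h1 := S.ρ_le
  have h2 := S.ρ_pos
  have ha := S.T.a_pos
  refine ⟨?_, fun w' hw' hx' => ?_⟩
  · have hL := S.T.L_ge
    have hC := S.T.C0_ge
    have h3 := S.Kρ.trans S.T.σ_le
    have := S.T.out_lt S.hb S.ann S.α_le (A' := a) ((S.loc w hw).le.trans S.α_le) S.α_le hx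
      (by nlinarith)
    show H.d τ (z τ) x < 2 * L * a
    nlinarith
  · by_cases e : w = w'
    · exact hΩ (e ▸ hx')
    · have a1 := S.cd.sep w hw w' hw' e
      have a2 : H.d b w' x < 2 * ρ := (S.cd.cap w' hw').hi hx'
      have a3 := S.T.ok.dist.tri b S.memb w x w'
      have a4 := S.T.ok.dist.symm b S.memb x w'
      linarith

theorem mem_out' {w x : M} (hw : w ∈ F) (h1 : 2 * ρ ≤ H.d b w x) (hx : H.d b w x < k.K * ρ) :
    x ∈ Out (H.B τ (z τ) (2 * L * a)) F Ω :=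
  S.mem_out hw hx fun h => absurd ((S.cd.cap w hw).hi h) (not_lt.2 h1)

theorem ann_out {y : M} (h1 : α' ≤ H.d τ (z τ) y) (h2 : H.d τ (z τ) y < 2 * L * a) :
    y ∈ Out (H.B τ (z τ) (2 * L * a)) F Ω := by
  refine ⟨h2, fun w hw hy => ?_⟩
  have a2 : H.d b w y < 2 * ρ := (S.cd.cap w hw).hi hy
  have hL := S.T.L_ge
  have hC := S.T.C0_ge
  have ha := S.T.a_pos
  have := S.T.out_lt S.hb S.ann S.α_le (S.loc w hw).le le_rfl a2
    (by nlinarith [S.α'_ge, S.α'_le, S.ρ_pos])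
  linarith [S.α'_ge, S.ρ_pos]

/-- the first time at which the region outside the caps fails to be regular -/
theorem event : ∃ t ∈ Icc s b, (∀ u ∈ Ioc t b, ∀ y ∈ Out (H.B τ (z τ) (2 * L * a)) F Ω,
    H.en u y (k.lam * (γ / 8)) ≤ k.ε0) ∧
    (t = s ∨ ∃ y ∈ Out (H.B τ (z τ) (2 * L * a)) F Ω, k.ε0 / 2 < H.en t y (γ / 8)) := by
  have hγ := S.cd.γ_pos
  obtain ⟨t, ht, h1, h2⟩ := exists_inf S.hb.1 (h := k.cP * (γ / 8) ^ 2)
    (by have := k.cP_pos; positivity)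
    fun u => ∀ y ∈ Out (H.B τ (z τ) (2 * L * a)) F Ω, H.en u y (k.lam * (γ / 8)) ≤ k.ε0
  refine ⟨t, ht, h1, h2.imp_right fun h3 => ?_⟩
  by_contra hc
  push Not at hc
  refine h3 fun u hu hut y hy => k.pers t (S.T.late ⟨ht.1, ht.2.trans S.hb.2⟩) y _ (by positivity)
    ?_ (hc y hy) u (S.T.mem ⟨hu.1, hu.2.trans S.hb.2⟩) hut
  linarith [S.γ_le, S.ρ_le, S.Kρ, S.T.σ_le, S.T.a_le]

variable {t : ℝ} (ht : t ∈ Icc s b) (hE : ∀ u ∈ Ioc t b,
  ∀ y ∈ Out (H.B τ (z τ) (2 * L * a)) F Ω, H.en u y (k.lam * (γ / 8)) ≤ k.ε0)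
include ht

theorem ht' : t ∈ Icc s τ := ⟨ht.1, ht.2.trans S.hb.2⟩

theorem memt : t ∈ Ioo 0 H.T := S.T.mem (S.ht' ht)

include hE

theorem ann' : Ann H τ (z τ) ϑ k.ε0 t α' (2 * L * a) := fun u hu y h1 h2 => by
  by_cases hub : u ≤ b
  · exact (en_mono S.T.ok (S.T.mem ⟨ht.1.trans hu.1.le, hu.2⟩) y S.ϑ_le).trans
      (hE u ⟨hu.1, hub⟩ y (S.ann_out h1 h2))
  · exact S.ann u ⟨not_le.1 hub, hu.2⟩ y (by linarith [S.α'_ge, S.ρ_pos]) h2

theorem reg : Reg H t b (Out (H.B τ (z τ) (2 * L * a)) F Ω) ζ A B :=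
  S.T.reg ht.1 ht.2 S.hb.2 (S.ann' ht hE) S.α'_le (fun _ hy => hy.1) fun u hu y hy =>
    (en_mono S.T.ok (S.T.mem ⟨ht.1.trans hu.1.le, hu.2.le.trans S.hb.2⟩) y S.ϑ_le).trans
      (hE u ⟨hu.1, hu.2.le⟩ y hy)

theorem cp2 : Cp H t b (Out (H.B τ (z τ) (2 * L * a)) F Ω) 2 :=
  ((S.reg ht hE).cp S.T.ok (S.T.exp_le ht.1 ht.2 S.hb.2)).1

theorem in_lt {w x y : M} (hw : w ∈ F) {A' r : ℝ} (hx : H.d b w x ≤ A') (hA' : 2 * ρ ≤ A')
    (hy : H.d t x y < r) (hr : A' + 2 * r ≤ k.K * ρ) : H.d b w y < A' + 2 * r :=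
  cross_lt S.T.ok (S.memt ht) S.memb two_pos (S.cp2 ht hE)
    (fun _ h1 h2 => S.mem_out' hw h1.le h2) hx hA' hy hr

theorem tr {w : M} {r : ℝ} (hr : 0 < r) (hrσ : r ≤ σ)
    (hG : ∀ x, r < H.d b w x → H.d b w x < 4 * r → x ∈ Out (H.B τ (z τ) (2 * L * a)) F Ω) :
    ∫ x in H.B b w r, H.N 0 t x ∂H.vol t ≤ H.en b w (2 * r) + k.η2 / 2 := by
  have h1 := k.tr (S.reg ht hE) (S.T.late (S.ht' ht)).1
    (by linarith [S.T.len, k.r1_le, ht.1, S.hb.2]) S.T.A_nn S.T.B_nn (S.T.exp_le ht.1 ht.2 S.hb.2)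
    w r hr (by linarith [S.T.σ_le, S.T.a_le, k.r1_le]) hG
  have h2 := S.T.int_le ht.1 ht.2 S.hb.2
  have h3 := (S.reg ht hE).int_nonneg
  have h4 := S.T.A_nn
  have h5 := S.T.B_nn
  have h6 := k.CT_pos
  have h8 := S.T.σ_pos
  have h7 : k.CT * (A * B * r ^ 3 * (∫ u in t..b, ζ u) + r ^ 2) ≤
      k.CT * (A * B * σ ^ 3 * δ + σ ^ 2) := by gcongr
  linarith [S.T.err]

theorem en_up {w : M} (hw : w ∈ F) :
    ∫ x in H.B b w (11 * ρ), H.N 0 t x ∂H.vol t ≤ H.en b w ρ + k.η2 := by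
  have h0 := S.ρ_pos
  have h1 := S.ρ_le
  have h2 := S.tr ht hE (w := w) (r := 11 * ρ) (by positivity) (by linarith [S.Kρ])
    fun x h1 h2 => S.mem_out' hw (by linarith) (by linarith)
  have h3 := en_mono S.T.ok S.memb w (show 2 * (11 * ρ) ≤ k.K * ρ by linarith)
  have h4 := en_mono S.T.ok S.memb w (show ρ / k.K ≤ ρ from div_le_self h0.le
    (by linarith [k.K_ge]))
  linarith [S.cd.ann w hw]

theorem ptw {y : M} (hy : y ∈ Out (H.B τ (z τ) (2 * L * a)) F Ω) :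
    H.N 0 t y ≤ k.CE / (k.lam * (γ / 8)) ^ 4 := by
  have h0 := S.θ_pos
  have h1 : k.lam * (γ / 8) ≤ k.r1 := by
    linarith [S.θ_le, S.γ_le, S.ρ_le, S.Kρ, S.T.σ_le, S.T.a_le, S.cd.γ_pos]
  have h2 : 0 < k.cE * (k.lam * (γ / 8)) ^ 2 := by have := k.cE_pos; positivity
  rcases le_total b (t + k.cE * (k.lam * (γ / 8)) ^ 2) with h | h
  · refine k.reg b (S.T.late S.hb) y _ h0 h1 ?_ t (S.memt ht) (abs_le.2 ⟨by linarith, ?_⟩)
    · have := en_mono S.T.ok S.memb y (show k.lam * (γ / 8) ≤ γ by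
        linarith [S.θ_le, S.cd.γ_pos])
      linarith [S.cd.reg y hy.1 hy.2, k.ε0_pos]
    · linarith [ht.2]
  · exact k.reg _ (S.T.late ⟨by linarith [ht.1], h.trans S.hb.2⟩) y _ h0 h1
      (hE _ ⟨by linarith, h⟩ y hy) t (S.memt ht) (abs_le.2 ⟨by linarith, by linarith⟩)

/-- concentration at a much smaller scale happens near the caps -/
theorem near {y : M} (hy : y ∈ H.B τ (z τ) (2 * L * a)) {r : ℝ} (hr : 0 < r)
    (hrμ : r ≤ k.μ * (k.lam * (γ / 8))) (he : k.ε0 / 8 < H.en t y r) :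
    ∃ w ∈ F, H.d b w y < 3 * ρ := by
  have h0 := S.θ_pos
  have h1 : r ≤ γ / 8 := hrμ.trans ((mul_le_of_le_one_left h0.le k.μ_le).trans S.θ_le)
  have h2 := S.γ_le
  have h3 := S.ρ_le
  have h4 := S.Kρ.trans S.T.σ_le
  have hd := S.T.deep (S.ht' ht) (S.ann' ht hE) S.α'_le hy hr (by linarith) he
  by_contra hc
  push Not at hc
  have hs : ∀ x ∈ H.B t y r, x ∈ Out (H.B τ (z τ) (2 * L * a)) F Ω := fun x hx => by
    have hx' : H.d t y x < r := hx
    refine ⟨S.T.deep2 (S.ht' ht) (S.ann' ht hE) S.α'_le hd (by linarith), fun w hw hΩ => ?_⟩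
    have a1 : H.d b w x < 2 * ρ := (S.cd.cap w hw).hi hΩ
    have := S.in_lt ht hE hw a1.le le_rfl (y := y) (r := r)
      (by rw [S.T.ok.dist.symm t (S.memt ht)]; exact hx') (by linarith)
    linarith [hc w hw]
  have := S.T.ok.int.fin t (S.memt ht)
  have a1 : H.en t y r ≤ ∫ _x in H.B t y r, k.CE / (k.lam * (γ / 8)) ^ 4 ∂H.vol t :=
    setIntegral_mono_on (S.T.ok.alg.integrable S.T.ok.int (S.memt ht)
      (S.T.ok.alg.s0_N (S.memt ht) 0)).integrableOn (integrable_const _).integrableOn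
      (HC.isOpen_B S.T.ok.dist (S.memt ht) _ _).measurableSet fun x hx => S.ptw ht hE (hs x hx)
  rw [setIntegral_const, smul_eq_mul] at a1
  have a2 := k.up t (S.T.late (S.ht' ht)) y r hr
  have a3 := k.CE_pos
  have a4 := k.CV_pos
  have a5 : (H.vol t).real (H.B t y r) * (k.CE / (k.lam * (γ / 8)) ^ 4) ≤
      k.CV * (k.μ * (k.lam * (γ / 8))) ^ 4 * (k.CE / (k.lam * (γ / 8)) ^ 4) := by
    gcongr
    exact a2.trans (by gcongr)
  have a6 : k.CV * (k.μ * (k.lam * (γ / 8))) ^ 4 * (k.CE / (k.lam * (γ / 8)) ^ 4) =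
      k.CE * k.CV * k.μ ^ 4 := by
    generalize k.lam * (γ / 8) = θ at h0
    field_simp
  linarith [k.μ_en]

/-- the event happens near a cap -/
theorem caseA {y : M} (hy : y ∈ Out (H.B τ (z τ) (2 * L * a)) F Ω)
    (he : k.ε0 / 2 < H.en t y (γ / 8)) : ∃ w ∈ F, H.d b w y < 3 * ρ := by
  have h0 := S.cd.γ_pos
  have h2 := S.γ_le
  have h3 := S.ρ_le
  have h4 := S.Kρ
  have h5 := S.T.σ_le
  have hε := k.ε0_pos
  have hd := S.T.deep (S.ht' ht) (S.ann' ht hE) S.α'_le hy.1 (r := γ / 8) (by positivity)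
    (by linarith) (by linarith)
  by_contra hc
  push Not at hc
  have hs : ∀ x, H.d b y x < γ → x ∈ Out (H.B τ (z τ) (2 * L * a)) F Ω := fun x hx => by
    refine ⟨S.T.deep2 S.hb S.ann S.α_le hd (by linarith), fun w hw hΩ => ?_⟩
    have a1 : H.d b w x < 2 * ρ := (S.cd.cap w hw).hi hΩ
    have a2 := S.T.ok.dist.tri b S.memb w x y
    have a3 := S.T.ok.dist.symm b S.memb x y
    linarith [hc w hw]
  have a1 := S.tr ht hE (w := y) (r := γ / 4) (by positivity) (by linarith)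
    fun x _ h => hs x (by linarith)
  have a2 : H.en t y (γ / 8) ≤ ∫ x in H.B b y (γ / 4), H.N 0 t x ∂H.vol t :=
    intN_mono S.T.ok (S.memt ht) fun x hx => by
      have := cross_lt S.T.ok (S.memt ht) S.memb two_pos (S.cp2 ht hE) (w := y) (α := 0) (β := γ)
        (fun x _ h => hs x h) (x := y) (A := 0) (S.T.ok.dist.self b S.memb y).le le_rfl hx
        (by linarith)
      show H.d b y x < γ / 4
      linarith
  have a3 := en_mono S.T.ok S.memb y (show 2 * (γ / 4) ≤ γ by linarith)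
  linarith [S.cd.reg y hy.1 hy.2, k.η2_le, k.ε3_le]

/-- the whole energy of a cluster does not leave its cap -/
theorem caseB {w y : M} (hw : w ∈ F) (hy : y ∈ Out (H.B τ (z τ) (2 * L * a)) F Ω)
    (hd : H.d b w y < 3 * ρ) : H.en t y (k.β * ρ) ≤ H.en b w ρ - k.ε3 := by
  by_contra hc
  push Not at hc
  have h0 := S.ρ_pos
  have h3 := S.ρ_le
  have h4 := S.Kρ
  have hθ := k.θv_pos
  have hΛ := k.Λ_gt
  have a1 : H.en t y (4 * ρ) ≤ ∫ x in H.B b w (11 * ρ), H.N 0 t x ∂H.vol t :=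
    intN_mono S.T.ok (S.memt ht) fun x hx => by
      have := S.in_lt ht hE hw hd.le (by linarith) hx (by linarith)
      show H.d b w x < 11 * ρ
      linarith
  have a2 := S.en_up ht hE hw
  have a3 := en_mono S.T.ok S.memb w (show γ ≤ ρ by linarith [S.γ_le, S.cd.γ_pos])
  have a4 := k.nv t (S.T.late (S.ht' ht)) y ρ h0 (by linarith [S.T.σ_le, S.T.a_le])
    (by linarith [S.cd.en w hw, k.ε3_le]) (by linarith)
  obtain ⟨W, hW, hv, hl⟩ := (S.cd.cap w hw).big y (show H.d b w y < 4 * ρ by linarith) (hy.2 w hw)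
  have hx1 : 0 < Real.exp δ := Real.exp_pos _
  have cp := ((S.reg ht hE).cp S.T.ok
    (Real.exp_le_exp.2 (S.T.int_le ht.1 ht.2 S.hb.2))).2
  have hsub : W ⊆ H.B t y (k.Λ * (k.θv * ρ)) := fun x hx => by
    have he : 0 < (k.Λ - Real.exp δ) * (k.θv * ρ) / 4 := by
      have := S.T.exp_lt
      have : 0 < k.Λ - Real.exp δ := by linarith
      positivity
    obtain ⟨u, hu, hu1, hu2⟩ := S.T.ok.dist.approx t (S.memt ht) y _ he
    have b1 := hl u hu (Real.exp δ) hx1.le (fun v hv hΩ => by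
      have b2 : H.d b w v < 8 * ρ := hv
      refine (cp u hu v (S.mem_out hw (by linarith) hΩ)).trans ?_
      exact mul_le_of_le_one_right (sq_nonneg _) (hu1 v)) x hx
    have b2 := abs_le.1 (hu2 x)
    have b3 := abs_le.1 (hu2 y)
    rw [S.T.ok.dist.self t (S.memt ht)] at b3
    have b4 := (abs_le.1 b1).2
    show H.d t y x < k.Λ * (k.θv * ρ)
    nlinarith
  have := S.T.ok.int.fin t (S.memt ht)
  have a5 := k.vol t (S.memt ht) b S.memb
    (abs_le.2 ⟨by linarith [ht.2, S.T.σ_pos, S.T.σ_le, S.T.a_le],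
      by linarith [S.T.len, ht.1, S.hb.2]⟩) W
  have a6 : (H.vol t).real W ≤ k.v1 * (k.Λ * (k.θv * ρ)) ^ 4 := (measureReal_mono hsub).trans a4
  have a7 : k.Λ * (H.vol t).real W ≤ k.Λ * (k.v1 * (k.Λ * (k.θv * ρ)) ^ 4) := by gcongr
  have a8 : k.Λ ^ 5 * k.v1 * (k.θv * ρ) ^ 4 < k.v2 * (k.θv * ρ) ^ 4 :=
    mul_lt_mul_of_pos_right k.v12 (by positivity)
  nlinarith

/-- the potential drops -/
theorem pot {y : M} (hy : y ∈ Out (H.B τ (z τ) (2 * L * a)) F Ω)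
    (he : k.ε0 / 2 < H.en t y (γ / 8)) {γ' ρ' : ℝ} {F' : Finset M} {Ω' : M → Set M}
    (C : Cd k (H.B τ (z τ) (2 * L * a)) t γ' ρ' F' Ω')
    (hρ : k.K * ρ' ≤ k.μ * (k.lam * (γ / 8))) :
    (∀ w ∈ F', H.d τ (z τ) w < α') ∧
      ∑ w ∈ F', H.en t w ρ' ^ 2 ≤ ∑ w ∈ F, H.en b w ρ ^ 2 - k.ε3 * k.ε0 / 32 := by
  classical
  have h0 := S.ρ_pos
  have h1 := S.γ_le
  have h2 := S.ρ_le
  have hK := k.K_ge
  have hγ' := C.γ_pos
  have hγρ := C.γρ
  have hρ' : 0 < ρ' := by nlinarith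
  have hγ'' : γ' ≤ ρ' := by nlinarith
  have hρK : 44 * ρ' ≤ k.K * ρ' := by nlinarith
  have hθ : k.μ * (k.lam * (γ / 8)) ≤ γ / 8 :=
    (mul_le_of_le_one_left S.θ_pos.le k.μ_le).trans S.θ_le
  have ok := S.T.ok
  have mt := S.memt ht
  have hex : ∀ v, ∃ w, v ∈ F' → w ∈ F ∧ H.d b w v < 3 * ρ := fun v => by
    by_cases hv : v ∈ F'
    · obtain ⟨w, hw, hd⟩ := S.near ht hE (C.mem v hv) hγ' (by linarith) (C.en v hv)
      exact ⟨w, fun _ => ⟨hw, hd⟩⟩
    · exact ⟨v, fun h => absurd h hv⟩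
  choose π hπ using hex
  constructor
  · intro v hv
    have hL := S.T.L_ge
    have hC := S.T.C0_ge
    have ha := S.T.a_pos
    have := S.T.out_lt S.hb S.ann S.α_le (S.loc _ (hπ v hv).1).le le_rfl (hπ v hv).2
      (by nlinarith [S.α'_ge, S.α'_le])
    linarith [S.α'_ge]
  obtain ⟨w0, hw0, hd0⟩ := S.caseA ht hE hy he
  have hB := S.caseB ht hE hw0 hy hd0
  have sub : ∀ v ∈ F', H.B t v ρ' ⊆ H.B b (π v) (11 * ρ) := fun v hv x hx => by
    have := S.in_lt ht hE (hπ v hv).1 (hπ v hv).2.le (by linarith) hx (by linarith)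
    show H.d b (π v) x < 11 * ρ
    linarith
  have sum_le : ∀ p ∈ F, ∑ v ∈ F' with π v = p, H.en t v ρ' ≤ H.en b p ρ + k.η2 := fun p hp =>
    (sum_en_le ok mt _ (fun i hi j hj hij => by
        linarith [C.sep i (Finset.mem_filter.1 hi).1 j (Finset.mem_filter.1 hj).1 hij])
      fun i hi => (Finset.mem_filter.1 hi).2 ▸ sub i (Finset.mem_filter.1 hi).1).trans
      (S.en_up ht hE hp)
  have nn : ∀ v, 0 ≤ H.en t v ρ' := fun v => HC.en_nonneg ok.evo mt v ρ'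
  have hβ : γ ≤ k.β * ρ := by
    have a1 := S.cd.γρ
    have a2 := k.Kβ
    have a3 := S.cd.γ_pos
    have a4 : 0 < k.β := by nlinarith
    nlinarith
  have one : ∀ v ∈ F', π v = w0 → H.en t v ρ' ≤ H.en b w0 ρ - k.ε3 := fun v hv e => by
    by_cases hc : H.d t y v < k.β * ρ / 2
    · refine le_trans (intN_mono ok mt fun x hx => ?_) hB
      have a1 : H.d t v x < ρ' := hx
      have a2 := ok.dist.tri t mt y v x
      show H.d t y x < k.β * ρ
      linarith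
    · have iN := (ok.alg.integrable ok.int mt (ok.alg.s0_N mt 0))
      have a1 := setIntegral_union (μ := H.vol t) (f := H.N 0 t) (s := H.B t v ρ')
        (t := H.B t y (γ / 8)) (Set.disjoint_left.2 fun x h1 h2 => by
          have a1 : H.d t v x < ρ' := h1
          have a2 : H.d t y x < γ / 8 := h2
          have a3 := ok.dist.tri t mt y x v
          have a4 := ok.dist.symm t mt x v
          linarith [S.cd.γ_pos]) (HC.isOpen_B ok.dist mt _ _).measurableSet iN.integrableOn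
        iN.integrableOn
      have a2 := intN_mono ok mt (S := H.B t v ρ' ∪ H.B t y (γ / 8)) (S' := H.B b w0 (11 * ρ))
        (union_subset (e ▸ sub v hv) fun x hx => by
          have := S.in_lt ht hE hw0 hd0.le (by linarith) hx (by linarith)
          show H.d b w0 x < 11 * ρ
          linarith)
      have a3 := S.en_up ht hE hw0
      unfold HC.en at he a3 ⊢
      linarith [k.η2_le, k.ε3_le, k.ε0_pos]
  have enE : ∀ p, H.en b p ρ ≤ k.E := fun p =>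
    (intN_le ok S.memb _).trans (k.hE b (S.T.late S.hb))
  have hη := k.η2_pos
  have inner : ∀ p ∈ F, ∑ v ∈ F' with π v = p, H.en t v ρ' ^ 2 ≤ H.en b p ρ ^ 2 +
      k.η2 * (2 * k.E + 1) - if p = w0 then k.ε3 * k.ε0 / 16 else 0 := fun p hp => by
    have e0 := HC.en_nonneg ok.evo S.memb p ρ
    have e1 := enE p
    have key : ∀ m, 0 ≤ m → (∀ v ∈ F', π v = p → H.en t v ρ' ≤ m) →
        ∑ v ∈ F' with π v = p, H.en t v ρ' ^ 2 ≤ m * (H.en b p ρ + k.η2) := fun m hm h =>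
      calc _ ≤ ∑ v ∈ F' with π v = p, m * H.en t v ρ' := Finset.sum_le_sum fun v hv => by
            rw [sq]
            exact mul_le_mul_of_nonneg_right
              (h v (Finset.mem_filter.1 hv).1 (Finset.mem_filter.1 hv).2) (nn v)
        _ = m * ∑ v ∈ F' with π v = p, H.en t v ρ' := by rw [Finset.mul_sum]
        _ ≤ _ := mul_le_mul_of_nonneg_left (sum_le p hp) hm
    split_ifs with e
    · subst e
      have a3 := en_mono ok S.memb p (show γ ≤ ρ by linarith [S.cd.γ_pos])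
      have a4 := S.cd.en p hp
      have a5 := key _ (by linarith [k.ε3_le, k.ε0_pos]) one
      have a6 := k.η2_le
      have a7 := k.ε3_pos
      have a8 : k.ε3 / 2 * (k.ε0 / 8) ≤ (k.ε3 - k.η2) * H.en b p ρ :=
        mul_le_mul (by linarith) (by linarith) (by linarith [k.ε0_pos]) (by linarith)
      nlinarith [mul_pos hη a7, mul_nonneg hη.le (show 0 ≤ 2 * k.E + 1 by linarith)]
    · have a5 := key (H.en b p ρ + k.η2) (by linarith) fun v hv e' =>
        (Finset.single_le_sum (f := fun v => H.en t v ρ') (fun v _ => nn v)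
          (Finset.mem_filter.2 ⟨hv, e'⟩)).trans (sum_le p hp)
      nlinarith [k.η2_le1]
  rw [← Finset.sum_fiberwise_of_maps_to (g := π) (t := F) fun v hv => (hπ v hv).1]
  refine (Finset.sum_le_sum inner).trans ?_
  rw [Finset.sum_sub_distrib, Finset.sum_add_distrib, Finset.sum_ite_eq' F w0, if_pos hw0,
    Finset.sum_const, nsmul_eq_mul]
  have c1 : (F.card : ℝ) ≤ 8 * k.E / k.ε0 := by
    rw [le_div_iff₀ k.ε0_pos]; linarith [S.cd.card]
  have c2 : (F.card : ℝ) * (k.η2 * (2 * k.E + 1)) ≤ 8 * k.E / k.ε0 * (k.η2 * (2 * k.E + 1)) :=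
    mul_le_mul_of_nonneg_right c1 (mul_nonneg hη.le (by
      linarith [enE w0, HC.en_nonneg ok.evo S.memb w0 ρ]))
  linarith [k.η2_pot]

end Sg

end Crest.Agent.N207.T

end
end

-- ▼ part N207/T/Trk3
section

/-!
# Row 207 (helper36): cluster tracking, part 3: the induction, the constants, `TRKZ`
-/

set_option autoImplicit false
set_option linter.unusedSectionVars false

open scoped ContDiff Topology
open Set MeasureTheory Filter

noncomputable section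

namespace Crest.Agent.N207.T

variable {M : Type*} [TopologicalSpace M] [CompactSpace M] [MeasurableSpace M]
  [OpensMeasurableSpace M] {H : HC M}

/-- clusters exist at every scale -/
def HCd (k : Kn H) (g : ℝ) : Prop :=
  ∀ t ∈ Ico (H.T / 2) H.T, ∀ (U : Set M) (r : ℝ), 0 < r → r ≤ k.r1 →
    ∃ (F : Finset M) (ρ : ℝ) (Ω : M → Set M), Cd k U t (g * r) ρ F Ω ∧ k.K * ρ ≤ r

theorem core {k : Kn H} {s τ a σ L ϑ A B δ C0 : ℝ} {z : ℝ → M} {ζ : ℝ → ℝ}
    (T : Tk k s τ a σ L ϑ A B δ C0 z ζ) {g : ℝ} (hg : 0 < g) (hg1 : g ≤ 1) (hcd : HCd k g) {N : ℕ}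
    (hN : k.E ^ 2 < N * (k.ε3 * k.ε0 / 32))
    (hϑ : ϑ ≤ k.lam * (g * (σ / (N + 1) * (k.μ * k.lam * g / 8) ^ N) / 8))
    (h0 : ∀ y, H.d τ (z τ) y < 2 * L * a → ∀ r, 0 < r → r ≤ a → k.ε0 / 8 < H.en τ y r →
      H.d τ (z τ) y < 2 * r + σ / 8) : Ann H τ (z τ) ϑ k.ε0 s σ (2 * L * a) := by
  set q := k.μ * k.lam * g / 8 with hq
  have hσ := T.σ_pos
  have hK := k.K_ge
  have hl := k.lam_pos
  have q0 : 0 < q := by have := k.μ_pos; positivity
  have q1 : q ≤ 1 := by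
    have a1 : k.μ * k.lam ≤ 1 := mul_le_one₀ k.μ_le hl.le k.lam_le
    have a2 : k.μ * k.lam * g ≤ 1 := mul_le_one₀ a1 hg.le hg1
    linarith
  have hN1 : (1 : ℝ) ≤ N + 1 := by linarith [Nat.cast_nonneg (α := ℝ) N]
  have r0 : 0 < σ / (N + 1) := by positivity
  have r0σ : σ / (N + 1) ≤ σ := div_le_self hσ.le hN1
  have rj : ∀ j : ℕ, σ / (N + 1) * q ^ j ≤ σ / (N + 1) := fun j =>
    mul_le_of_le_one_right r0.le (pow_le_one₀ q0.le q1)
  have key : ∀ j : ℕ, j ≤ N → Ann H τ (z τ) ϑ k.ε0 s σ (2 * L * a) ∨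
      ∃ (b : ℝ) (F : Finset M) (ρ : ℝ) (Ω : M → Set M), b ∈ Icc s τ ∧
        Ann H τ (z τ) ϑ k.ε0 b (σ / 2 + j * (σ / (N + 1) / 2)) (2 * L * a) ∧
        Cd k (H.B τ (z τ) (2 * L * a)) b (g * (σ / (N + 1) * q ^ j)) ρ F Ω ∧
        k.K * ρ ≤ σ / (N + 1) * q ^ j ∧
        (∀ w ∈ F, H.d τ (z τ) w < σ / 2 + j * (σ / (N + 1) / 2)) ∧
        ∑ w ∈ F, H.en b w ρ ^ 2 ≤ k.E ^ 2 - j * (k.ε3 * k.ε0 / 32) := fun j => by
    induction j with
    | zero =>
      intro _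
      obtain ⟨F, ρ, Ω, C, hρ⟩ := hcd τ (T.late ⟨T.le, le_rfl⟩) (H.B τ (z τ) (2 * L * a))
        (σ / (N + 1) * q ^ 0) (by positivity) (by linarith [rj 0, T.σ_le, T.a_le])
      have c1 := C.γ_pos
      have c2 := C.γρ
      have c3 : 0 < ρ := by nlinarith
      have c4 : 44 * (g * (σ / (N + 1) * q ^ 0)) ≤ ρ := by nlinarith
      have c5 : 44 * ρ ≤ k.K * ρ := by nlinarith
      refine Or.inr ⟨τ, F, ρ, Ω, ⟨T.le, le_rfl⟩, fun t ht => absurd ht.1 (not_lt.2 ht.2), C, hρ,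
        fun w hw => ?_, ?_⟩
      · have := h0 w (C.mem w hw) _ c1 (by linarith [rj 0, T.σ_le]) (C.en w hw)
        simp only [Nat.cast_zero, zero_mul, add_zero]
        linarith [rj 0]
      · have hE := k.hE τ (T.late ⟨T.le, le_rfl⟩)
        have a1 := (sum_en_le T.ok T.memτ F (r := ρ) (W := univ)
          (fun i hi j hj hij => by linarith [C.sep i hi j hj hij]) fun _ _ => subset_univ _).trans
          ((intN_le T.ok T.memτ _).trans hE)
        have E0 : 0 ≤ k.E := (integral_nonneg fun y => T.ok.evo.N_nonneg 0 τ T.memτ y).trans hE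
        calc _ ≤ ∑ w ∈ F, k.E * H.en τ w ρ := Finset.sum_le_sum fun v _ => by
              rw [sq]
              exact mul_le_mul_of_nonneg_right ((intN_le T.ok T.memτ _).trans hE)
                (HC.en_nonneg T.ok.evo T.memτ v ρ)
          _ = k.E * ∑ w ∈ F, H.en τ w ρ := by rw [Finset.mul_sum]
          _ ≤ k.E * k.E := mul_le_mul_of_nonneg_left a1 E0
          _ = _ := by simp [sq]
    | succ j ih =>
      intro hj
      rcases ih (Nat.le_of_succ_le hj) with h | ⟨b, F, ρ, Ω, hb, hA, C, hρ, hloc, hΦ⟩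
      · exact Or.inl h
      have c1 := C.γ_pos
      have c2 := C.γρ
      have c3 : 0 < ρ := by nlinarith
      have c5 : 44 * ρ ≤ k.K * ρ := by nlinarith
      have hj' : ((j + 1 : ℕ) : ℝ) ≤ N + 1 := by
        have : ((j + 1 : ℕ) : ℝ) ≤ N := by exact_mod_cast hj
        linarith
      have hα : σ / 2 + ((j + 1 : ℕ) : ℝ) * (σ / (N + 1) / 2) ≤ σ := by
        have a1 : ((j + 1 : ℕ) : ℝ) * (σ / (N + 1) / 2) ≤ (N + 1) * (σ / (N + 1) / 2) := by gcongr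
        have a2 : ((N : ℝ) + 1) * (σ / (N + 1) / 2) = σ / 2 := by field_simp
        linarith
      have S : Sg k s τ a σ L ϑ A B δ C0 z ζ b (σ / 2 + j * (σ / (N + 1) / 2))
          (σ / 2 + ((j + 1 : ℕ) : ℝ) * (σ / (N + 1) / 2)) (g * (σ / (N + 1) * q ^ j)) ρ F Ω :=
        ⟨T, hb, hA, C, hloc, by push_cast; linarith [rj j], hα.trans T.σ_le, by linarith [rj j],
          hϑ.trans (by
            have : q ^ N ≤ q ^ j := pow_le_pow_of_le_one q0.le q1 (Nat.le_of_succ_le hj)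
            gcongr)⟩
      obtain ⟨t, ht, hE, h | ⟨y, hy, he⟩⟩ := S.event
      · exact Or.inl ((h ▸ S.ann' ht hE).mono le_rfl hα)
      obtain ⟨F', ρ', Ω', C', hρ'⟩ := hcd t (T.late (S.ht' ht)) (H.B τ (z τ) (2 * L * a))
        (σ / (N + 1) * q ^ (j + 1)) (by positivity) (by linarith [rj (j + 1), T.σ_le, T.a_le])
      obtain ⟨p1, p2⟩ := S.pot ht hE hy he C' (hρ'.trans_eq (by rw [pow_succ, hq]; ring))
      exact Or.inr ⟨t, F', ρ', Ω', S.ht' ht, S.ann' ht hE, C', hρ', p1, by push_cast; linarith⟩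
  rcases key N le_rfl with h | ⟨b, F, ρ, Ω, -, -, -, -, -, hΦ⟩
  · exact h
  · have : 0 ≤ ∑ w ∈ F, H.en b w ρ ^ 2 := Finset.sum_nonneg fun _ _ => sq_nonneg _
    linarith

theorem exists_kn (h : H.Ok) (c : H.COut) (d : H.DOut) (hP : H.EPers) (hR : H.EReg) (hNV : NV H)
    (hCL : CL H) {ε : ℝ} (hε : 0 < ε) :
    ∃ (k : Kn H) (g : ℝ), k.ε0 ≤ ε ∧ 0 < k.r1 ∧ 0 < g ∧ g ≤ 1 ∧ HCd k g := by
  classical
  have hT : 0 < H.T / 2 := half_pos h.alg.T_pos
  have mem : ∀ t ∈ Ico (H.T / 2) H.T, t ∈ Ioo 0 H.T := fun t ht => ⟨hT.trans_le ht.1, ht.2⟩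
  obtain ⟨εE, cE, rE, hεE, hcE, hrE, -, hreg⟩ := hR _ hT
  obtain ⟨CE, hCE, hreg⟩ := hreg 0
  set ε0 := min ε εE with hε0
  have e0 : 0 < ε0 := lt_min hε hεE
  obtain ⟨cP, lam, rP, hcP, hlam, hrP, hpers⟩ := hP _ hT (ε0 / 2) (by positivity)
  obtain ⟨E, hE, hEN, -⟩ := d.glob _ hT
  obtain ⟨CV, hCV, hup⟩ := c.up _ hT
  obtain ⟨D, CT, -, hCT, htr⟩ := tr2 h c d
  obtain ⟨θ, v1, v2, hθ, -, hv1, hv12, ⟨KN, rN, n0, hKN, hrN, hlo⟩, εU, β, rU, hεU, hβ, hβ1, hrU,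
    hnv⟩ := hNV (ε0 / 16) (by positivity)
  obtain ⟨Λ, hΛ1, hΛ2, hΛ⟩ : ∃ Λ : ℝ, 1 < Λ ∧ Λ ≤ 2 ∧ Λ ^ 5 * v1 < v2 := by
    have h1 : ∀ᶠ x : ℝ in 𝓝 1, x ^ 5 * v1 < v2 :=
      (by fun_prop : Continuous fun x : ℝ => x ^ 5 * v1).continuousAt.eventually_lt
        continuousAt_const (by simpa using hv12)
    have h2 : ∀ᶠ x : ℝ in 𝓝 1, x < 2 := eventually_lt_nhds one_lt_two
    obtain ⟨x, hx1, hx2⟩ := (((h1.and h2).filter_mono nhdsWithin_le_nhds).and
      (self_mem_nhdsWithin : Ioi (1 : ℝ) ∈ 𝓝[>] 1)).exists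
    exact ⟨x, hx2, hx1.2.le, hx1.1⟩
  obtain ⟨KR, hKR⟩ := h.evo.R_bd
  have hKR' : ∀ t ∈ Ioo 0 H.T, ∀ x, |H.R t x| ≤ |KR| + 1 := fun t ht x => by
    linarith [hKR t ht x, le_abs_self KR]
  have hlog : 0 < Real.log Λ / (|KR| + 1) := div_pos (Real.log_pos hΛ1) (by positivity)
  set ε3 := min (ε0 / 16) (εU / 2) with hε3
  have e3 : 0 < ε3 := lt_min (by positivity) (by positivity)
  set η2 := min (min (ε3 / 2) 1) (ε3 * ε0 / 32 / (8 * E / ε0 * (2 * E + 1))) with hη2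
  have e2 : 0 < η2 := lt_min (lt_min (by positivity) one_pos) (by positivity)
  have e23 : η2 ≤ ε3 / 2 := (min_le_left _ _).trans (min_le_left _ _)
  set μ := min 1 (ε0 / 8 / (CE * (εE + 1) * CV)) with hμ
  have m0 : 0 < μ := lt_min one_pos (by positivity)
  set K := max 44 (max KN (1 / β)) with hK
  set r1 := min (min (min 1 rE) (min rP rU)) (min rN (Real.log Λ / (|KR| + 1))) with hr1
  have r10 : 0 < r1 := lt_min (lt_min (lt_min one_pos hrE) (lt_min hrP hrU)) (lt_min hrN hlog)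
  have r11 : r1 ≤ 1 := (min_le_left _ _).trans ((min_le_left _ _).trans (min_le_left _ _))
  have r1E : r1 ≤ rE := (min_le_left _ _).trans ((min_le_left _ _).trans (min_le_right _ _))
  have r1P : r1 ≤ rP := (min_le_left _ _).trans ((min_le_right _ _).trans (min_le_left _ _))
  have r1U : r1 ≤ rU := (min_le_left _ _).trans ((min_le_right _ _).trans (min_le_right _ _))
  have r1N : r1 ≤ rN := (min_le_right _ _).trans (min_le_left _ _)
  have r1L : r1 ≤ Real.log Λ / (|KR| + 1) := (min_le_right _ _).trans (min_le_right _ _)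
  have K44 : 44 ≤ K := le_max_left _ _
  have KKN : KN ≤ K := (le_max_left _ _).trans (le_max_right _ _)
  obtain ⟨g, hg, hcl⟩ := hCL (ε0 / 8) (η2 / 2) K E n0 (by positivity) (by positivity)
    (by linarith)
  let k : Kn H :=
    { ε0 := ε0, E := E, K := K, cP := cP, lam := min lam 1, cE := cE, CE := CE * (εE + 1), CV := CV
      CT := CT, β := β, θv := θ, v1 := v1, v2 := v2, Λ := Λ, ε3 := ε3, η2 := η2, μ := μ, r1 := r1
      ε0_pos := e0, hE := hEN, K_ge := K44, cP_pos := hcP, lam_pos := lt_min hlam one_pos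
      lam_le := min_le_right _ _, cE_pos := hcE, CE_pos := by positivity, CV_pos := hCV
      CT_pos := hCT, β_le := hβ1
      Kβ := by
        have : 1 / β ≤ K := (le_max_right _ _).trans (le_max_right _ _)
        rwa [div_le_iff₀ hβ] at this
      θv_pos := hθ, v1_pos := hv1, Λ_gt := hΛ1, Λ_le := hΛ2, v12 := hΛ, ε3_pos := e3
      ε3_le := min_le_left _ _, η2_pos := e2, η2_le := e23
      η2_le1 := (min_le_left _ _).trans (min_le_right _ _)
      η2_pot := by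
        have : η2 ≤ ε3 * ε0 / 32 / (8 * E / ε0 * (2 * E + 1)) := min_le_right _ _
        rw [le_div_iff₀ (by positivity)] at this
        linarith
      μ_pos := m0, μ_le := min_le_left _ _
      μ_en := by
        have a1 : μ ≤ ε0 / 8 / (CE * (εE + 1) * CV) := min_le_right _ _
        rw [le_div_iff₀ (by positivity)] at a1
        have a2 : μ ^ 4 ≤ μ := pow_le_of_le_one m0.le (min_le_left _ _) (by norm_num)
        have a3 : CE * (εE + 1) * CV * μ ^ 4 ≤ CE * (εE + 1) * CV * μ := by gcongr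
        linarith
      r1_le := r11
      pers := fun t ht x r hr hr1 he u hu hut => by
        have a1 := hpers t ht x r hr (hr1.trans r1P) he u hu hut
        have a2 := en_mono h hu x (show min lam 1 * r ≤ lam * r by
          gcongr; exact min_le_left _ _)
        linarith
      reg := fun t ht x r hr hr1 he u hu hut => by
        have a0 : H.en t x r ≤ εE := he.trans (min_le_right _ _)
        have a1 := ((hreg t ht x r hr (hr1.trans r1E) a0 x (show H.d t x x < r / 2 by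
          rw [h.dist.self t (mem t ht)]; positivity)).1 u hu hut).1
        refine a1.trans ?_
        simp only [mul_zero, add_zero]
        gcongr
        exact hr1.trans r11
      up := hup
      tr := fun R h1 h2 h3 h4 h5 w α h6 h7 h8 => (htr R h1 h2 h3 h4 h5 w α h6 h7 h8).2.1
      nv := fun t ht y ρ hρ hρ1 h1 h2 => hnv t ht y ρ hρ (hρ1.trans r1U) h1
        (by linarith [show ε3 ≤ εU / 2 from min_le_right _ _]) _
        ⟨le_mul_of_one_le_left (by positivity) hΛ1.le, by gcongr⟩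
      vol := fun u hu t ht hut S => by
        have := h.int.fin u hu
        have a1 := h.int.vol_le hKR' u hu t ht S
        have a2 : Real.exp ((|KR| + 1) * |t - u|) ≤ Λ := by
          rw [← Real.exp_log (by linarith : 0 < Λ), Real.exp_le_exp]
          have := hut.trans r1L
          rw [le_div_iff₀ (by positivity)] at this
          linarith
        rw [Measure.smul_apply, smul_eq_mul] at a1
        have a3 := ENNReal.toReal_mono (ENNReal.mul_ne_top ENNReal.ofReal_ne_top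
          (measure_ne_top _ _)) a1
        rw [ENNReal.toReal_mul, ENNReal.toReal_ofReal (Real.exp_pos _).le] at a3
        exact a3.trans (mul_le_mul_of_nonneg_right a2 ENNReal.toReal_nonneg) }
  have hcd : HCd k g := fun t ht U r hr hr1 => by
    choose Bad hBad hcap using hlo t ht
    obtain ⟨F, ρ, f1, f2, f3, f4, f5, f6, f7, f8, f9⟩ := hcl t (mem t ht) (hEN t ht) U r Bad hr hBad
    have gr : 0 < g * r := by positivity
    have ρ0 : 0 < ρ := by nlinarith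
    have a1 : ρ / K ≤ ρ / KN := by gcongr
    have a2 : KN * ρ ≤ K * ρ := by gcongr
    have hex : ∀ w, ∃ Ω : Set M, w ∈ F → Cap H t w ρ θ v2 Ω := fun w => by
      by_cases hw : w ∈ F
      · obtain ⟨Ω, hΩ⟩ := hcap w ρ ρ0 (by linarith [show r ≤ r1 from hr1])
          (fun j hj => (f8 w hw j hj).imp (fun h => h.trans_le a1) fun h => a2.trans_lt h) (by
            have := en_mono h (mem t ht) w (show g * r ≤ ρ / KN from
              le_trans (by rw [le_div_iff₀ (by linarith)]; linarith) a1)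
            linarith [f5 w hw])
        exact ⟨Ω, fun _ => hΩ⟩
      · exact ⟨∅, fun h => absurd h hw⟩
    choose Ω hΩ using hex
    exact ⟨F, ρ, Ω, ⟨f1, gr, f2, f4, f5, f6, f7, hΩ, fun y hy h => f9 y hy fun w hw =>
      not_lt.1 fun hc => h w hw ((hΩ w hw).lo hc)⟩, f3⟩
  refine ⟨k, g, min_le_left _ _, r10, hg, ?_, hcd⟩
  obtain ⟨F, ρ, Ω, C, hρ⟩ := hcd (H.T / 2) ⟨le_rfl, by linarith⟩ univ r1 r10 le_rfl
  have a1 : K * (g * r1) ≤ ρ := C.γρ
  have a2 : K * ρ ≤ r1 := hρ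
  have a3 : 0 < g * r1 := by positivity
  have a5 : g * r1 ≤ K * (g * r1) := le_mul_of_one_le_left a3.le (by linarith)
  have a6 : ρ ≤ K * ρ := le_mul_of_one_le_left (by linarith) (by linarith)
  have a4 : g * r1 ≤ 1 * r1 := by linarith
  exact le_of_mul_le_mul_right a4 r10

theorem Conc.mono {t : ℝ} {U : Set M} {z : M} {a R ε ε' : ℝ} (h : Conc H t U z a R ε)
    (hε : ε ≤ ε') : Conc H t U z a R ε' :=
  fun x hx y hy r h1 h2 h3 => h x hx y hy r h1 h2 (hε.trans_lt h3)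

theorem trkz (h : H.Ok) (c : H.COut) (d : H.DOut) (hP : H.EPers) (hR : H.EReg) (hNV : NV H)
    (hCL : CL H) (hX : CTX H) : TRKZ H := by
  intro εb hεb
  obtain ⟨ε0, A, B, hε0, hA, hB, hB0, hX⟩ := hX
  obtain ⟨ε1, C0, θ0, hε1, hC0, hθ0, hX⟩ := hX εb hεb
  obtain ⟨k, g, kε, kr, hg, hg1, hcd⟩ := exists_kn h c d hP hR hNV hCL hε0
  have k0 := k.ε0_pos
  refine ⟨min ε1 (k.ε0 / 8), C0, lt_min hε1 (by positivity), hC0, fun L hL => ?_⟩
  obtain ⟨L', l1, l2⟩ : ∃ L' : ℝ, L ≤ L' ∧ C0 + 4 ≤ L' := ⟨max _ _, le_max_left _ _, le_max_right _ _⟩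
  obtain ⟨C, hC, hX⟩ := hX L' (by linarith)
  refine ⟨C, by linarith, fun Kr hKr => ?_⟩
  obtain ⟨N, hN⟩ := exists_nat_gt (k.E ^ 2 / (k.ε3 * k.ε0 / 32))
  rw [div_lt_iff₀ (by have := k.ε3_pos; positivity)] at hN
  obtain ⟨θ, θp, θ1, θ2⟩ : ∃ θ : ℝ, 0 < θ ∧ θ ≤ θ0 ∧
      θ ≤ k.lam * (g * (1 / (N + 1) * (k.μ * k.lam * g / 8) ^ N) / 8) :=
    ⟨min _ _, lt_min hθ0 (by have := k.lam_pos; have := k.μ_pos; positivity), min_le_left _ _,
      min_le_right _ _⟩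
  refine ⟨fun j => B j / θ ^ j, fun j => div_nonneg (hB j) (by positivity), fun δ hδ => ?_⟩
  have hCT := k.CT_pos
  have hη := k.η2_pos
  have hB1 := hB 1
  have lp := Real.log_pos k.Λ_gt
  obtain ⟨δ', δp, δ1, δ2, δ3⟩ : ∃ δ' : ℝ, 0 < δ' ∧ δ' ≤ δ ∧ δ' ≤ Real.log k.Λ / 2 ∧
      δ' ≤ k.η2 / 4 / (k.CT * (A * B 1 / θ ^ 3) + 1) :=
    ⟨min δ (min _ _), lt_min hδ (lt_min (by positivity) (by positivity)), min_le_left _ _,
      (min_le_right _ _).trans (min_le_left _ _), (min_le_right _ _).trans (min_le_right _ _)⟩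
  obtain ⟨c', r', hc', hr', hX⟩ := hX Kr hKr θ ⟨θp, θ1⟩ δ' δp
  refine ⟨c', min r' (min k.r1 (k.η2 / 4 / k.CT)), hc', lt_min hr' (lt_min kr (by positivity)),
    fun s τ a σ z Y h1 h2 h3 h4 h5 h6 h7 h8 h9 h10 h11 h12 => ?_⟩
  obtain ⟨ζ, z1, z2, z3, z4⟩ := hX s τ a σ z Y h1 h2 h3 (h4.trans (min_le_left _ _)) h5 h6 h7
    (h8.trans (min_le_left _ _))
    (fun t ht => ⟨(h9 t ht).1, (h9 t ht).2.1.mono (min_le_left _ _), (h9 t ht).2.2⟩) h11 h12
  have ha : 0 < a := h5.trans_le h6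
  have ar : a ≤ k.r1 := h8.trans ((min_le_right _ _).trans (min_le_left _ _))
  have mem : ∀ t ∈ Icc s τ, t ∈ Ioo 0 H.T := fun t ht =>
    ⟨by linarith [h.alg.T_pos, ht.1, sq_nonneg a], ht.2.trans_lt h3⟩
  have hCa : 2 * L' * a ≤ C * a := by gcongr
  have aC : a ≤ C * a := le_mul_of_one_le_left ha.le (by linarith)
  have T : Tk k s τ a σ L' (θ * σ) (A / (θ * σ) ^ 2) (B 1 / (θ * σ)) δ' C0 z ζ :=
    { ok := h, s_ge := by linarith [sq_nonneg a], le := h2, lt := h3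
      len := h4.trans ((min_le_right _ _).trans (min_le_left _ _)), σ_pos := h5, σ_le := h6
      a_le := ar, C0_ge := hC0, L_ge := l2, A_nn := by positivity, B_nn := by positivity
      cont := z1, nn := z2, int := z3
      exp_lt := by
        rw [← Real.exp_log (by linarith [k.Λ_gt] : 0 < k.Λ), Real.exp_lt_exp]
        linarith
      err := by
        have a1 := δ3
        rw [le_div_iff₀ (by positivity)] at a1
        have a2 : a ≤ k.η2 / 4 / k.CT := h8.trans ((min_le_right _ _).trans (min_le_right _ _))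
        rw [le_div_iff₀ hCT] at a2
        have a3 : A / (θ * σ) ^ 2 * (B 1 / (θ * σ)) * σ ^ 3 = A * B 1 / θ ^ 3 := by field_simp
        have a4 : σ ^ 2 ≤ a :=
          (pow_le_of_le_one h5.le (h6.trans (ar.trans k.r1_le)) two_ne_zero).trans h6
        have a5 : k.CT * σ ^ 2 ≤ k.CT * a := by gcongr
        rw [a3]
        linarith
      conc := fun t ht y hy r hr hra he =>
        (h9 t ⟨by linarith [sq_nonneg a, ht.1], ht.2⟩).2.1 y (hy.trans_le hCa) y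
          (show H.d t y y < C * a by rw [h.dist.self t (mem t ht)]; linarith) r hr (hra.trans aC)
          ((min_le_right _ _).trans_lt he)
      key := fun t1 ht1 hA => by
        obtain ⟨p1, p2⟩ := z4 t1 ht1 fun t ht y y1 y2 => (hA t ht y y1 y2).trans kε
        refine ⟨p1, fun t ht y y1 y2 => ?_⟩
        obtain ⟨q1, q2⟩ := p2 t ht y y1 (y2.trans kε)
        have zt := z2 t ⟨ht1.1.trans ht.1.le, ht.2⟩
        refine ⟨q1, ?_, ?_⟩
        · have := q2 0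
          rw [pow_zero, one_mul] at this
          exact this.trans (mul_le_of_le_one_left zt hB0)
        · have := q2 1
          rw [pow_one] at this
          rw [div_mul_eq_mul_div, le_div_iff₀ (by positivity)]
          linarith }
  have hAnn := core T hg hg1 hcd hN (by
      calc θ * σ ≤ k.lam * (g * (1 / (N + 1) * (k.μ * k.lam * g / 8) ^ N) / 8) * σ := by
            gcongr
        _ = _ := by ring)
    fun y hy r hr hra he => h10 y (hy.trans_le hCa) y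
      (show H.d τ y y < C * a by rw [h.dist.self τ T.memτ]; linarith) r hr (hra.trans aC)
      ((min_le_right _ _).trans_lt he)
  obtain ⟨p1, p2⟩ := z4 s ⟨le_rfl, h2⟩ fun t ht y y1 y2 => (hAnn t ht y (h6.trans y1) y2).trans kε
  refine ⟨fun t ht => p1 t (Ioc_subset_Icc_self ht), ζ, z1, z2, z3.trans δ1,
    fun t ht y y1 y2 j => ?_⟩
  have y3 : H.d τ (z τ) y < 2 * L' * a :=
    y2.trans_lt (mul_lt_mul_of_pos_right (by linarith) ha)
  have := (p2 t ⟨ht.1, ht.2.le⟩ y y3 ((hAnn t ⟨ht.1, ht.2.le⟩ y y1 y3).trans kε)).2 j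
  rw [div_mul_eq_mul_div, le_div_iff₀ (by positivity)]
  rw [mul_pow] at this
  linarith

end Crest.Agent.N207.T

end
end

-- ▼ part N207/T/Asm
section

/-!
# Row 207 (helper86): the leaf `ASM` (last failure times, piecewise constant charts)
-/

set_option autoImplicit false
set_option linter.unusedSectionVars false

open scoped ContDiff Manifold Topology
open Set MeasureTheory Filter

noncomputable section

namespace Crest.Agent.N207.T

open Sk

/-- the last failure times -/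
theorem asm_times {T ts : ℝ} {P : ℕ → ℝ → Prop} (hts : ts < T)
    (ev : ∀ n, ∃ t0 < T, ∀ t ∈ Ico t0 T, P n t)
    (mono : ∀ n, ∀ t ∈ Ico ts T, P (n + 1) t → P n t) (fail : ∀ t ∈ Ico ts T, ∃ n, ¬P n t) :
    ∃ t : ℕ → ℝ, Monotone t ∧ (∀ n, ts ≤ t n) ∧ (∀ n, t n < T) ∧ Tendsto t atTop (𝓝 T) ∧
      (∀ n, ∀ v ∈ Ioo (t n) T, P n v) ∧
      ∀ n, ts < t n → ∀ ε > 0, ∃ s ∈ Ico ts T, ¬P n s ∧ t n - ε < s ∧ s ≤ t n := by
  set S : ℕ → Set ℝ := fun n => insert ts {t | t ∈ Ico ts T ∧ ¬P n t} with hS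
  have ne : ∀ n, (S n).Nonempty := fun n => ⟨ts, mem_insert _ _⟩
  have bd : ∀ n, BddAbove (S n) := fun n => ⟨T, by
    rintro x (rfl | hx)
    exacts [hts.le, hx.1.2.le]⟩
  have h0 : ∀ n, ts ≤ sSup (S n) := fun n => le_csSup (bd n) (mem_insert _ _)
  have hm : Monotone fun n => sSup (S n) := monotone_nat_of_le_succ fun n =>
    csSup_le_csSup (bd _) (ne n) (insert_subset_insert fun x hx =>
      ⟨hx.1, fun h => hx.2 (mono n x hx.1 h)⟩)
  have hT : ∀ n, sSup (S n) < T := fun n => by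
    obtain ⟨t0, h1, h2⟩ := ev n
    refine (csSup_le (ne n) (a := max ts t0) ?_).trans_lt (max_lt hts h1)
    rintro x (rfl | hx)
    · exact le_max_left _ _
    · exact le_max_of_le_right (not_lt.1 fun h => hx.2 (h2 x ⟨h.le, hx.1.2⟩))
  refine ⟨fun n => sSup (S n), hm, h0, hT, ?_, fun n v hv => ?_, fun n hn ε hε => ?_⟩
  · refine tendsto_order.2 ⟨fun x hx => ?_, fun x hx => Eventually.of_forall fun n => ?_⟩
    · obtain ⟨y, y1, y2⟩ := exists_between (max_lt hx hts)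
      have hy : y ∈ Ico ts T := ⟨((le_max_right _ _).trans_lt y1).le, y2⟩
      obtain ⟨n, hn⟩ := fail y hy
      filter_upwards [eventually_ge_atTop n] with k hk
      exact (((le_max_left _ _).trans_lt y1).trans_le
        (le_csSup (bd n) (Or.inr ⟨hy, hn⟩))).trans_le (hm hk)
    · exact (hT n).trans hx
  · by_contra h
    exact not_le.2 hv.1 (le_csSup (bd n) (Or.inr ⟨⟨(h0 n).trans hv.1.le, hv.2⟩, h⟩))
  · obtain ⟨s, hs, h1⟩ := exists_lt_of_lt_csSup (ne n)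
      (max_lt hn (sub_lt_self (sSup (S n)) hε))
    rcases hs with rfl | hs
    · exact absurd h1 (not_lt.2 (le_max_left _ _))
    · exact ⟨s, hs.1, hs.2, (le_max_right _ _).trans_lt h1, le_csSup (bd n) (Or.inr hs)⟩

/-- integrability of a function made of finitely many measurable pieces -/
theorem asm_pieces {a b : ℝ} (hab : a ≤ b) {j : ℝ → ℕ} (hj : Measurable j) {J : ℕ}
    (hJ : ∀ u ∈ Ico a b, j u < J) {g : ℝ → ℝ} {f : ℕ → ℝ → ℝ}
    (hf : ∀ i, IntervalIntegrable (f i) volume a b) (e : ∀ u ∈ Ico a b, g u = f (j u) u) :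
    IntervalIntegrable g volume a b := by
  rw [intervalIntegrable_iff_integrableOn_Ico_of_le hab]
  have : IntegrableOn g (⋃ i ∈ Finset.range J, Ico a b ∩ j ⁻¹' {i}) volume := by
    refine integrableOn_finset_iUnion.2 fun i _ => ?_
    refine (((intervalIntegrable_iff_integrableOn_Ico_of_le hab).1 (hf i)).mono_set
      inter_subset_left).congr_fun (fun u hu => ?_)
      (measurableSet_Ico.inter (hj (measurableSet_singleton i)))
    have h2 : j u = i := hu.2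
    rw [e u hu.1, h2]
  exact this.mono_set fun u hu =>
    mem_iUnion₂.2 ⟨j u, Finset.mem_range.2 (hJ u hu), hu, rfl⟩

/-- levels and piecewise constant anchors -/
theorem asm_anchor {t h : ℕ → ℝ} (ht : StrictMono t) (hh : ∀ n, 0 < h n) :
    ∃ (lv : ℝ → ℕ) (v : ℝ → ℝ),
      (∀ n, ∀ u ∈ Ico (t n) (t (n + 1)), lv u = n ∧ v u ∈ Ioc (t n) (t (n + 1)) ∧
        |u - v u| ≤ h n) ∧
      ∀ (n : ℕ) (f : ℝ → ℝ → ℝ),
        (∀ w ∈ Ioc (t n) (t (n + 1)), IntervalIntegrable (f w) volume (t n) (t (n + 1))) →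
        IntervalIntegrable (fun u => f (v u) u) volume (t n) (t (n + 1)) := by
  classical
  set lv : ℝ → ℕ := fun u => if H : ∃ n, u ∈ Ico (t n) (t (n + 1)) then H.choose else 0 with hlv
  have e : ∀ n, ∀ u ∈ Ico (t n) (t (n + 1)), lv u = n := fun n u hu => by
    have H : ∃ n, u ∈ Ico (t n) (t (n + 1)) := ⟨n, hu⟩
    have h1 := H.choose_spec
    have h2 := ht.lt_iff_lt.1 (h1.1.trans_lt hu.2)
    have h3 := ht.lt_iff_lt.1 (hu.1.trans_lt h1.2)
    simp only [hlv, dif_pos H]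
    omega
  set w : ℕ → ℕ → ℝ := fun n i => min (t n + (i + 1) * h n) (t (n + 1)) with hw
  have wm : ∀ n i, w n i ∈ Ioc (t n) (t (n + 1)) := fun n i =>
    ⟨lt_min (lt_add_of_pos_right _ (mul_pos (by positivity) (hh n))) (ht n.lt_succ_self),
      min_le_right _ _⟩
  refine ⟨lv, fun u => w (lv u) ⌊(u - t (lv u)) / h (lv u)⌋₊, fun n u hu => ?_, fun n f hf => ?_⟩
  · simp only [e n u hu]
    refine ⟨trivial, wm _ _, abs_le.2 ⟨?_, ?_⟩⟩
    · have h1 := Nat.floor_le (div_nonneg (sub_nonneg.2 hu.1) (hh n).le)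
      rw [le_div_iff₀ (hh n)] at h1
      have h2 : w n ⌊(u - t n) / h n⌋₊ ≤ t n + (⌊(u - t n) / h n⌋₊ + 1) * h n := min_le_left _ _
      linarith
    · have h1 := Nat.lt_floor_add_one ((u - t n) / h n)
      rw [div_lt_iff₀ (hh n)] at h1
      have h2 : u < w n ⌊(u - t n) / h n⌋₊ := lt_min (by linarith) hu.2
      linarith [hh n]
  · refine asm_pieces (ht n.lt_succ_self).le (j := fun u => ⌊(u - t n) / h n⌋₊)
      (Nat.measurable_floor.comp ((measurable_id.sub_const _).div_const _))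
      (J := ⌊(t (n + 1) - t n) / h n⌋₊ + 1) (fun u hu => Nat.lt_succ_of_le (Nat.floor_le_floor
        (div_le_div_of_nonneg_right (by linarith [hu.2]) (hh n).le)))
      (f := fun i => f (w n i)) (fun i => hf _ (wm n i)) fun u hu => ?_
    simp only [e n u hu]

variable {M : Type*} [TopologicalSpace M] [ChartedSpace E4 M] [IsManifold 𝓘(ℝ, E4) ∞ M]
  [T3Space M] [ConnectedSpace M] [MeasurableSpace M] [BorelSpace M]

/-- forgetting the first `n0` levels -/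
theorem Wd.shift {F : Flow M} {m : ℕ} {η : ℝ} {Cs : ℕ → ℝ} {V c K R l ts : ℝ}
    {P : ℕ → ℝ → Prop} {G : ℕ → ℝ → Nk M → Prop} (W : Wd F m η Cs V c K R l ts P G) (n0 : ℕ) :
    Wd F m η Cs V c K R (l / K ^ n0) ts (fun n => P (n0 + n)) fun n => G (n0 + n) := by
  have K1 : 1 ≤ K := by linarith [W.K_ge]
  have e : ∀ n, l / K ^ n0 / K ^ n = l / K ^ (n0 + n) := fun n => by rw [div_div, ← pow_add]
  have lp := W.l_pos
  refine ⟨W.K_ge, by positivity, (mul_le_mul_of_nonneg_left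
    (div_le_self lp.le (one_le_pow₀ K1)) (sq_nonneg K)).trans W.l_le, W.R_le, W.c_pos, W.c_le,
    W.ts_mem, fun n => W.ev _, fun n => W.mono _, fun t ht => ?_, fun n => W.ex _, ?_, ?_, ?_, ?_,
    ?_, ?_⟩
  · obtain ⟨n, hn⟩ := W.fail t ht
    refine ⟨n, fun h => hn ?_⟩
    have : ∀ k, P (n + k) t → P n t := fun k => by
      induction k with
      | zero => exact id
      | succ k ih => exact fun h => ih (W.mono _ t ht h)
    exact this n0 (by rwa [add_comm])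
  all_goals simp only [e]
  exacts [fun n => W.top _, fun n => W.good _, fun n => W.far _,
    fun n v N n' => W.cmp _ v N _, fun n => W.back _, fun n => W.stat _]

/-- the assembly when the first time is late enough -/
theorem asm_main {F : Flow M} (hI : MII F) {m : ℕ} {η : ℝ} {Cs : ℕ → ℝ} {V c K R l ts : ℝ}
    {P : ℕ → ℝ → Prop} {G : ℕ → ℝ → Nk M → Prop} (W : Wd F m η Cs V c K R l ts P G)
    {t : ℕ → ℝ} (hT : ∀ n, t n < F.T) (lim : Tendsto t atTop (𝓝 F.T))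
    (h0 : ∀ n, ts ≤ t n - c * (l / K ^ n)) (hP : ∀ n, ∀ v ∈ Ioo (t n) F.T, P n v)
    (hm : Monotone t)
    (hF : ∀ n, ∀ ε > 0, ∃ s ∈ Ico ts F.T, ¬P n s ∧ t n - ε < s ∧ s ≤ t n) :
    ∃ τ : TopD M, τ.Ok F m η Cs V := by
  have K4 := W.K_ge
  have K1 : 1 ≤ K := by linarith
  have lp := W.l_pos
  have cp := W.c_pos
  have lam0 : ∀ n, 0 < l / K ^ n := fun n => by positivity
  have hp : ∀ n, 0 < c * (l / K ^ n) := fun n => mul_pos cp (lam0 n)
  have ts1 : ∀ n, ts ≤ t n := fun n => by linarith [h0 n, hp n]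
  have T0 : 0 < ts := by linarith [W.ts_mem.1, W.ts_mem.2]
  have dge : ∀ n, c * (l / K ^ n) ≤ t (n + 1) - t n := fun n => by
    by_contra hc
    obtain ⟨v, v1, v2⟩ := exists_between (lt_min (hT (n + 1))
      (lt_add_of_pos_right (t (n + 1)) (half_pos (hp n))))
    have v3 := v2.trans_le (min_le_left _ _)
    have v4 := v2.trans_le (min_le_right _ _)
    obtain ⟨N, hN⟩ := W.ex (n + 1) v ⟨(ts1 _).trans v1.le, v3⟩ (hP _ v ⟨v1, v3⟩)
    obtain ⟨s, hs, h1, h2, h3⟩ := hF n _ (half_pos (hp n))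
    have := hm n.le_succ
    exact h1 (W.back n v N hN s hs (abs_le.2 ⟨by linarith [not_le.1 hc], by linarith [hp n]⟩))
  have sm : StrictMono t := strictMono_nat_of_lt_succ fun n => by linarith [dge n, hp n]
  obtain ⟨lv, v, hv, hi⟩ := asm_anchor sm hp
  obtain ⟨N0, -⟩ := W.ex 0 (t 1) ⟨ts1 1, hT 1⟩ (hP 0 _ ⟨sm zero_lt_one, hT 1⟩)
  have exN : ∀ n w, ∃ N, w ∈ Ioc (t n) (t (n + 1)) → G n w N := fun n w => by
    by_cases hw : w ∈ Ioc (t n) (t (n + 1))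
    · have w1 := hw.2.trans_lt (hT _)
      obtain ⟨N, hN⟩ := W.ex n w ⟨(ts1 n).trans hw.1.le, w1⟩ (hP n w ⟨hw.1, w1⟩)
      exact ⟨N, fun _ => hN⟩
    · exact ⟨N0, fun h => absurd h hw⟩
  choose C hC using exN
  set N : ℝ → Nk M := fun u => C (lv u) (v u) with hN
  have gN : ∀ n, ∀ u ∈ Ico (t n) (t (n + 1)), G n (v u) (N u) := fun n u hu => by
    simp only [hN, (hv n u hu).1]
    exact hC n _ (hv n u hu).2.1
  have gd : ∀ n, ∀ u ∈ Ico (t n) (t (n + 1)), ∀ s, u ≤ s → s ≤ u + c * (l / K ^ n) → s < F.T →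
      Good (F.m s) (N u) m η Cs V ∧ ∀ r ∈ Icc (l / K ^ n) R,
        (F.m s).vol.real ((N u).Om r) ≤ V * r ^ 4 ∧ mass (F.m s) ((N u).Om r) ≤ V * r ^ 2 :=
    fun n u hu s s1 s2 s3 => by
      have := abs_le.1 (hv n u hu).2.2
      exact W.good n _ _ (gN n u hu) s ⟨((ts1 n).trans hu.1).trans s1, s3⟩
        (abs_le.2 ⟨by linarith [hp n], by linarith⟩)
  have ii : ∀ n, ∀ r ∈ Icc (l / K ^ n) R, IntervalIntegrable
      (fun s => mass (F.m s) ((N s).Om r)) volume (t n) (t (n + 1)) := fun n r hr => by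
    refine (hi n (fun w s => mass (F.m s) ((C n w).Om r)) fun w hw => ?_).congr_ae ?_
    · obtain ⟨h1, h2, h3⟩ := W.top n w _ (hC n w hw)
      exact hI _ h1 r (by rwa [h2, h3]) _ _ (T0.trans_le (ts1 n)) (hm n.le_succ) (hT _)
    · rw [uIoc_of_le (hm n.le_succ), ← Measure.restrict_congr_set Ico_ae_eq_Ioc]
      filter_upwards [ae_restrict_mem measurableSet_Ico] with u hu
      simp only [hN, (hv n u hu).1]
  refine ⟨⟨R, K, l, c, t, N⟩, K4, lp, W.l_le, W.R_le, cp, W.c_le, W.ts_mem.1.trans (ts1 0), hT,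
    lim, dge, fun n u hu => (W.top n _ _ (gN n u hu)).1,
    fun n u hu => (W.top n _ _ (gN n u hu)).2.1, fun n u hu => (W.top n _ _ (gN n u hu)).2.2,
    fun n u hu s s1 s2 s3 => (gd n u hu s s1 s2 s3).1,
    fun n u hu r r1 r2 s s1 s2 s3 => W.far n _ _ (gN n u hu) u (hv n u hu).2.2 r r1 r2 s
      ⟨(ts1 0).trans s1, s2⟩ s3,
    fun n n' u hu u' hu' r r1 r2 r3 => W.cmp n _ _ n' _ _ (gN n u hu) (gN n' u' hu') r r1 r2 ?_,
    ii, fun n u hu s s1 s2 s3 r hr => ((gd n u hu s s1 s2 s3).2 r hr).1,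
    fun n u hu r hr => ((gd n u hu u le_rfl (le_add_of_nonneg_right (hp n).le)
      (hu.2.trans (hT _))).2 r hr).2, fun n => ?_⟩
  · have a1 := abs_le.1 (hv n u hu).2.2
    have a2 := abs_le.1 (hv n' u' hu').2.2
    have a3 : -(c * r) ≤ u - u' ∧ u - u' ≤ c * r := abs_le.1 r3
    have b1 : K * (l / K ^ n) ≤ r := r1
    have b2 : K * (l / K ^ n') ≤ r := r2
    have c1 : c * (4 * (l / K ^ n)) ≤ c * r := mul_le_mul_of_nonneg_left
      ((mul_le_mul_of_nonneg_right K4 (lam0 n).le).trans b1) cp.le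
    have c2 : c * (4 * (l / K ^ n')) ≤ c * r := mul_le_mul_of_nonneg_left
      ((mul_le_mul_of_nonneg_right K4 (lam0 n').le).trans b2) cp.le
    exact abs_le.2 ⟨by linarith [hp n, hp n'], by linarith [hp n, hp n']⟩
  · by_contra hc
    have e1 : t (n + 1) ∈ Ico (t (n + 1)) (t (n + 1 + 1)) := ⟨le_rfl, sm (Nat.lt_succ_self _)⟩
    have hr : K * (l / K ^ n) ∈ Icc (l / K ^ n) R := ⟨le_mul_of_one_le_left (lam0 n).le K1, by
      have h1 : l / K ^ n ≤ l := div_le_self lp.le (one_le_pow₀ K1)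
      have h2 : K * l ≤ K ^ 2 * l := mul_le_mul_of_nonneg_right (by nlinarith) lp.le
      linarith [W.l_le, mul_le_mul_of_nonneg_left h1 (zero_le_one.trans K1)]⟩
    obtain ⟨s, hs, h1, h2, h3⟩ := hF n _ (hp n)
    exact h1 (W.stat n (t n) (t (n + 1)) N v _ (h0 n) (sm n.lt_succ_self) (hT _)
      (fun u hu => ⟨gN n u hu, (hv n u hu).2.2, le_rfl⟩) (gN _ _ e1) (hv _ _ e1).2.2 (ii n _ hr)
      (not_le.1 hc) s hs (abs_le.2 ⟨by linarith, by linarith [hp n]⟩))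

/-- the leaf `ASM` -/
theorem asm {F : Flow M} (hI : MII F) : ASM F := by
  intro m η Cs V c K R l ts P G W
  obtain ⟨t, hm, -, hT, lim, hP, hF⟩ := asm_times W.ts_mem.2 W.ev W.mono W.fail
  have K1 : 1 < K := by linarith [W.K_ge]
  have lp := W.l_pos
  have cp := W.c_pos
  have l0 : Tendsto (fun n : ℕ => t n - c * (l / K ^ n)) atTop (𝓝 (F.T - c * 0)) :=
    lim.sub ((tendsto_const_nhds.div_atTop (tendsto_pow_atTop_atTop_of_one_lt K1)).const_mul c)
  obtain ⟨n0, hn0⟩ := eventually_atTop.1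
    (l0.eventually (lt_mem_nhds (show ts < F.T - c * 0 by linarith [W.ts_mem.2])))
  have e : ∀ n, l / K ^ n0 / K ^ n = l / K ^ (n0 + n) := fun n => by rw [div_div, ← pow_add]
  refine asm_main hI (W.shift n0) (t := fun n => t (n0 + n)) (fun n => hT _)
    (lim.comp (tendsto_atTop_mono (fun n => Nat.le_add_left n n0) tendsto_id)) (fun n => ?_) (fun n => hP _)
    (fun a b h => hm (Nat.add_le_add_left h n0)) fun n => hF _ ?_
  · rw [e]
    exact (hn0 _ (Nat.le_add_right n0 n)).le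
  · have : 0 < c * (l / K ^ (n0 + n)) := by positivity
    linarith [hn0 _ (Nat.le_add_right n0 n)]

end Crest.Agent.N207.T

end
end

-- ▼ part N207/T/Mii
section

/-!
# Row 207 (helper86): the leaf `MII` (time integrability of the mass of `N.Om r`)
-/

set_option autoImplicit false
set_option linter.unusedSectionVars false

open scoped ContDiff Manifold Topology
open Set MeasureTheory Filter

noncomputable section

namespace Crest.Agent.N207.T

open Sk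

variable {M : Type*} [TopologicalSpace M] [ChartedSpace E4 M] [IsManifold 𝓘(ℝ, E4) ∞ M]
  [T3Space M] [ConnectedSpace M] [MeasurableSpace M] [BorelSpace M] [CompactSpace M]

/-- time integrability of the mass of a fixed open set -/
theorem mass_ii_open {F : Flow M} (hB : Base F) {U : Set M} (hU : IsOpen U) {a b : ℝ}
    (st : F.hc.St a b) : IntervalIntegrable (fun u => mass (F.m u) U) volume a b := by
  have hA := hB.ok.alg
  have hI := hB.ok.int
  obtain ⟨f, fs, sf, f0⟩ := hU.exists_contMDiff_support_eq (n := ⊤) 𝓘(ℝ, E4)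
  set φ : ℕ → M → ℝ := fun n z => Real.smoothTransition (n * f z) with hφ
  have sφ : ∀ n, F.hc.S0 (φ n) := fun n =>
    (Real.smoothTransition.contDiff.comp (contDiff_const.mul contDiff_id)).contMDiff.comp sf
  have sF : F.hc.Sm a b (F.hc.Q 0) := hA.sm_Q 0 st
  have F0 : ∀ σ ∈ Icc a b, ∀ z, 0 ≤ F.hc.Q 0 σ z := fun σ hσ z =>
    hB.ok.evo.Q_nonneg 0 σ (st.mem hσ) z
  have mB := hU.measurableSet
  have iF : ∀ σ ∈ Icc a b, Integrable (F.hc.Q 0 σ) (F.hc.vol σ) := fun σ hσ =>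
    hA.integrable hI (st.mem hσ) (hA.sm_s0 sF σ hσ)
  change IntervalIntegrable (fun σ => ∫ z in U, F.hc.Q 0 σ z ∂F.hc.vol σ) volume a b
  rw [intervalIntegrable_iff_integrableOn_Icc_of_le st.2.1.le]
  refine Integrable.mono' (hA.int_cont hI st sF).integrableOn_Icc ?_ ?_
  · refine aestronglyMeasurable_of_tendsto_ae atTop
      (f := fun n σ => ∫ z, φ n z * F.hc.Q 0 σ z ∂F.hc.vol σ)
      (fun n => (hA.int_cont hI st (hA.sm_mul (hA.sm_static (sφ n)) sF)).aestronglyMeasurable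
        measurableSet_Icc) ?_
    filter_upwards [ae_restrict_mem measurableSet_Icc] with σ hσ
    rw [← integral_indicator mB]
    refine tendsto_integral_of_dominated_convergence (F.hc.Q 0 σ) (fun n => (hA.integrable hI
      (st.mem hσ) (hA.s0_mul (sφ n) (hA.sm_s0 sF σ hσ))).aestronglyMeasurable) (iF σ hσ)
      (fun n => Eventually.of_forall fun z => ?_) (Eventually.of_forall fun z => ?_)
    · rw [Real.norm_of_nonneg (mul_nonneg (Real.smoothTransition.nonneg _) (F0 σ hσ z))]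
      exact mul_le_of_le_one_left (F0 σ hσ z) (Real.smoothTransition.le_one _)
    · by_cases hz : z ∈ U
      · have h1 : 0 < f z := (f0 z).lt_of_ne' (by rw [← fs] at hz; exact hz)
        rw [indicator_of_mem hz]
        refine tendsto_const_nhds.congr' ?_
        filter_upwards [tendsto_natCast_atTop_atTop.eventually (eventually_ge_atTop (1 / f z))]
          with n hn
        have : φ n z = 1 := Real.smoothTransition.one_of_one_le ((div_le_iff₀ h1).1 hn)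
        rw [this, one_mul]
      · have h1 : f z = 0 := by rw [← fs] at hz; simpa using hz
        rw [indicator_of_notMem hz]
        refine tendsto_const_nhds.congr fun n => ?_
        have : φ n z = 0 := Real.smoothTransition.zero_of_nonpos (by rw [h1, mul_zero])
        rw [this, zero_mul]
  · filter_upwards [ae_restrict_mem measurableSet_Icc] with σ hσ
    rw [Real.norm_of_nonneg (integral_nonneg (F0 σ hσ))]
    exact setIntegral_le_integral (iF σ hσ) (Eventually.of_forall (F0 σ hσ))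

/-- time integrability of the mass of a fixed closed set -/
theorem mass_ii_closed {F : Flow M} (hB : Base F) {U : Set M} (hU : IsClosed U) {a b : ℝ}
    (st : F.hc.St a b) : IntervalIntegrable (fun u => mass (F.m u) U) volume a b := by
  have hA := hB.ok.alg
  refine ((mass_ii_open hB isOpen_univ st).sub (mass_ii_open hB hU.isOpen_compl st)).congr
    fun σ hσ => ?_
  have hσ' : σ ∈ Icc a b := by
    rw [uIoc_of_le st.2.1.le] at hσ
    exact Ioc_subset_Icc_self hσ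
  have iF : Integrable (F.hc.Q 0 σ) (F.hc.vol σ) :=
    hA.integrable hB.ok.int (st.mem hσ') (hA.sm_s0 (hA.sm_Q 0 st) σ hσ')
  have := integral_add_compl hU.measurableSet iF
  simp only [mass, Measure.restrict_univ]
  exact (eq_sub_of_add_eq this).symm

/-- the leaf `MII` -/
theorem mii {F : Flow M} (hB : Base F) : MII F := by
  intro N hN r hr s t hs hst ht
  rcases hst.eq_or_lt with rfl | hst
  · exact IntervalIntegrable.refl
  rcases hr.1.eq_or_lt with e | h1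
  · have : N.Om r = N.In := by
      refine union_eq_left.2 ?_
      rintro _ ⟨x, hx, rfl⟩
      exact absurd (hx.1.trans hx.2) (by rw [e]; exact lt_irrefl _)
    rw [this]
    exact mass_ii_closed hB hN.isClosed_In ⟨hs, hst, ht⟩
  · exact mass_ii_open hB (hN.opn r ⟨h1, hr.2⟩) ⟨hs, hst, ht⟩

end Crest.Agent.N207.T

end
end

-- ▼ part N207/T/Sw

/-!
# Row 207 (helper87): block TOP, the static leaves `SW`, `CMPL`, `SHE`, `CEN`
-/

set_option autoImplicit false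
set_option linter.unusedSectionVars false

open scoped ContDiff Manifold Topology
open Set MeasureTheory Filter

noncomputable section

namespace Crest.Agent.N207.T

open Sk

variable {M : Type*} [TopologicalSpace M] [ChartedSpace E4 M] [IsManifold 𝓘(ℝ, E4) ∞ M]
  [T3Space M] [ConnectedSpace M] [MeasurableSpace M] [BorelSpace M] [CompactSpace M]

theorem md_comm (g : Met 4 M) (x y : M) : g.d x y = g.d y x := dist_comm (α := Sl g) x y

theorem md_tri (g : Met 4 M) (x y z : M) : g.d x z ≤ g.d x y + g.d y z :=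
  dist_triangle (α := Sl g) x y z

theorem rm_nn (g : Met 4 M) (k : ℕ) (x : M) : 0 ≤ g.rm k x :=
  AI.nsq_nonneg (g.isRiem x) (ctr_mem x) _

theorem rm_int (g : Met 4 M) (k : ℕ) : Integrable (g.rm k) g.vol :=
  V.integrable_cont g (g.sm_rm k).continuous

theorem rm_mono (g : Met 4 M) {A B : Set M} (h : A ⊆ B) :
    ∫ q in A, g.rm 0 q ∂g.vol ≤ ∫ q in B, g.rm 0 q ∂g.vol :=
  setIntegral_mono_set (rm_int g 0).integrableOn (ae_of_all _ (rm_nn g 0)) h.eventuallyLE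

theorem rm_union (g : Met 4 M) (A B : Set M) :
    ∫ q in A ∪ B, g.rm 0 q ∂g.vol ≤ (∫ q in A, g.rm 0 q ∂g.vol) + ∫ q in B, g.rm 0 q ∂g.vol := by
  rw [← integral_add_measure (rm_int g 0).integrableOn (rm_int g 0).integrableOn]
  exact integral_mono_measure (Measure.restrict_union_le A B) (ae_of_all _ (rm_nn g 0))
    (Integrable.add_measure (rm_int g 0).integrableOn (rm_int g 0).integrableOn)

theorem wt_le2 {a b : ℝ} {x : E4} (ha : 0 < a) (hx : x ∈ shell a b) : wt a b x ≤ 2 := by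
  have h0 : 0 < ‖x‖ := ha.trans hx.1
  have h1 : √(a / ‖x‖) ≤ 1 := Real.sqrt_le_one.2 ((div_le_one h0).2 hx.1.le)
  have h2 : √(‖x‖ / b) ≤ 1 := Real.sqrt_le_one.2 ((div_le_one (h0.trans hx.2)).2 hx.2.le)
  unfold wt; linarith

theorem wt_nn (a b : ℝ) (x : E4) : 0 ≤ wt a b x := add_nonneg (Real.sqrt_nonneg _) (Real.sqrt_nonneg _)

theorem GJ.rough {g : Met 4 M} {N : Nk M} {η V : ℝ} (h : GJ g N η) (ha : 0 < N.a) (h0 : 0 ≤ η)
    (hv : g.vol.real N.In ≤ V * N.a ^ 4) : Rough g N 2 (2 * η) V :=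
  ⟨fun x hx k hk i j => (h x hx k hk i j).trans
    (by rw [mul_comm 2]; exact mul_le_mul_of_nonneg_left (wt_le2 ha hx) h0), hv⟩

theorem SN.rough {F : Flow M} {s η : ℝ} {N : Nk M} (h : SN F s η N) (h0 : 0 ≤ η)
    (h1 : η ≤ 1 / 200) : Rough (F.m s) N 0 (1 / 100) 192 :=
  (h.jet.rough h.top.a_pos h0 h.vol).mono (Nat.zero_le _) (by linarith) le_rfl

theorem sw {F : Flow M} (hD : DIST F) : SW F := by
  intro V
  obtain ⟨K, r1, hK, hr1, h⟩ := hD V
  refine ⟨2 * K, min r1 1, by linarith, lt_min hr1 one_pos, min_le_right _ _,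
    fun t ht N hN hR hb hab z hz ρ hρ => ⟨fun q hq => ?_, fun q hq => ?_⟩⟩
  · obtain ⟨d1, -, d3⟩ := h t ht N _ hN hR le_rfl (hb.trans (min_le_left _ _)) hab z hz
    have ha := hN.a_pos
    have h1 : 0 ≤ K * N.a := by positivity
    rcases hq with hq | ⟨x, hx, rfl⟩
    · linarith [d3 q hq, hρ.1]
    · linarith [(d1 x ⟨hx.1, hx.2.trans_le hρ.2⟩).2, hx.2]
  · have h1 := hN.rad_le_d (F.m t) (fun x hx => (hR.jet x hx).near) (by norm_num) q z
    rw [hN.rad_In hz] at h1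
    have h2 : N.rad q < ρ := by linarith
    exact (hN.mem_Om ⟨(hN.rad_mem q).1.trans_lt h2, hρ.2⟩).2 h2

theorem cmpl {F : Flow M} (hS : SW F) : CMPL F := by
  intro V
  obtain ⟨K, r1, hK, hr1, -, h⟩ := hS V
  have key : ∀ t ∈ late F, ∀ N N' : Nk M, N.Top → N'.Top →
      Rough (F.m t) N 0 (1 / 100) V → Rough (F.m t) N' 0 (1 / 100) V → N.b ≤ r1 → N'.b ≤ r1 →
      ∀ a0 r : ℝ, N.a ≤ a0 → N'.a ≤ a0 → (8 * K + 8) * a0 ≤ r → r ≤ N.b → r ≤ N'.b →
        ∀ p ∈ N.Om a0, p ∈ N'.Om a0 → N.Om (r / 2) ⊆ N'.Om r := by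
    intro t ht N N' hN hN' hR hR' hb hb' a0 r h1 h1' h2 h3 h3' p hp hp' q hq
    obtain ⟨z, hz⟩ := hN.ne
    obtain ⟨z', hz'⟩ := hN'.ne
    have ha := hN.a_pos
    have k1 : K * N.a ≤ K * a0 := by gcongr
    have k2 : K * N'.a ≤ K * a0 := by gcongr
    have k3 : 2 * a0 ≤ K * a0 := mul_le_mul_of_nonneg_right hK (by linarith)
    have s1 := h t ht N hN hR hb (by linarith) z hz
    have s2 := h t ht N' hN' hR' hb' (by linarith) z' hz'
    have d1 := (s1 (r / 2) ⟨by linarith, by linarith⟩).1 q hq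
    have d2 := (s1 a0 ⟨h1, by linarith⟩).1 p hp
    have d3 := (s2 a0 ⟨h1', by linarith⟩).1 p hp'
    refine (s2 r ⟨by linarith, h3'⟩).2 q ?_
    have d4 := md_tri (F.m t) z' p q
    have d5 := md_tri (F.m t) p z q
    rw [md_comm _ p z] at d5
    linarith
  refine ⟨8 * K + 8, r1, by linarith, hr1,
    fun t ht N N' hN hN' hR hR' hb hb' a0 ρ1 ρ2 h1 h1' h2 h3 h3' ⟨p, hp, hp'⟩ r hr => ⟨?_, ?_⟩⟩
  · exact key t ht N N' hN hN' hR hR' hb hb' a0 r h1 h1' (h2.trans hr.1) (hr.2.trans h3)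
      (hr.2.trans h3') p hp hp'
  · exact key t ht N' N hN' hN hR' hR hb' hb a0 r h1' h1 (h2.trans hr.1) (hr.2.trans h3')
      (hr.2.trans h3) p hp' hp

theorem she (hC : CURV M) : SHE M := by
  obtain ⟨C, hC0, hC⟩ := hC
  refine ⟨1536 * 10 * C, by positivity, fun g N η hN h0 h1 hJ => ?_⟩
  have ha := hN.a_pos
  have hb : 0 < N.b := ha.trans hN.a_lt
  have hf := V.isFinite g
  have hδ : ∀ x ∈ shell N.a N.b, η * wt N.a N.b x ≤ 1 / 100 := fun x hx =>
    (mul_le_mul_of_nonneg_left (wt_le2 ha hx) h0).trans (by linarith)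
  have piece : ∀ s, N.a ≤ s → s ≤ N.b →
      ∫ q in N.Ψ '' shell s (min N.b (4 * s)), g.rm 0 q ∂g.vol ≤
        1536 * C * η ^ 2 * (N.a / s + 4 * s / N.b) := by
    intro s s1 s2
    have hs : 0 < s := ha.trans_le s1
    have hsub : shell s (min N.b (4 * s)) ⊆ shell N.a N.b := shell_mono s1 (min_le_left _ _)
    have hv := hN.vol_image_le g s1 (le_min s2 (by linarith)) (min_le_left _ (4 * s))
      fun x hx => (hJ x (hsub hx)).near.mono (hδ x (hsub hx))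
    have hv' : g.vol.real (N.Ψ '' shell s (min N.b (4 * s))) ≤ 768 * s ^ 4 := by
      have := pow_le_pow_left₀ (lt_min hb (by linarith)).le (min_le_right N.b (4 * s)) 4
      nlinarith [pow_pos hs 4]
    have hp : ∀ q ∈ N.Ψ '' shell s (min N.b (4 * s)),
        ‖g.rm 0 q‖ ≤ C * (η ^ 2 * (2 * (N.a / s + 4 * s / N.b))) / s ^ 4 := by
      rintro _ ⟨x, hx, rfl⟩
      have hx0 : 0 < ‖x‖ := hs.trans hx.1
      have hx1 := hx.1.le
      have hx2 : ‖x‖ ≤ 4 * s := hx.2.le.trans (min_le_right _ _)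
      rw [Real.norm_of_nonneg (rm_nn g 0 _)]
      refine (hC g N.Ψ _ x _ _ hN.par (hsub hx) hx0 (mul_nonneg h0 (wt_nn _ _ _)) (hδ x (hsub hx))
        (hJ x (hsub hx))).trans ?_
      have w1 : wt N.a N.b x ^ 2 ≤ 2 * (N.a / s + 4 * s / N.b) := by
        have e1 := Real.sq_sqrt (show 0 ≤ N.a / ‖x‖ by positivity)
        have e2 := Real.sq_sqrt (show 0 ≤ ‖x‖ / N.b by positivity)
        have e3 : N.a / ‖x‖ ≤ N.a / s := by gcongr
        have e4 : ‖x‖ / N.b ≤ 4 * s / N.b := by gcongr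
        unfold wt
        nlinarith [sq_nonneg (√(N.a / ‖x‖) - √(‖x‖ / N.b))]
      rw [mul_pow]
      gcongr
    refine ((le_abs_self _).trans (norm_setIntegral_le_of_norm_le_const (measure_lt_top _ _) hp)).trans
      ((mul_le_mul_of_nonneg_left hv' (by positivity)).trans (le_of_eq ?_))
    field_simp; ring
  obtain ⟨k, k1, k2⟩ := exists_nat_pow_near (x := N.b / N.a) (y := 2)
    ((one_le_div ha).2 hN.a_lt.le) one_lt_two
  rw [le_div_iff₀ ha] at k1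
  rw [div_lt_iff₀ ha] at k2
  have sum : ∀ n, n ≤ k + 1 →
      ∫ q in ⋃ j ∈ Finset.range n, N.Ψ '' shell (2 ^ j * N.a) (min N.b (4 * (2 ^ j * N.a))),
        g.rm 0 q ∂g.vol ≤ 1536 * C * η ^ 2 * (2 - 2 / 2 ^ n + 4 * (2 ^ n * N.a) / N.b) := by
    intro n
    induction n with
    | zero => intro _; simp; positivity
    | succ n ih =>
      intro hn
      rw [Finset.range_add_one, Finset.set_biUnion_insert]
      have h2 : (2 : ℝ) ^ n ≤ 2 ^ k := pow_le_pow_right₀ one_le_two (by omega)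
      have h3 := piece (2 ^ n * N.a) (le_mul_of_one_le_left ha.le (one_le_pow₀ one_le_two))
        ((mul_le_mul_of_nonneg_right h2 ha.le).trans k1)
      refine (rm_union g _ _).trans ((add_le_add h3 (ih (by omega))).trans (le_of_eq ?_))
      field_simp; ring
  have cov : N.Ψ '' shell N.a N.b ⊆
      ⋃ j ∈ Finset.range (k + 1), N.Ψ '' shell (2 ^ j * N.a) (min N.b (4 * (2 ^ j * N.a))) := by
    rintro _ ⟨x, hx, rfl⟩
    obtain ⟨i, i1, i2⟩ := exists_nat_pow_near (x := ‖x‖ / N.a) (y := 2)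
      ((one_le_div ha).2 hx.1.le) one_lt_two
    rw [le_div_iff₀ ha] at i1
    rw [div_lt_iff₀ ha] at i2
    have hi : i < k + 1 := (pow_lt_pow_iff_right₀ one_lt_two).1
      (lt_of_mul_lt_mul_right (i1.trans_lt (hx.2.trans k2)) ha.le)
    simp only [mem_iUnion, Finset.mem_range]
    rcases i with _ | i
    · refine ⟨0, hi, x, ⟨by simpa using hx.1, lt_min hx.2 ?_⟩, rfl⟩
      norm_num at i2 ⊢; linarith
    · have : (0 : ℝ) < 2 ^ i * N.a := by positivity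
      rw [pow_succ] at i1
      rw [pow_succ, pow_succ] at i2
      exact ⟨i, by omega, x, ⟨by linarith, lt_min hx.2 (by linarith)⟩, rfl⟩
  refine (rm_mono g cov).trans ((sum _ le_rfl).trans ?_)
  have h4 : 4 * (2 ^ (k + 1) * N.a) / N.b ≤ 8 := by rw [div_le_iff₀ hb, pow_succ]; linarith
  have h5 : (0 : ℝ) ≤ 2 / 2 ^ (k + 1) := by positivity
  calc _ ≤ 1536 * C * η ^ 2 * 10 := by gcongr; linarith
    _ = _ := by ring

theorem cen {F : Flow M} (hS : SW F) (hE : SHE M) : CEN F := by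
  obtain ⟨K, r1, hK, hr1, hr2, hS⟩ := hS 192
  obtain ⟨C, hC, hE⟩ := hE
  have key : ∀ (p : M) (s η A : ℝ) (N : Nk M), 0 ≤ η → η ≤ 1 / 200 → SN F s η N → N.b ≤ r1 →
      (K + 2) * N.a ≤ A → 8 * A ≤ N.b → p ∈ N.Om A →
      (∀ z ∈ N.In, (F.m s).d z p ≤ 3 * A ∧ (∀ q ∈ N.In, (F.m s).d z q < (K + 2) * N.a) ∧
        ∀ q, (F.m s).d z q < N.b / 2 → q ∈ N.Om N.b) ∧ F.hc.B s p A ⊆ N.Om N.b := by
    intro p s η A N h0 h1 hN hb h2 h3 hp
    have ha := hN.top.a_pos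
    have k1 : 2 * N.a ≤ K * N.a := by gcongr
    have h4 := hS s hN.late N hN.top (hN.rough h0 h1) hb (by linarith)
    have h5 : ∀ z ∈ N.In, (F.m s).d z p ≤ 3 * A := fun z hz => by
      linarith [(h4 z hz A ⟨by linarith, by linarith⟩).1 p hp]
    refine ⟨fun z hz => ⟨h5 z hz, fun q hq => ?_, fun q hq => ?_⟩, fun q hq => ?_⟩
    · linarith [(h4 z hz N.a ⟨le_rfl, hN.top.a_lt.le⟩).1 q (N.In_sub _ hq)]
    · exact (h4 z hz N.b ⟨hN.top.a_lt.le, le_rfl⟩).2 q (by linarith)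
    · obtain ⟨z, hz⟩ := hN.top.ne
      have h6 : (F.m s).d p q < A := hq
      exact (h4 z hz N.b ⟨hN.top.a_lt.le, le_rfl⟩).2 q (by linarith [md_tri (F.m s) z p q, h5 z hz])
  refine ⟨C, K + 2, r1, hC, by linarith, hr1, hr2,
    fun p ε c r0 hp s η A N h0 h1 hA hT hN hb h2 h3 hpA => ?_⟩
  obtain ⟨k1, k2⟩ := key p s η A N h0 h1 hN hb h2 h3 hpA
  have ha := hN.top.a_pos
  have hε : ε ≤ ∫ q in F.hc.B s p A, (F.m s).rm 0 q ∂(F.m s).vol :=
    hp.2.2.2 s hN.late A ⟨lt_of_lt_of_le (by positivity) h2, hA⟩ hT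
  have e1 := hE (F.m s) N η hN.top h0 h1 hN.jet
  have e2 : ε - C * η ^ 2 ≤ ∫ q in N.In, (F.m s).rm 0 q ∂(F.m s).vol := by
    linarith [(rm_mono (F.m s) k2).trans (rm_union _ _ _)]
  refine ⟨fun z hz => ⟨e2.trans (rm_mono _ fun q hq => (k1 z hz).2.1 q hq), (k1 z hz).1,
    fun y r h4 h5 => ?_⟩, e2, fun N' hN' hb' h2' h3' hpA' h4 => ?_⟩
  · by_contra! h6
    refine absurd h5 (not_lt.2 ((rm_mono (F.m s) fun q hq => ?_).trans e1))
    have h7 : (F.m s).d y q < r := hq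
    have h8 := md_tri (F.m s) z y q
    have h9 := md_tri (F.m s) z q y
    rw [md_comm _ q y] at h9
    exact ((k1 z hz).2.2 q (by linarith)).resolve_left fun h => by linarith [(k1 z hz).2.1 q h]
  · by_contra h5
    have k3 := (key p s η A N' h0 h1 hN' hb' h2' h3' hpA').2
    have e3 := hE (F.m s) N' η hN'.top h0 h1 hN'.jet
    have h6 : F.hc.B s p A ⊆ N.Ψ '' shell N.a N.b ∪ N'.Ψ '' shell N'.a N'.b := fun q hq =>
      (k2 hq).elim (fun h => Or.inr ((k3 hq).resolve_left fun h' => h5 ⟨q, h, h'⟩)) Or.inl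
    linarith [(rm_mono (F.m s) h6).trans (rm_union _ _ _)]

end Crest.Agent.N207.T

end
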