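import Crest.Agent.R247.Mcs13_816
import Crest.Agent.R247.Lc4_582
import Crest.Agent.R247.Bgr2_546
import Crest.Agent.N207.A.Arr
import Crest.Agent.N207.V.Basic
import Crest.Agent.N207.T.Lo2
import Crest.Agent.N207.C.Max

-- ▼ part N207/T/Up1
section

/-!
Row 207 (helper78): annular Bishop-Gromov, part 1: local contraction with barriers based at a fixed
distance from the centre (adapted from `R247/Mcs12`, `R247/Lc4`).
-/

set_option autoImplicit false
set_option maxSynthPendingDepth 3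
set_option linter.unusedSectionVars false

open Bundle Set Filter Topology MeasureTheory Metric
open scoped Manifold ContDiff ENNReal NNReal
open Crest.GeometryTopology.CoordMetric Crest.GeometryTopology.ChartCurvature
open Crest.GeometryTopology.PointedLimit
open Crest.GeometryTopology.MTW Crest.Agent.R244 Crest.Agent.R226
open Crest.Agent.R226.ChartMet842
open Crest.Agent.R226.CutSmooth77 (SC)
open Crest.Agent.R202.Tens Crest.Agent.R247 Crest.Agent.R247.Ms322 Crest.Agent.R247.Sm879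
open Crest.Agent.R247.Mcs816 Crest.Agent.R247.Lc582
open Crest.Agent.R247.Bo84 (mLap mGam inCh gam)

noncomputable section

namespace Crest.Agent.N207.Up

variable {n : ℕ} {M : Type*} [MetricSpace M] [ChartedSpace (EuclideanSpace ℝ (Fin n)) M]
  [IsManifold (𝓡 n) ∞ M]
  [RiemannianBundle (fun p : M => TangentSpace (𝓡 n) p)]
  [IsContMDiffRiemannianBundle (𝓡 n) ∞ (EuclideanSpace ℝ (Fin n)) (fun p : M => TangentSpace (𝓡 n) p)]

local notation "𝔼" => EuclideanSpace ℝ (Fin n)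

variable (n) in
/-- `Ric ≥ K` at `p` -/
def RicAt (p : M) (K : ℝ) : Prop :=
  ∀ v : EuclideanSpace ℝ (Fin n), K * quadForm (chartMetric n M p) (chartCentre n M p) v ≤
    ∑ i, ∑ j, ricci (chartMetric n M p) (chartCentre n M p) i j * v i * v j

variable [IsRiemannianManifold (𝓡 n) M] [ProperSpace M]

theorem mDev_ge' {K : ℝ} {p : M} (hK : RicAt n p K) {f : M → ℝ}
    (hf : ContMDiffAt (𝓡 n) 𝓘(ℝ) ∞ f p) : K * mGam n f f p ≤ mDev n f p := by
  rw [mDev_eq]
  have hg := Bo84.isRiemannianOn_chartMetric (n := n) p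
  have hc : chartCentre n M p ∈ (chartAt 𝔼 p).target := mem_chart_target 𝔼 p
  have hf2 : ContDiffAt ℝ 2 (inCh n p f) (chartCentre n M p) :=
    Bo84.contDiffAt_centre (by norm_cast) (hf.of_le (by norm_cast))
  have h1 := hessDev_nonneg hg hc hf2
  have h2 := ricQ_lower hg hc (inCh n p f) (K := K) hK
  have h3 : mGam n f f p = gam (chartMetric n M p) (inCh n p f) (inCh n p f) (chartCentre n M p) :=
    rfl
  rw [h3]
  linarith

/-- Laplacian comparison with a Ricci bound only along the minimisers -/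
theorem mLap_le' (hm : ExM M) {κ : ℝ} {z y : M} (hne : z ≠ y) (hend : SC n z y)
    (hK : ∀ p, dist z p + dist p y = dist z y → RicAt n p (-κ)) :
    mLap n (halfDistSq z) y ≤ n + κ * dist z y ^ 2 / 3 := by
  obtain ⟨γ, h0, h1, hγ⟩ := exists_unit hm z y
  have hD : 0 < dist z y := dist_pos.2 hne
  set D := dist z y with hDd
  rw [← h1] at hend
  have hDm : D ∈ Icc 0 D := ⟨hD.le, le_rfl⟩
  have h0m : (0:ℝ) ∈ Icc 0 D := ⟨le_rfl, hD.le⟩
  have hdz : ∀ t ∈ Icc 0 D, dist z (γ t) = t := by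
    intro t ht
    rw [← h0, hγ 0 h0m t ht, zero_sub, abs_neg, abs_of_nonneg ht.1]
  have e1 : ∀ t ∈ Icc 0 D, dist (γ t) (γ D) = D - t := fun t ht => by
    rw [hγ t ht D hDm, abs_sub_comm, abs_of_nonneg (by linarith [ht.2])]
  have hsc : ∀ t ∈ Icc 0 D, SC n z (γ t) := by
    intro t ht
    rcases eq_or_lt_of_le ht.2 with h | h
    · rw [h]; exact hend
    · refine sc_of_btw (y' := γ D) hm ?_ ?_
      · rw [e1 t ht, hdz t ht, hdz D hDm]; ring
      · intro h'
        have := e1 t ht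
        rw [h', dist_self] at this
        linarith
  have hγc : ContinuousOn γ (Icc 0 D) := by
    have : LipschitzOnWith 1 γ (Icc 0 D) := by
      refine LipschitzOnWith.of_dist_le_mul fun s hs t ht => ?_
      rw [hγ s hs t ht, Real.dist_eq]; simp
    exact this.continuousOn
  have hwc : ContinuousOn (fun s => (n:ℝ) - mLap n (halfDistSq z) (γ s)) (Icc 0 D) := by
    intro s hs
    refine continuousWithinAt_const.sub ?_
    exact (continuousAt_mLap (hsc s hs)).comp_continuousWithinAt (hγc s hs)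
  obtain ⟨B, hB⟩ := (isCompact_Icc.image_of_continuousOn hwc).isBounded.exists_norm_le
  have := ode_lower (κ := κ) hD hD (B := B) (fun s hs => hB _ ⟨s, ⟨hs.1.le, hs.2.le⟩, rfl⟩)
    (hwc.mono Ioc_subset_Icc_self) (fun s hs => hasDerivAt_defect hm hγ h0 hs) fun s hs => by
      have hs' : s ∈ Icc 0 D := ⟨hs.1.le, hs.2.le⟩
      have k1 := mDev_ge' (hK (γ s) (by rw [← h1, e1 s hs', hdz s hs']; ring))
        (contMDiffAt_cost (hsc s hs'))
      have k2 : mGam n (halfDistSq z) (halfDistSq z) (γ s) = s ^ 2 := by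
        have hsrc := mem_chart_source 𝔼 (γ s)
        rw [Bo84.mGam_chart' hsrc, inCh_eq_fz, gam_fz hm ((chartAt 𝔼 (γ s)).map_source hsrc)
          (by rw [(chartAt 𝔼 (γ s)).left_inv hsrc]; exact hsc s hs'), fz,
          (chartAt 𝔼 (γ s)).left_inv hsrc, halfDistSq, hdz s hs']
        ring
      rw [k2] at k1
      exact k1
  rw [h1] at this
  linarith

variable [MeasurableSpace M] [BorelSpace M]

/-- local contraction on the manifold. -/
theorem exists_locC [IsFiniteMeasureOnCompacts (μHE[n] : Measure M)] (hm : ExM M) {x y0 : M}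
    {δ0 Λ H : ℝ} (hδ0p : 0 < δ0) (hδ1 : δ0 ≤ dist x y0 / 4)
    (hL : ∀ z, dist x z = δ0 → dist z y0 = dist x y0 - δ0 → SC n z y0 →
      mLap n (halfDistSq z) y0 ≤ Λ) (hH : (1 + δ0 / (dist x y0 - δ0)) * Λ < H) :
    ∃ W, IsOpen W ∧ y0 ∈ W ∧ ∃ τ0 > 0, LocC (μHE[n] : Measure M) x W H τ0 := by
  have hd0 : 0 < dist x y0 := by linarith
  obtain ⟨d, hd⟩ : ∃ d, dist x y0 = d := ⟨_, rfl⟩
  rw [hd] at hd0 hδ1 hL hH
  obtain ⟨b0, hb0⟩ : ∃ b0 : 𝔼, b0 = chartAt 𝔼 y0 y0 := ⟨_, rfl⟩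
  have hb0t : b0 ∈ (chartAt 𝔼 y0).target := by
    rw [hb0]; exact mem_chart_target 𝔼 y0
  have hXb0 : (chartAt 𝔼 y0).symm b0 = y0 := by
    rw [hb0]; exact (chartAt 𝔼 y0).left_inv (mem_chart_source 𝔼 y0)
  have hZc : IsCompact (SS x δ0 y0) := isCompact_SS x δ0 y0
  have hZO : ∀ z ∈ SS x δ0 y0, (z, b0) ∈ OO n y0 := by
    intro z hz
    have h1 : dist x z = δ0 := hz.1
    have h2 : dist z y0 = d - δ0 := by rw [hz.2, hd]
    refine ⟨hb0t, ?_, ?_⟩
    · show z ≠ (chartAt 𝔼 y0).symm b0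
      rw [hXb0]
      apply dist_pos.1
      rw [h2]; linarith
    · show ((chartAt 𝔼 y0).symm b0, z) ∈ Om M
      rw [hXb0]
      refine mem_Om_of_btw' (x := x) (dist_pos.1 (by rw [h1]; exact hδ0p)) ?_
      rw [h1, h2, hd]; ring
  have hZH : ∀ z ∈ SS x δ0 y0, lapw (gm (n := n) y0) (dens (n := n) y0) (FF n x y0 z) b0 <
      H * dens (n := n) y0 b0 := by
    intro z hz
    have h1 : dist x z = δ0 := hz.1
    have h2 : dist z y0 = d - δ0 := by rw [hz.2, hd]
    have hsc := sc_of_OO (n := n) hm (q := (z, b0)) (hZO z hz)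
    have h3 : laplaceBeltrami (chartMetric n M y0) (fz (n := n) z y0) b0 ≤ Λ := by
      have h4 := hL z h1 h2 (by rw [← hXb0]; exact hsc)
      rw [hb0]; exact h4
    have h5 := lapw_FF (n := n) hm x (q := (z, b0)) (hZO z hz) h3
    refine h5.trans_lt ?_
    have hw := dens_pos (n := n) y0 hb0t
    refine mul_lt_mul_of_pos_right ?_ hw
    show (1 + dist x z / dist z ((chartAt 𝔼 y0).symm b0)) * Λ < _
    rw [hXb0, h1, h2]
    exact hH
  obtain ⟨K, hK, hZK, r, hr, hrT, hKO, C0, hLF⟩ :=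
    exists_LF (bg_chart (n := n) y0) (jf_barrier hm x y0) hZc hb0t hZO hZH
  -- shrink the ball
  have hcX : ContinuousAt (chartAt 𝔼 y0).symm b0 := (chartAt 𝔼 y0).continuousAt_symm hb0t
  have hev1 : ∀ᶠ b in 𝓝 b0, SS x δ0 ((chartAt 𝔼 y0).symm b) ⊆ interior K := by
    have h1 : ∀ᶠ q in 𝓝 ((chartAt 𝔼 y0).symm b0), SS x δ0 q ⊆ interior K := by
      rw [hXb0]; exact SS_eventually hZK
    exact hcX.eventually h1
  have hev2 : ∀ᶠ b in 𝓝 b0, d / 2 < dist x ((chartAt 𝔼 y0).symm b) := by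
    have h1 : ∀ᶠ q in 𝓝 ((chartAt 𝔼 y0).symm b0), d / 2 < dist x q := by
      have hc : ContinuousAt (fun q => dist x q) y0 := by fun_prop
      rw [hXb0]
      exact hc.eventually (lt_mem_nhds (by show d / 2 < dist x y0; rw [hd]; linarith))
    exact hcX.eventually h1
  have hev3 : ∀ᶠ b in 𝓝 b0, dist x ((chartAt 𝔼 y0).symm b) < 2 * d := by
    have h1 : ∀ᶠ q in 𝓝 ((chartAt 𝔼 y0).symm b0), dist x q < 2 * d := by
      have hc : ContinuousAt (fun q => dist x q) y0 := by fun_prop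
      rw [hXb0]
      exact hc.eventually (gt_mem_nhds (by show dist x y0 < 2 * d; rw [hd]; linarith))
    exact hcX.eventually h1
  obtain ⟨r1, hr1, hr1'⟩ := Metric.eventually_nhds_iff.1 (hev1.and (hev2.and hev3))
  obtain ⟨r2, hr2p, hr2r, hr2r1⟩ : ∃ r2 : ℝ, 0 < r2 ∧ r2 ≤ r ∧ r2 ≤ r1 :=
    ⟨min r r1, lt_min hr hr1, min_le_left _ _, min_le_right _ _⟩
  have hsub : ball b0 r2 ⊆ ball b0 r := ball_subset_ball hr2r
  have hsubc : closedBall b0 r2 ⊆ (chartAt 𝔼 y0).target :=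
    (closedBall_subset_closedBall hr2r).trans hrT
  have hgood : ∀ b ∈ ball b0 r2, SS x δ0 ((chartAt 𝔼 y0).symm b) ⊆ K ∧
      d / 2 < dist x ((chartAt 𝔼 y0).symm b) ∧ dist x ((chartAt 𝔼 y0).symm b) < 2 * d := by
    intro b hb
    have := hr1' (lt_of_lt_of_le (mem_ball.1 hb) hr2r1)
    exact ⟨this.1.trans interior_subset, this.2⟩
  obtain ⟨C1, hC1, hdist⟩ := dist_le_chart (n := n) y0 hsubc
  -- the dense sequence
  have hKne : K.Nonempty := by
    obtain ⟨c, hc1, hc2⟩ := hm.pt x y0 (t := δ0) hδ0p.le (by rw [hd]; linarith)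
    exact ⟨c, interior_subset (hZK ⟨hc1, hc2⟩)⟩
  obtain ⟨zk, hzk, hdense⟩ := exists_dense_seq' hKne
  obtain ⟨C, hCp, hCC0, hCC1, hCd⟩ : ∃ C : ℝ, 0 < C ∧ C0 ≤ C ∧ C1 ≤ C ∧ 2 * d ≤ C :=
    ⟨|C0| + C1 + 2 * d, by positivity, by have := le_abs_self C0; linarith,
      by have := abs_nonneg C0; linarith, by have := abs_nonneg C0; linarith⟩
  have hLF' := (hLF zk hzk).mono isOpen_ball hsub hCC0
  have hMF := mf_of (n := n) hm (x := x) (y0 := y0) (b0 := b0) (r := r2) (δ := δ0) (d := d)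
    (C1 := C1) (C := C) (K := K) hd0 hδ0p.le (by linarith) hK
    (fun z hz b hb => hKO ⟨hz, ball_subset_closedBall (hsub hb)⟩) hgood hdist hCC1 hCd hzk hdense
  -- the neighbourhood
  refine ⟨(chartAt 𝔼 y0).source ∩ (chartAt 𝔼 y0) ⁻¹' ball b0 (r2 / 2),
    (chartAt 𝔼 y0).isOpen_inter_preimage isOpen_ball,
    ⟨mem_chart_source 𝔼 y0, by rw [mem_preimage, ← hb0]; exact mem_ball_self (by positivity)⟩,
    min 1 (r2 / (2 * C)), by positivity, ?_⟩
  refine locC_of (E := 𝔼) (μHE[n] : Measure M) hLF' hMF (φ := chartAt 𝔼 y0)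
    ((chartAt 𝔼 y0).continuousOn.mono inter_subset_left)
    (fun m hm' => (chartAt 𝔼 y0).left_inv hm'.1) (min_le_left _ _) ?_ ?_
  · intro m hmW y hy
    have h1 : dist (chartAt 𝔼 y0 m) b0 < r2 / 2 := hmW.2
    have h2 : dist y (chartAt 𝔼 y0 m) ≤ C * min 1 (r2 / (2 * C)) := hy
    have h3 : C * min 1 (r2 / (2 * C)) ≤ r2 / 2 := by
      calc C * min 1 (r2 / (2 * C)) ≤ C * (r2 / (2 * C)) := by
            gcongr; exact min_le_right _ _
        _ = r2 / 2 := by field_simp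
    rw [mem_ball]
    have := dist_triangle y (chartAt 𝔼 y0 m) b0
    linarith
  · intro B hB hBm
    exact muHE_symm_image y0 (hB.trans (ball_subset_closedBall.trans hsubc)) hBm

end Crest.Agent.N207.Up
end
end

-- ▼ part N207/T/Up2
section

/-!
Row 207 (helper78): annular Bishop-Gromov, part 2: contraction on an annulus.
-/

set_option autoImplicit false
set_option maxSynthPendingDepth 3
set_option linter.unusedSectionVars false

open Bundle Set Filter Topology MeasureTheory Metric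
open scoped Manifold ContDiff ENNReal NNReal
open Crest.GeometryTopology.CoordMetric Crest.GeometryTopology.ChartCurvature
open Crest.Agent.R247 Crest.Agent.R247.Sm879 Crest.Agent.R247.Mcs816

noncomputable section

namespace Crest.Agent.N207.Up

section metric

variable {M : Type*} [MetricSpace M] [ProperSpace M] [MeasurableSpace M] [BorelSpace M]

/-- contraction on an annulus with a constant exponent -/
theorem contraction_ann {μ : Measure M} [IsFiniteMeasureOnCompacts μ] {x : M} (hx : NonBr x)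
    {b R H : ℝ} (_hb : 0 ≤ b)
    (hloc : ∀ y, b ≤ dist x y → dist x y ≤ R → ∃ W, IsOpen W ∧ y ∈ W ∧ ∃ τ0 > 0, LocC μ x W H τ0)
    {A : Set M} (hA : IsCompact A) {τ : ℝ} (hτ : 0 ≤ τ)
    (hAR : ∀ y ∈ A, b ≤ Real.exp (-τ) * dist x y ∧ dist x y ≤ R) :
    ENNReal.ofReal (Real.exp (-(H * τ))) * μ A ≤ μ (Ipt x (Real.exp (-τ)) A) := by
  set Q : Set M := closedBall x R ∩ {y | b ≤ dist x y} with hQdef
  have hQ : IsCompact Q := (isCompact_closedBall x R).inter_right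
    (isClosed_le continuous_const (by fun_prop))
  have hch : ∀ y ∈ Q, ∃ W, IsOpen W ∧ y ∈ W ∧ ∃ τ0 > 0, LocC μ x W H τ0 := fun y hy =>
    hloc y hy.2 (by have := hy.1; rwa [mem_closedBall, dist_comm] at this)
  choose! W hW hyW τ0 hτ0 hL using hch
  obtain ⟨s, hs, hcov⟩ := hQ.elim_nhds_subcover W (fun y hy => (hW y hy).mem_nhds (hyW y hy))
  obtain ⟨τ1, hτ1, hτ1'⟩ : ∃ τ1 > 0, ∀ y ∈ s, τ1 ≤ τ0 y := by
    classical
    rcases s.eq_empty_or_nonempty with rfl | hne'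
    · exact ⟨1, one_pos, by simp⟩
    · obtain ⟨y0, hy0, hmin⟩ := s.exists_min_image τ0 hne'
      exact ⟨τ0 y0, hτ0 y0 (hs y0 hy0), hmin⟩
  have hU : LocC μ x Q H τ1 :=
    (LocC.of_cover hx s W (fun y hy => hW y (hs y hy)) (P := Q) fun y hy =>
      (hL y (hs y hy)).mono inter_subset_left le_rfl (hτ1' y hy)).mono
      (fun y hy => ⟨hcov hy, hy⟩) le_rfl le_rfl
  obtain ⟨k, hk⟩ := exists_nat_gt (τ / τ1)
  have k0 : (0 : ℝ) < k := lt_of_le_of_lt (by positivity) hk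
  set δ := τ / k with hδd
  have hδ : 0 ≤ δ := by positivity
  have hδ1 : δ ≤ τ1 := by
    rw [hδd, div_le_iff₀ k0]; rw [div_lt_iff₀ hτ1] at hk; linarith
  have step : ∀ m : ℕ, (m : ℝ) * δ ≤ τ →
      ENNReal.ofReal (Real.exp (-(H * (m * δ)))) * μ A ≤ μ (Ipt x (Real.exp (-(m * δ))) A) := by
    intro m
    induction m with
    | zero => intro _; simp [Ipt_one]
    | succ m ih =>
      intro hm
      push_cast at hm ⊢
      have hmδ : 0 ≤ (m : ℝ) * δ := by positivity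
      have ih' := ih (by nlinarith)
      set A' := Ipt x (Real.exp (-(m * δ))) A with hA'
      have hA'Q : A' ⊆ Q := by
        rintro z ⟨y, hy, h1, -⟩
        have e1 : Real.exp (-(m * δ)) ≤ 1 := Real.exp_le_one_iff.2 (by linarith)
        have e2 : Real.exp (-τ) ≤ Real.exp (-(m * δ)) := Real.exp_le_exp.2 (by linarith)
        refine ⟨?_, ?_⟩
        · rw [mem_closedBall, dist_comm, h1]
          exact (mul_le_of_le_one_left dist_nonneg e1).trans (hAR y hy).2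
        · show b ≤ dist x z
          rw [h1]
          exact (hAR y hy).1.trans (mul_le_mul_of_nonneg_right e2 dist_nonneg)
      have h1 := hU A' hA'Q (isCompact_Ipt x _ hA) δ hδ hδ1
      have h2 : Ipt x (Real.exp (-δ)) A' ⊆ Ipt x (Real.exp (-((m + 1) * δ))) A := by
        have := Ipt_Ipt (x := x) (s := Real.exp (-(m * δ))) (t := Real.exp (-δ)) (A := A)
        rw [← Real.exp_add] at this
        have e : -δ + -(m * δ) = -((m + 1) * δ) := by ring
        rwa [e] at this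
      refine le_trans ?_ (measure_mono h2)
      refine le_trans ?_ h1
      refine le_trans ?_ (mul_le_mul_right ih' _)
      rw [← mul_assoc (ENNReal.ofReal _), ← ENNReal.ofReal_mul (Real.exp_pos _).le, ← Real.exp_add]
      refine le_of_eq ?_
      congr 3; ring
  have e : (k : ℝ) * δ = τ := by rw [hδd]; field_simp
  have := step k e.le
  rwa [e] at this

end metric

section riem

variable {n : ℕ} {M : Type*} [MetricSpace M] [ChartedSpace (EuclideanSpace ℝ (Fin n)) M]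
  [IsManifold (𝓡 n) ∞ M]
  [RiemannianBundle (fun p : M => TangentSpace (𝓡 n) p)]
  [IsContMDiffRiemannianBundle (𝓡 n) ∞ (EuclideanSpace ℝ (Fin n)) (fun p : M => TangentSpace (𝓡 n) p)]
  [IsRiemannianManifold (𝓡 n) M] [ProperSpace M] [MeasurableSpace M] [BorelSpace M]

/-- annular volume comparison -/
theorem vol_ann (x : M) {s b r τ κ : ℝ} (hs : 0 < s) (hb : 4 * s ≤ b) (hκ : 0 ≤ κ) (hτ : 0 ≤ τ)
    (hn : 1 ≤ n) (hK : ∀ p, s ≤ dist x p → dist x p ≤ r → RicAt n p (-κ)) :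
    ENNReal.ofReal (Real.exp (-((n + 3 * n * (s / b) + κ * r ^ 2) * τ))) *
      (μHE[n] : Measure M) {y | b ≤ Real.exp (-τ) * dist x y ∧ dist x y ≤ r} ≤
      (μHE[n] : Measure M) (closedBall x (Real.exp (-τ) * r)) := by
  have := locFin n M
  have hm := Bgr546.exM_of_riemannian n M
  have b0 : 0 < b := by linarith
  have hA : IsCompact {y | b ≤ Real.exp (-τ) * dist x y ∧ dist x y ≤ r} :=
    (isCompact_closedBall x r).of_isClosed_subset
      ((isClosed_le (f := fun _ => b) (g := fun y => Real.exp (-τ) * dist x y) continuous_const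
        (by fun_prop)).inter (isClosed_le (f := fun y => dist x y) (g := fun _ => r) (by fun_prop)
        continuous_const))
      fun y hy => by rw [mem_closedBall, dist_comm]; exact hy.2
  refine (contraction_ann (nonBr n hm x) b0.le (R := r) (fun y h1 h2 => ?_) hA hτ
    fun y hy => hy).trans (measure_mono fun z hz => dist_Ipt (Real.exp_pos _).le
      (fun y hy => by rw [mem_closedBall, dist_comm]; exact hy.2) hz)
  refine exists_locC hm hs (by linarith) (Λ := n + κ * r ^ 2 / 3) (fun z e1 e2 hsc => ?_) ?_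
  · have hne : z ≠ y := dist_pos.1 (by rw [e2]; linarith)
    refine (mLap_le' hm (κ := κ) hne hsc fun p hp => hK p ?_ ?_).trans ?_
    · have t1 := dist_triangle x p y
      have := dist_nonneg (x := z) (y := p)
      linarith
    · have t1 := dist_triangle x z p
      have := dist_nonneg (x := p) (y := y)
      linarith
    · have : dist z y ^ 2 ≤ r ^ 2 := pow_le_pow_left₀ dist_nonneg (by linarith) 2
      nlinarith
  · have q0 : 0 < s / b := by positivity
    have q1 : s / b ≤ 1 / 4 := by rw [div_le_iff₀ b0]; linarith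
    have q2 : s / (dist x y - s) ≤ 2 * (s / b) := by
      rw [← mul_div_assoc, div_le_div_iff₀ (by linarith) b0]; nlinarith
    have n1 : (1 : ℝ) ≤ n := by exact_mod_cast hn
    have k0 : 0 ≤ κ * r ^ 2 := by positivity
    nlinarith [mul_le_mul_of_nonneg_right q2 (show 0 ≤ n + κ * r ^ 2 / 3 by positivity),
      mul_le_mul_of_nonneg_right q1 k0, mul_pos q0 (show (0 : ℝ) < n by linarith)]

end riem

variable {M : Type*} [TopologicalSpace M] [ChartedSpace E4 M] [IsManifold 𝓘(ℝ, E4) ∞ M]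
  [T3Space M] [ConnectedSpace M] [CompactSpace M] [MeasurableSpace M] [BorelSpace M]

theorem ricAt_of (g : Met 4 M) (p : M) {κ : ℝ} (h : √(g.rc 0 p) ≤ κ) :
    RicAt 4 (M := Sl g) p (-κ) := by
  intro v
  have hA := (V.riem g p).posDef _ (mem_chart_target E4 p)
  have k := Ar.abs_evT_le hA (ricT (g.G p) (ctr 4 p)) ![v, v]
  have e1 : evT (ricT (g.G p) (ctr 4 p)) ![v, v] =
      ∑ i, ∑ j, ricci (g.G p) (ctr 4 p) i j * v i * v j := by
    rw [evT, ← (finTwoArrowEquiv (Fin 4)).symm.sum_comp, Fintype.sum_prod_type]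
    refine Finset.sum_congr rfl fun i _ => Finset.sum_congr rfl fun j _ => ?_
    simp [ricT]; ring
  have b0 := Ar.bil_nonneg hA v
  rw [e1, Fin.prod_univ_two] at k
  simp only [Matrix.cons_val_zero, Matrix.cons_val_one, Matrix.cons_val_fin_one] at k
  rw [Real.mul_self_sqrt b0] at k
  have e2 : quadForm (g.G p) (ctr 4 p) v = R202.Tens.bil (g.G p (ctr 4 p)) v v :=
    (R202.Tens.bil_apply _ _ _).symm
  have k2 : √(ipA (g.G p (ctr 4 p))⁻¹ (ricT (g.G p) (ctr 4 p)) (ricT (g.G p) (ctr 4 p))) ≤ κ := h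
  show -κ * quadForm (g.G p) (ctr 4 p) v ≤ ∑ i, ∑ j, ricci (g.G p) (ctr 4 p) i j * v i * v j
  rw [e2]
  nlinarith [(abs_le.1 k).1, mul_le_mul_of_nonneg_right k2 b0]

/-- **annular Bishop-Gromov** for a metric on a compact 4-manifold -/
theorem bg_ann (g : Met 4 M) [IsFiniteMeasure g.vol] (x : M) {s b r r2 κ : ℝ} (hs : 0 < s)
    (hb : 4 * s ≤ b) (hκ : 0 ≤ κ) (h2 : 0 < r2) (h3 : r2 ≤ r)
    (hK : ∀ p, s ≤ g.d x p → g.d x p ≤ r → √(g.rc 0 p) ≤ κ) :
    g.vol.real {y | b / r2 * r ≤ g.d x y ∧ g.d x y ≤ r} ≤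
      Real.exp ((12 * (s / b) + κ * r ^ 2) * Real.log (r / r2)) * (r / r2) ^ 4 *
        g.vol.real {y | g.d x y ≤ r2} := by
  have r0 : 0 < r := h2.trans_le h3
  have q : 1 ≤ r / r2 := (one_le_div h2).2 h3
  have k := vol_ann (n := 4) (M := Sl g) x hs hb hκ (Real.log_nonneg q) (by norm_num) (r := r)
    fun p h1 h4 => ricAt_of g p (hK p h1 h4)
  have e : Real.exp (-Real.log (r / r2)) = r2 / r := by
    rw [Real.exp_neg, Real.exp_log (by positivity), inv_div]
  rw [e, div_mul_cancel₀ _ r0.ne'] at k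
  have s1 : {y : M | b / r2 * r ≤ g.d x y ∧ g.d x y ≤ r} =
      {y : Sl g | b ≤ r2 / r * dist (α := Sl g) x y ∧ dist (α := Sl g) x y ≤ r} := by
    ext y
    show b / r2 * r ≤ g.d x y ∧ g.d x y ≤ r ↔ b ≤ r2 / r * g.d x y ∧ g.d x y ≤ r
    rw [div_mul_eq_mul_div, div_le_iff₀ h2, div_mul_eq_mul_div r2, le_div_iff₀ r0, mul_comm r2]
  have s2 : {y : M | g.d x y ≤ r2} = closedBall (α := Sl g) x r2 := by
    ext y
    exact (mem_closedBall' (α := Sl g)).symm
  have k' : ENNReal.ofReal _ * g.vol _ ≤ g.vol _ := k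
  have k2 := ENNReal.toReal_mono (measure_ne_top _ _) k'
  rw [ENNReal.toReal_mul, ENNReal.toReal_ofReal (Real.exp_pos _).le] at k2
  rw [s1, s2]
  have e2 : Real.exp ((12 * (s / b) + κ * r ^ 2) * Real.log (r / r2)) * (r / r2) ^ 4 =
      Real.exp (((4 : ℕ) + 3 * (4 : ℕ) * (s / b) + κ * r ^ 2) * Real.log (r / r2)) := by
    rw [← Real.exp_log (show 0 < (r / r2) ^ 4 by positivity), ← Real.exp_add, Real.log_pow]
    congr 1; push_cast; ring
  rw [e2]
  rw [Real.exp_neg, inv_mul_le_iff₀ (Real.exp_pos _)] at k2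
  exact k2

end Crest.Agent.N207.Up
end
end

-- ▼ part N207/T/Up3

/-!
Row 207 (helper78): the volume ratio at a concentration point (`NVUp`).
-/

set_option autoImplicit false
set_option linter.unusedSectionVars false

open scoped ContDiff Manifold Topology RealInnerProductSpace
open Set MeasureTheory Filter Metric
open Crest.GeometryTopology.CoordMetric Crest.GeometryTopology.ChartCurvature
  Crest.GeometryTopology.MetricFamily

noncomputable section

namespace Crest.Agent.N207.T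

open Sk

/-- the volume of a half ball -/
theorem vol_half {ν : E4} (hν : ν ≠ 0) {r : ℝ} (hr : 0 < r) :
    volume.real (ball (0 : E4) r ∩ {x | 0 ≤ ⟪x, ν⟫}) ≤ om / 2 * r ^ 4 := by
  set P : Set E4 := ball 0 r ∩ {x | 0 < ⟪x, ν⟫} with hP
  have cν : Continuous fun x : E4 => ⟪x, ν⟫ := by fun_prop
  have mP : MeasurableSet P := (isOpen_ball.inter (isOpen_lt continuous_const cν)).measurableSet
  have z : volume ((ℝ ∙ ν)ᗮ : Submodule ℝ E4).carrier = 0 := by
    refine Measure.addHaar_submodule volume _ fun h => hν ?_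
    have : ν ∈ (ℝ ∙ ν)ᗮ := h ▸ Submodule.mem_top
    exact inner_self_eq_zero.1 (Submodule.mem_orthogonal_singleton_iff_inner_right.1 this)
  have fin : ∀ S : Set E4, S ⊆ ball 0 r → volume S ≠ ⊤ := fun S hS =>
    ((measure_mono hS).trans_lt measure_ball_lt_top).ne
  have e1 : volume.real (ball (0 : E4) r ∩ {x | 0 ≤ ⟪x, ν⟫}) ≤ volume.real P := by
    refine ENNReal.toReal_mono (fin P inter_subset_left) ?_
    refine (measure_mono (t := P ∪ ((ℝ ∙ ν)ᗮ : Submodule ℝ E4).carrier) fun x hx => ?_).trans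
      ((measure_union_le _ _).trans (by rw [z, add_zero]))
    rcases (show 0 ≤ ⟪x, ν⟫ from hx.2).eq_or_lt with h | h
    · exact Or.inr (Submodule.mem_orthogonal_singleton_iff_inner_left.2 h.symm)
    · exact Or.inl ⟨hx.1, h⟩
  have e2 : volume.real (-P) = volume.real P := by rw [Measure.real, Measure.measure_neg]; rfl
  have d : Disjoint P (-P) := by
    rw [Set.disjoint_left]
    intro x h1 h2
    have a : 0 < ⟪x, ν⟫ := h1.2
    have b : 0 < ⟪-x, ν⟫ := h2.2
    rw [inner_neg_left] at b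
    linarith
  have s2 : -P ⊆ ball 0 r := fun x hx => by simpa using hx.1
  have e3 := measureReal_union (μ := volume) d mP.neg (fin P inter_subset_left) (fin _ s2)
  have e4 : volume.real (P ∪ -P) ≤ om * r ^ 4 := by
    rw [← vol_ball 0 hr]
    exact measureReal_mono (union_subset inter_subset_left s2) measure_ball_lt_top.ne
  linarith

/-- every orbit meets a half space -/
theorem orbit_half {Γ : Subgroup (E4 ≃ₗᵢ[ℝ] E4)} (h : Grp Γ) :
    ∃ ν : E4, ν ≠ 0 ∧ ∀ x : E4, ∃ g ∈ Γ, 0 ≤ ⟪g x, ν⟫ := by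
  obtain ⟨⟨γ, hγ⟩, h1⟩ := Subgroup.ne_bot_iff_exists_ne_one.1 h.ne
  have := h.fin
  set e : E4 := EuclideanSpace.single 0 1 with he
  have e0 : e ≠ 0 := by simp [he]
  refine ⟨e - γ.symm e, fun hz => h1 (Subtype.ext (h.free γ hγ e e0 ?_)), fun x => ?_⟩
  · rw [sub_eq_zero] at hz
    conv_lhs => rw [hz]
    exact γ.apply_symm_apply e
  · obtain ⟨g, hg⟩ := Finite.exists_max fun g : Γ => ⟪g.1 x, e⟫
    refine ⟨g.1, g.2, ?_⟩
    have k := hg (⟨γ, hγ⟩ * g)
    have e1 : ⟪((⟨γ, hγ⟩ * g : Γ) : E4 ≃ₗᵢ[ℝ] E4) x, e⟫ = ⟪g.1 x, γ.symm e⟫ := by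
      rw [← γ.inner_map_map (g.1 x), γ.apply_symm_apply]; rfl
    rw [inner_sub_right]
    linarith

theorem near_det {κ : ℝ} (hκ : 0 < κ) : ∃ η, 0 < η ∧ ∀ G : Matrix (Fin 4) (Fin 4) ℝ,
    (∀ i j, |G i j - (1 : Matrix (Fin 4) (Fin 4) ℝ) i j| ≤ η) → √G.det ≤ 1 + κ := by
  have c1 : ContinuousAt (fun G : Fin 4 → Fin 4 → ℝ => √(Matrix.of G).det)
      (1 : Matrix (Fin 4) (Fin 4) ℝ) := (continuous_id.matrix_det.sqrt).continuousAt
  have c2 := c1.eventually (gt_mem_nhds (show √(Matrix.of (1 : Matrix (Fin 4) (Fin 4) ℝ)).det < 1 + κ by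
    have : Matrix.of (1 : Matrix (Fin 4) (Fin 4) ℝ) = 1 := rfl
    rw [this]; simpa using hκ))
  obtain ⟨η, hη, h⟩ := Metric.eventually_nhds_iff.1 c2
  refine ⟨η / 2, by positivity, fun G hG => (h (y := G) ?_).le⟩
  refine lt_of_le_of_lt ((dist_pi_le_iff (by positivity)).2 fun i =>
    (dist_pi_le_iff (by positivity)).2 fun j => hG i j) (half_lt_self hη)

variable {M : Type*} [TopologicalSpace M] [ChartedSpace E4 M] [IsManifold 𝓘(ℝ, E4) ∞ M]
  [T3Space M] [ConnectedSpace M] [CompactSpace M] [MeasurableSpace M] [BorelSpace M]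

/-- sharp volume bound in a neck -/
theorem vol_neck (g : Met 4 M) {N : Nk M} (hT : N.Top) {κ r : ℝ} (hκ : 0 ≤ κ) (hr : 0 < r)
    (hb : r ≤ N.b) (hG : ∀ x ∈ shell N.a N.b, √(g.pm N.Ψ x).det ≤ 1 + κ) :
    g.vol.real (N.Ψ '' shell N.a r) ≤ (1 + κ) * (om / 2 * r ^ 4) := by
  obtain ⟨ν, hν, h⟩ := orbit_half hT.grp
  set B : Set E4 := shell N.a r ∩ {x | 0 ≤ ⟪x, ν⟫} with hB
  have sB : B ⊆ shell N.a N.b := fun x hx => ⟨hx.1.1, hx.1.2.trans_le hb⟩
  have mB : MeasurableSet B :=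
    (((isOpen_lt continuous_const continuous_norm).inter
      (isOpen_lt continuous_norm continuous_const)).measurableSet).inter
      (isClosed_le continuous_const (by fun_prop)).measurableSet
  have s1 : N.Ψ '' shell N.a r ⊆ N.Ψ '' B := by
    rintro _ ⟨x, hx, rfl⟩
    obtain ⟨γ, hγ, h1⟩ := h x
    have m : γ x ∈ shell N.a r := by simpa only [shell, mem_ofPred_eq, γ.norm_map] using hx
    exact ⟨γ x, ⟨m, h1⟩, ((hT.fib x ⟨hx.1, hx.2.trans_le hb⟩ _ (sB ⟨m, h1⟩)).2 ⟨γ, hγ, rfl⟩).symm⟩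
  have s2 : B ⊆ ball (0 : E4) r ∩ {x | 0 ≤ ⟪x, ν⟫} := fun x hx => ⟨by simpa using hx.1.2, hx.2⟩
  have f2 : volume (ball (0 : E4) r ∩ {x | 0 ≤ ⟪x, ν⟫}) ≠ ⊤ :=
    ((measure_mono inter_subset_left).trans_lt measure_ball_lt_top).ne
  have k : g.vol (N.Ψ '' shell N.a r) ≤
      ENNReal.ofReal (1 + κ) * volume (ball (0 : E4) r ∩ {x | 0 ≤ ⟪x, ν⟫}) := by
    refine (measure_mono s1).trans ((V.vol_par_le hT.par g sB mB).trans ?_)
    refine (setLIntegral_mono' mB fun x hx => ENNReal.ofReal_le_ofReal (hG x (sB hx))).trans ?_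
    rw [setLIntegral_const]
    exact mul_le_mul_right (measure_mono s2) _
  have k2 := ENNReal.toReal_mono (ENNReal.mul_ne_top ENNReal.ofReal_ne_top f2) k
  rw [ENNReal.toReal_mul, ENNReal.toReal_ofReal (by positivity)] at k2
  exact k2.trans (mul_le_mul_of_nonneg_left (vol_half hν hr) (by positivity))

/-- pigeonhole on scales -/
theorem exists_gap {Bad : Finset ℤ} {n0 : ℕ} (h : Bad.card ≤ n0) {c Λ : ℝ} (hc : 0 < c)
    (hΛ : 1 ≤ Λ) : ∃ i ≤ n0, ∀ j ∈ Bad, (2 : ℝ) ^ j < c * Λ ^ i ∨ c * Λ ^ (i + 1) / 2 < (2 : ℝ) ^ j := by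
  by_contra! hn
  choose! f hf h1 h2 using hn
  have key : ∀ i ≤ n0, ∀ i' ≤ n0, i < i' → f i ≠ f i' := fun i hi i' hi' hlt he => by
    have a1 := h2 i hi
    have a2 := h1 i' hi'
    have a3 : c * Λ ^ (i + 1) ≤ c * Λ ^ i' :=
      mul_le_mul_of_nonneg_left (pow_le_pow_right₀ hΛ hlt) hc.le
    have a4 : 0 < c * Λ ^ (i + 1) := by positivity
    rw [he] at a1
    linarith
  have := Finset.card_le_card_of_injOn (s := Finset.range (n0 + 1)) (t := Bad) f
    (fun i hi => hf i (Nat.lt_succ_iff.1 (Finset.mem_range.1 hi))) fun i hi i' hi' he => by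
      have b1 := Nat.lt_succ_iff.1 (Finset.mem_range.1 hi)
      have b2 := Nat.lt_succ_iff.1 (Finset.mem_range.1 hi')
      rcases lt_trichotomy i i' with h | h | h
      · exact absurd he (key i b1 i' b2 h)
      · exact h
      · exact absurd he.symm (key i' b2 i b1 h)
  rw [Finset.card_range] at this
  omega

/-- the volume of a ball whose boundary lies in a long neck -/
theorem vol_ball_neck (g : Met 4 M) [IsFiniteMeasure g.vol] {N : Nk M} (hT : N.Top) {y : M}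
    {ξ η V r2 : ℝ} (hξ : 0 < ξ) (hξ1 : ξ ≤ 1) (hη : η ≤ ξ / 12) (h2 : 0 < r2) (hb : N.b = 2 * r2)
    (ha : N.a ≤ ξ / 4 * r2) (hV : |V| * N.a ≤ ξ * r2) (hv : g.vol.real N.In ≤ V * N.a ^ 4)
    (hG : ∀ x ∈ shell N.a N.b, √(g.pm N.Ψ x).det ≤ 1 + ξ)
    (d1 : ∀ x ∈ shell N.a N.b, (1 - 4 * η) * (‖x‖ - N.a) ≤ g.d y (N.Ψ x))
    (d2 : ∀ p ∉ N.Om N.b, (1 - 4 * η) * (N.b - N.a) ≤ g.d y p) :
    g.vol.real {p | g.d y p ≤ r2} ≤ (ξ + (1 + ξ) ^ 5 * (om / 2)) * r2 ^ 4 := by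
  have a0 := hT.a_pos
  have s1 : {p | g.d y p ≤ r2} ⊆ N.In ∪ N.Ψ '' shell N.a ((1 + ξ) * r2) := by
    intro p hp
    have hp' : g.d y p ≤ r2 := hp
    by_cases h : p ∈ N.Om N.b
    · rcases h with h | ⟨x, hx, rfl⟩
      · exact Or.inl h
      refine Or.inr ⟨x, ⟨hx.1, ?_⟩, rfl⟩
      have k := (d1 x hx).trans hp'
      by_contra! hn
      have k1 : (1 + 3 * ξ / 4) * r2 ≤ ‖x‖ - N.a := by linarith
      have k2 : 1 - ξ / 3 ≤ 1 - 4 * η := by linarith
      have := mul_le_mul k2 k1 (by positivity) (by linarith)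
      nlinarith [mul_pos hξ h2, mul_le_mul_of_nonneg_right hξ1 (mul_pos hξ h2).le]
    · have k := (d2 p h).trans hp'
      have k1 : 7 / 4 * r2 ≤ N.b - N.a := by nlinarith
      have k2 : 2 / 3 ≤ 1 - 4 * η := by linarith
      have := mul_le_mul k2 k1 (by positivity) (by linarith)
      linarith
  have k1 := vol_neck g hT hξ.le (r := (1 + ξ) * r2) (by positivity) (by nlinarith) hG
  have k2 : V * N.a ^ 4 ≤ ξ * r2 ^ 4 := by
    have a1 : N.a ^ 3 ≤ r2 ^ 3 := pow_le_pow_left₀ a0.le (by nlinarith) 3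
    calc V * N.a ^ 4 ≤ |V| * N.a * N.a ^ 3 := by
          rw [mul_assoc, ← pow_succ']; exact mul_le_mul_of_nonneg_right (le_abs_self V) (by positivity)
      _ ≤ ξ * r2 * r2 ^ 3 := mul_le_mul hV a1 (by positivity) (by positivity)
      _ = _ := by ring
  have k3 := (measureReal_mono s1).trans (measureReal_union_le (μ := g.vol) _ _)
  calc _ ≤ ξ * r2 ^ 4 + (1 + ξ) * (om / 2 * ((1 + ξ) * r2) ^ 4) := by linarith
    _ = _ := by ring

/-- Ricci bound on a regular annulus -/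
theorem ric_ann {F : Flow M} (hB : Base F) : ∃ εU r0 C : ℝ, 0 < εU ∧ 0 < r0 ∧ 0 < C ∧
    ∀ t ∈ late F, ∀ (y : M) (σ ρ : ℝ), 0 < σ → σ ≤ ρ → ρ ≤ r0 →
      F.hc.en t y (4 * ρ) ≤ F.hc.en t y σ + εU → ∀ p, 2 * σ ≤ (F.m t).d y p →
        (F.m t).d y p ≤ 2 * ρ → √((F.m t).rc 0 p) ≤ C / σ := by
  obtain ⟨ε0, c, r0, hε0, hc, hr0, -, h⟩ := hB.e.reg (F.T / 2) (half_pos F.hT)
  obtain ⟨C, hC, h⟩ := h 0
  refine ⟨ε0, r0, √C, hε0, hr0, Real.sqrt_pos.2 hC, fun t ht y σ ρ s0 s1 r1 he p p1 p2 => ?_⟩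
  have ht' : t ∈ Ioo 0 F.hc.T := ⟨(half_pos F.hT).trans_le ht.1, ht.2⟩
  have D := hB.ok.dist
  have oB : ∀ x r, IsOpen (F.hc.B t x r) := fun x r => isOpen_lt (D.cont t ht' x) continuous_const
  have i0 := hB.ok.alg.integrable hB.ok.int ht' (hB.ok.alg.s0_N ht' 0)
  have p1' : 2 * σ ≤ F.hc.d t y p := p1
  have p2' : F.hc.d t y p ≤ 2 * ρ := p2
  have dj : Disjoint (F.hc.B t y σ) (F.hc.B t p σ) := by
    rw [Set.disjoint_left]
    intro z h1 h2
    have a : F.hc.d t y z < σ := h1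
    have b : F.hc.d t p z < σ := h2
    have := D.tri t ht' y z p
    rw [D.symm t ht' z p] at this
    linarith
  have e1 : F.hc.en t y σ + F.hc.en t p σ ≤ F.hc.en t y (4 * ρ) := by
    unfold HC.en
    rw [← setIntegral_union dj (oB p σ).measurableSet i0.integrableOn i0.integrableOn]
    refine setIntegral_mono_set i0.integrableOn
      (Eventually.of_forall fun z => hB.ok.evo.N_nonneg 0 t ht' z) (LE.le.eventuallyLE ?_)
    rintro z (hz | hz)
    · have a : F.hc.d t y z < σ := hz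
      show F.hc.d t y z < 4 * ρ
      linarith
    · have a : F.hc.d t p z < σ := hz
      have := D.tri t ht' y p z
      show F.hc.d t y z < 4 * ρ
      linarith
  have k := ((h t ht p σ s0 (s1.trans r1) (by linarith) p (by
    show F.hc.d t p p < σ / 2
    rw [D.self t ht']; positivity)).1 t ht' (by simp; positivity)).2
  refine Real.sqrt_le_iff.2 ⟨by positivity, ?_⟩
  rw [div_pow, Real.sq_sqrt hC.le]
  exact k

theorem exists_xi {v : ℝ} (hv : om / 2 < v) : ∃ ξ : ℝ, 0 < ξ ∧ ξ ≤ 1 ∧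
    ξ + Real.exp ξ * (ξ + (1 + ξ) ^ 5 * (om / 2)) ≤ v := by
  have c : ContinuousAt (fun ξ : ℝ => ξ + Real.exp ξ * (ξ + (1 + ξ) ^ 5 * (om / 2))) 0 := by
    fun_prop
  have := (c.eventually (gt_mem_nhds (show _ < v by simpa using hv))).filter_mono
    (nhdsWithin_le_nhds (s := Ioi 0))
  obtain ⟨ξ, h1, h2⟩ := (this.and (Ioc_mem_nhdsGT one_pos)).exists
  exact ⟨ξ, h2.1, h2.2, h1.le⟩

theorem num_b2 {K l L Λ σ r2 : ℝ} (K0 : 0 < K) (l0 : 0 < l) (σ0 : 0 < σ) (L1 : 32 * K ≤ l * L)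
    (LΛ : L ≤ Λ) (b1 : σ * (l * Λ) ≤ 4 * K * (l * r2)) : 4 * (2 * σ) ≤ l * r2 := by
  have h1 := L1.trans (mul_le_mul_of_nonneg_left LΛ l0.le)
  refine le_of_mul_le_mul_left ?_ (show 0 < 4 * K by positivity)
  nlinarith [mul_le_mul_of_nonneg_left h1 σ0.le]

theorem num_lg {K L σ r r2 : ℝ} {n : ℕ} (K0 : 0 < K) (r0 : 0 < r) (r20 : 0 < r2) (L0 : 0 < L)
    (L4 : 32 * K ≤ L) (h2 : r ≤ 2 * (σ * L ^ 2 * (L ^ 2) ^ n)) (h3 : σ * L ^ 2 ≤ 4 * K * r2) :
    Real.log (r / r2) ≤ (2 * n + 1) * L := by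
  have h1 : r / r2 ≤ L * (L ^ 2) ^ n := by
    rw [div_le_iff₀ r20]
    have h4 : 0 < (L ^ 2) ^ n := by positivity
    have h5 := mul_le_mul_of_nonneg_right h3 h4.le
    have h6 := mul_le_mul_of_nonneg_right L4 (mul_pos h4 r20).le
    nlinarith [mul_pos K0 (mul_pos h4 r20)]
  refine (Real.log_le_log (by positivity) h1).trans ?_
  rw [← pow_mul, ← pow_succ', Real.log_pow]
  push_cast
  exact mul_le_mul_of_nonneg_left ((Real.log_le_sub_one_of_pos L0).trans (by linarith))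
    (by positivity)

theorem num_ex {K l L σ r2 ξ m : ℝ} (K0 : 0 < K) (l0 : 0 < l) (σ0 : 0 < σ) (L0 : 0 < L)
    (r20 : 0 < r2) (ξ0 : 0 < ξ) (L3 : 192 * K * m ≤ l * ξ * L)
    (b1 : σ * (l * L ^ 2) ≤ 4 * K * (l * r2)) : 12 * (2 * σ / (l * r2)) * (m * L) ≤ ξ / 2 := by
  rw [← mul_div_assoc, div_mul_eq_mul_div, div_le_iff₀ (by positivity)]
  refine le_of_mul_le_mul_left ?_ (show 0 < 8 * K by positivity)
  have h2 := mul_le_mul_of_nonneg_right L3 (mul_pos σ0 L0).le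
  have h3 := mul_le_mul_of_nonneg_left b1 ξ0.le
  nlinarith

theorem num_a {a V ξ r2 : ℝ} (a0 : 0 < a) (V0 : 0 ≤ V) (ξ1 : ξ ≤ 1) (r20 : 0 < r2)
    (a1 : a * (4 * (1 + V)) ≤ ξ * r2) :
    a ≤ ξ / 4 * r2 ∧ V * a ≤ ξ * r2 ∧ ξ / 4 * r2 ≤ r2 / 4 :=
  ⟨by nlinarith [mul_nonneg a0.le V0], by nlinarith [mul_nonneg a0.le V0], by nlinarith⟩

end Crest.Agent.N207.T

end
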