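import Crest.Agent.N207.T.Defs
import Crest.Agent.N207.C.Cutf
import Crest.Agent.N207.C.Dist
import Crest.Agent.N207.D.Flux
import Crest.Agent.N207.T.St

-- ▼ part N207/T/Kit1
section

/-!
# Row 207 (helper36): block TOP, static regions: distances
-/

set_option autoImplicit false
set_option linter.unusedSectionVars false

open scoped ContDiff Topology
open Set MeasureTheory Filter

noncomputable section

namespace Crest.Agent.N207.T

variable {M : Type*} [TopologicalSpace M] [CompactSpace M] [MeasurableSpace M]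
  [OpensMeasurableSpace M] {H : HC M}

/-- gradients at time `t` are bounded by gradients at time `τ` on `G` -/
def Cp (H : HC M) (t τ : ℝ) (G : Set M) (Λ : ℝ) : Prop :=
  ∀ u, H.S0 u → ∀ x ∈ G, H.gam t u u x ≤ Λ ^ 2 * H.gam τ u u x

theorem Cp.mono {t τ Λ : ℝ} {G G' : Set M} (h : Cp H t τ G Λ) (hG : G' ⊆ G) : Cp H t τ G' Λ :=
  fun u hu x hx => h u hu x (hG hx)

theorem lip_scale (h : H.Ok) {t : ℝ} (ht : t ∈ Ioo 0 H.T) {u : M → ℝ} (hu : H.S0 u) {Λ r : ℝ}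
    (hΛ : 0 < Λ) {x y : M} (hg : ∀ z, H.d t x z < r → H.gam t u u z ≤ Λ ^ 2)
    (hy : H.d t x y < r) : |u y - u x| ≤ Λ * H.d t x y := by
  have h1 := h.dist.lip t ht (u := fun z => Λ⁻¹ * u z) (x := x) (y := y) (r := r)
    (h.alg.s0_cmul _ hu) (fun z hz => by
      rw [h.alg.gam_cmul ht _ hu (h.alg.s0_cmul _ hu), h.alg.gam_cmul' ht _ hu hu]
      have := hg z hz
      calc Λ⁻¹ * (Λ⁻¹ * H.gam t u u z) = H.gam t u u z / Λ ^ 2 := by field_simp
        _ ≤ 1 := by rw [div_le_one (by positivity)]; exact this) hy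
  rw [← mul_sub, abs_mul, abs_of_pos (inv_pos.2 hΛ)] at h1
  calc |u y - u x| = Λ * (Λ⁻¹ * |u y - u x|) := by field_simp
    _ ≤ Λ * H.d t x y := by gcongr

theorem lip_scale' (h : H.Ok) {t : ℝ} (ht : t ∈ Ioo 0 H.T) {u : M → ℝ} (hu : H.S0 u) {Λ : ℝ}
    (hΛ : 0 < Λ) (hg : ∀ z, H.gam t u u z ≤ Λ ^ 2) (x y : M) : |u y - u x| ≤ Λ * H.d t x y :=
  lip_scale h ht hu hΛ (r := H.d t x y + 1) (fun z _ => hg z) (by linarith)

/-- a smooth clamp -/
theorem exists_clamp (α c : ℝ) {ε : ℝ} (hε : 0 < ε) : ∃ φ : ℝ → ℝ, ContDiff ℝ ∞ φ ∧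
    (∀ s, |deriv φ s| ≤ 1) ∧ (∀ s ≤ α, deriv φ s = 0) ∧ (∀ s, α + c + ε ≤ s → deriv φ s = 0) ∧
    ∀ s, min (s - α - ε) c ≤ φ s ∧ φ s ≤ min (max (s - α) 0) c + ε := by
  obtain ⟨ψ, h1, h2, h3, -, h5⟩ := Dist.exists_psi hε
  have hd : Differentiable ℝ ψ := h1.differentiable (by simp)
  have hder : ∀ s, HasDerivAt (fun s => c - ψ (c - ψ (s - α)))
      (deriv ψ (c - ψ (s - α)) * deriv ψ (s - α)) s := fun s => by
    have a1 : HasDerivAt (fun s => ψ (s - α)) (deriv ψ (s - α)) s := by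
      exact (hd (s - α)).hasDerivAt.comp_sub_const s α
    have a2 := (hd (c - ψ (s - α))).hasDerivAt.comp s (a1.const_sub c)
    simpa using a2.const_sub c
  refine ⟨fun s => c - ψ (c - ψ (s - α)), by fun_prop, fun s => ?_, fun s hs => ?_,
    fun s hs => ?_, fun s => ?_⟩
  · rw [(hder s).deriv, abs_le]
    obtain ⟨a1, a2⟩ := h2 (c - ψ (s - α))
    obtain ⟨b1, b2⟩ := h2 (s - α)
    constructor <;> nlinarith
  · rw [(hder s).deriv, h3 (s - α) (by linarith), mul_zero]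
  · rw [(hder s).deriv, h3 (c - ψ (s - α)) ?_, zero_mul]
    have := (h5 (s - α)).1
    have := le_max_left (s - α) 0
    linarith
  · obtain ⟨a1, a2⟩ := h5 (s - α)
    obtain ⟨b1, b2⟩ := h5 (c - ψ (s - α))
    have e1 := le_max_left (s - α) 0
    constructor
    · rcases le_total (c - ψ (s - α)) 0 with h | h
      · rw [max_eq_right h] at b2
        have := min_le_right (s - α - ε) c
        simp only; linarith
      · rw [max_eq_left h] at b2
        have := min_le_left (s - α - ε) c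
        simp only; linarith
    · have e2 := le_max_left (c - ψ (s - α)) 0
      have e3 := le_max_right (c - ψ (s - α)) 0
      rcases le_total (max (s - α) 0) c with h | h
      · rw [min_eq_left h]; simp only; linarith
      · rw [min_eq_right h]; simp only; linarith

/-- crossing a static annulus -/
theorem cross (h : H.Ok) {t τ : ℝ} (ht : t ∈ Ioo 0 H.T) (hτ : τ ∈ Ioo 0 H.T) {G : Set M} {Λ : ℝ}
    (hΛ : 0 < Λ) (hc : Cp H t τ G Λ) {w : M} {α β : ℝ}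
    (hG : ∀ x, α < H.d τ w x → H.d τ w x < β → x ∈ G) (x y : M) :
    min (H.d τ w y) β ≤ max (H.d τ w x) α + Λ * H.d t x y := by
  refine le_of_forall_pos_le_add fun e he => ?_
  have hε : 0 < e / 4 := by positivity
  obtain ⟨u, hu, hu1, hu2⟩ := h.dist.approx τ hτ w (e / 8) (by positivity)
  obtain ⟨φ, p1, p2, p3, p4, p5⟩ := exists_clamp (α + e / 4) (β - α - 3 * (e / 4)) hε
  have hl := lip_scale' h ht (h.alg.s0_compU p1 hu) hΛ (fun z => by
    rw [h.alg.gam_compU2 ht p1 hu]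
    have hz := abs_le.1 (hu2 z)
    by_cases h1 : α < H.d τ w z
    · by_cases h2 : H.d τ w z < β
      · have a1 := hc u hu z (hG z h1 h2)
        have a2 : deriv φ (u z) ^ 2 ≤ 1 := by
          rw [← sq_abs]; exact pow_le_one₀ (abs_nonneg _) (p2 _)
        have a3 := h.alg.gam_nonneg t ht hu z
        have a4 := hu1 z
        have a5 : Λ ^ 2 * H.gam τ u u z ≤ Λ ^ 2 := by nlinarith [sq_nonneg Λ]
        nlinarith [sq_nonneg (deriv φ (u z))]
      · rw [p4 _ (by linarith [not_lt.1 h2])]; simp [sq_nonneg]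
    · rw [p3 _ (by linarith [not_lt.1 h1])]; simp [sq_nonneg]) x y
  have a1 := (p5 (u y)).1
  have a2 := (p5 (u x)).2
  have a3 := abs_le.1 (hu2 x)
  have a4 := abs_le.1 (hu2 y)
  have a5 := (abs_le.1 hl).2
  have b1 : min (H.d τ w y) β - α - 3 * (e / 4) ≤
      min (u y - (α + e / 4) - e / 4) (β - α - 3 * (e / 4)) :=
    le_min (by linarith [min_le_left (H.d τ w y) β]) (by linarith [min_le_right (H.d τ w y) β])
  have b2 : max (u x - (α + e / 4)) 0 ≤ max (H.d τ w x) α - α :=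
    max_le (by linarith [le_max_left (H.d τ w x) α]) (by linarith [le_max_right (H.d τ w x) α])
  have b3 := min_le_left (max (u x - (α + e / 4)) 0) (β - α - 3 * (e / 4))
  linarith

/-- the usual form: a short path at time `t` from inside stays inside -/
theorem cross_lt (h : H.Ok) {t τ : ℝ} (ht : t ∈ Ioo 0 H.T) (hτ : τ ∈ Ioo 0 H.T) {G : Set M}
    {Λ : ℝ} (hΛ : 0 < Λ) (hc : Cp H t τ G Λ) {w : M} {α β : ℝ}
    (hG : ∀ x, α < H.d τ w x → H.d τ w x < β → x ∈ G) {x y : M} {A r : ℝ} (hx : H.d τ w x ≤ A)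
    (hα : α ≤ A) (hy : H.d t x y < r) (hβ : A + Λ * r ≤ β) : H.d τ w y < A + Λ * r := by
  have h1 := cross h ht hτ hΛ hc hG x y
  have h2 : max (H.d τ w x) α ≤ A := max_le hx hα
  have h3 : Λ * H.d t x y < Λ * r := mul_lt_mul_of_pos_left hy hΛ
  rcases le_total (H.d τ w y) β with h4 | h4
  · rw [min_eq_left h4] at h1; linarith
  · rw [min_eq_right h4] at h1; linarith

/-- from a point of a static annulus one reaches the inside -/
theorem reach (h : H.Ok) {t τ : ℝ} (ht : t ∈ Ioo 0 H.T) (hτ : τ ∈ Ioo 0 H.T) {G : Set M} {Λ : ℝ}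
    (hΛ : 0 < Λ) (hc : Cp H τ t G Λ) {w : M} {α β : ℝ} (hα : 0 < α)
    (hG : ∀ x, α ≤ H.d τ w x → H.d τ w x < β → x ∈ G) {y : M} (hy : H.d τ w y < β) {D : ℝ}
    (hD : Λ * β < D) : ∃ x, H.d τ w x < α ∧ H.d t y x < D := by
  by_contra hcon
  push Not at hcon
  have hε : 0 < (D - Λ * β) / 8 := by linarith
  set ε := (D - Λ * β) / 8 with hεd
  obtain ⟨u, hu, hu1, hu2⟩ := h.dist.approx t ht y ε hε
  obtain ⟨φ, p1, p2, -, p4, p5⟩ := exists_clamp 0 (D - 2 * ε) hε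
  have hl := lip_scale h hτ (h.alg.s0_compU p1 hu) hΛ (x := w) (y := y) (r := β) (fun z hz => by
    rw [h.alg.gam_compU2 hτ p1 hu]
    by_cases h1 : H.d τ w z < α
    · have := abs_le.1 (hu2 z)
      rw [p4 _ (by linarith [hcon z h1])]; simp [sq_nonneg]
    · have a1 := hc u hu z (hG z (not_lt.1 h1) hz)
      have a2 : deriv φ (u z) ^ 2 ≤ 1 := by
        rw [← sq_abs]; exact pow_le_one₀ (abs_nonneg _) (p2 _)
      have a3 := h.alg.gam_nonneg τ hτ hu z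
      have a4 := hu1 z
      have a5 : Λ ^ 2 * H.gam t u u z ≤ Λ ^ 2 := by nlinarith [sq_nonneg Λ]
      nlinarith [sq_nonneg (deriv φ (u z))]) hy
  have a1 := (p5 (u w)).1
  have a2 := (p5 (u y)).2
  have a3 := abs_le.1 (hu2 w)
  have a4 := abs_le.1 (hu2 y)
  have a5 := (abs_le.1 hl).1
  have a6 := hcon w (by rw [h.dist.self τ hτ]; exact hα)
  rw [h.dist.self t ht] at a4
  have b1 : D - 2 * ε ≤ min (u w - 0 - ε) (D - 2 * ε) := le_min (by linarith) le_rfl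
  have b2 : max (u y - 0) 0 ≤ ε := max_le (by linarith) hε.le
  have b3 := min_le_left (max (u y - 0) 0) (D - 2 * ε)
  have b4 : Λ * H.d τ w y < Λ * β := mul_lt_mul_of_pos_left hy hΛ
  linarith

/-- finitely many disjoint balls -/
theorem card_mul_le (h : H.Ok) {t : ℝ} (ht : t ∈ Ioo 0 H.T) {ι : Type*} (s : Finset ι)
    (k : ι → M) {r v : ℝ} {W : Set M} (hk : ∀ i ∈ s, ∀ j ∈ s, i ≠ j → 2 * r ≤ H.d t (k i) (k j))
    (hv : ∀ i ∈ s, v ≤ (H.vol t).real (H.B t (k i) r)) (hW : ∀ i ∈ s, H.B t (k i) r ⊆ W) :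
    s.card * v ≤ (H.vol t).real W := by
  have := h.int.fin t ht
  have hd : (s : Set ι).PairwiseDisjoint fun i => H.B t (k i) r := fun i hi j hj hij => by
    rw [Function.onFun, Set.disjoint_left]
    intro x h1 h2
    have a1 : H.d t (k i) x < r := h1
    have a2 : H.d t (k j) x < r := h2
    have a3 := h.dist.tri t ht (k i) x (k j)
    have a4 := h.dist.symm t ht x (k j)
    linarith [hk i hi j hj hij]
  calc (s.card : ℝ) * v = ∑ _i ∈ s, v := by simp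
    _ ≤ ∑ i ∈ s, (H.vol t).real (H.B t (k i) r) := Finset.sum_le_sum hv
    _ = (H.vol t).real (⋃ i ∈ s, H.B t (k i) r) :=
        (measureReal_biUnion_finset hd fun i _ => (HC.isOpen_B h.dist ht _ _).measurableSet).symm
    _ ≤ (H.vol t).real W := measureReal_mono (iUnion₂_subset hW)

/-- the diameter of the inside of a static annulus -/
theorem diam (h : H.Ok) {t τ : ℝ} (ht : t ∈ Ioo 0 H.T) (hτ : τ ∈ Ioo 0 H.T) {G : Set M} {Λ : ℝ}
    (hΛ : 0 < Λ) (hc : Cp H t τ G Λ) {w : M} {α r κ V : ℝ} (hr : 0 < r) (hκ : 0 < κ)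
    (hG : ∀ x, α < H.d τ w x → H.d τ w x < α + Λ * r → x ∈ G)
    (hlo : ∀ x, κ ≤ (H.vol t).real (H.B t x r))
    (hV : (H.vol t).real (H.B τ w (α + Λ * r)) ≤ V) {x : M} (hx : H.d τ w x < α) :
    H.d t w x ≤ 2 * r * (V / κ) := by
  obtain ⟨K, hK, hwK, hxK, hKb⟩ := h.dist.conn τ hτ hx
  have hiv := hK.intermediate_value hwK hxK (h.dist.cont t ht w).continuousOn
  rw [h.dist.self t ht] at hiv
  set n := ⌊H.d t w x / (2 * r)⌋₊ with hn
  have hd0 := HC.Alg.d_nonneg h.dist ht w x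
  have hex : ∀ j : ℕ, ∃ k, j ≤ n → k ∈ K ∧ H.d t w k = 2 * r * j := fun j => by
    by_cases hj : j ≤ n
    · have h1 : (j : ℝ) ≤ H.d t w x / (2 * r) :=
        le_trans (by exact_mod_cast hj) (Nat.floor_le (by positivity))
      rw [le_div_iff₀ (by positivity)] at h1
      obtain ⟨k, hk, hk2⟩ := hiv (show 2 * r * j ∈ Icc 0 (H.d t w x) from
        ⟨by positivity, by linarith⟩)
      exact ⟨k, fun _ => ⟨hk, hk2⟩⟩
    · exact ⟨w, fun h => absurd h hj⟩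
  choose k hk using hex
  have key := card_mul_le h ht (Finset.range (n + 1)) k (r := r) (v := κ)
    (W := H.B τ w (α + Λ * r)) (fun i hi j hj hij => by
      obtain ⟨-, a1⟩ := hk i (Nat.lt_succ_iff.1 (Finset.mem_range.1 hi))
      obtain ⟨-, a2⟩ := hk j (Nat.lt_succ_iff.1 (Finset.mem_range.1 hj))
      have a3 := h.dist.tri t ht w (k i) (k j)
      have a4 := h.dist.tri t ht w (k j) (k i)
      have a5 := h.dist.symm t ht (k i) (k j)
      rcases lt_or_gt_of_ne hij with h1 | h1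
      · have : (i : ℝ) + 1 ≤ j := by exact_mod_cast h1
        nlinarith
      · have : (j : ℝ) + 1 ≤ i := by exact_mod_cast h1
        nlinarith) (fun i _ => hlo _) (fun i hi y hy =>
      cross_lt h ht hτ hΛ hc hG (hKb _ (hk i (Nat.lt_succ_iff.1 (Finset.mem_range.1 hi))).1).le
        le_rfl hy le_rfl)
  rw [Finset.card_range] at key
  have h1 : H.d t w x / (2 * r) < n + 1 := Nat.lt_floor_add_one _
  rw [div_lt_iff₀ (by positivity)] at h1
  have h2 : ((n + 1 : ℕ) : ℝ) ≤ V / κ := by rw [le_div_iff₀ hκ]; linarith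
  push_cast at h2
  nlinarith

end Crest.Agent.N207.T

end
end

-- ▼ part N207/T/Kit2
section

/-!
# Row 207 (helper36): block TOP, static regions: gradients and energy
-/

set_option autoImplicit false
set_option linter.unusedSectionVars false

open scoped ContDiff Topology
open Set MeasureTheory Filter

noncomputable section

namespace Crest.Agent.N207.T

variable {M : Type*} [TopologicalSpace M] [CompactSpace M] [MeasurableSpace M]
  [OpensMeasurableSpace M] {H : HC M}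

/-- gradients of fixed functions change slowly where `∫ |Ric|` is small -/
theorem stat_gam (h : H.Ok) {a b : ℝ} (hs : H.St a b) {ζ : ℝ → ℝ} (hζ : ContinuousOn ζ (Icc a b))
    {x : M} (hx : ∀ t ∈ Ioo a b, √(H.Q 0 t x) ≤ ζ t) {u : M → ℝ} (hu : H.S0 u) :
    H.gam b u u x ≤ Real.exp (2 * ∫ t in a..b, ζ t) * H.gam a u u x ∧
      H.gam a u u x ≤ Real.exp (2 * ∫ t in a..b, ζ t) * H.gam b u u x := by
  obtain ⟨G', -, hG⟩ := h.alg.sm_dt hs.2.1
    (h.alg.sm_gam hs (h.alg.sm_static (a := a) (b := b) hu) (h.alg.sm_static hu))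
  have hb := h.evo.dt_gam_static hs hu hG
  have ha : a ∈ Icc a b := left_mem_Icc.2 hs.2.1.le
  have hb' : b ∈ Icc a b := right_mem_Icc.2 hs.2.1.le
  have key : ∀ e : ℝ, ∀ t ∈ Icc a b, HasDerivWithinAt
      (fun s => H.gam s u u x * Real.exp (e * ∫ σ in a..s, ζ σ))
      ((G' t x + e * ζ t * H.gam t u u x) * Real.exp (e * ∫ σ in a..t, ζ σ)) (Icc a b) t :=
    fun e t ht => by
      have h1 := (hG t ht x).mul (((D.prim hζ ht).const_mul e).exp)
      exact h1.congr_deriv (by ring)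
  have bd : ∀ t ∈ Ioo a b, |G' t x| ≤ 2 * ζ t * H.gam t u u x := fun t ht =>
    (hb t (Ioo_subset_Icc_self ht) x).trans (by
      have := h.alg.gam_nonneg t (hs.mem (Ioo_subset_Icc_self ht)) hu x
      have := hx t ht
      gcongr)
  constructor
  · have h1 := anti_of_deriv (key (-2)) (fun t ht => mul_nonpos_of_nonpos_of_nonneg
      (by linarith [(abs_le.1 (bd t ht)).2]) (Real.exp_pos _).le) ha hb' hs.2.1.le
    simp only [intervalIntegral.integral_same, mul_zero, Real.exp_zero, mul_one] at h1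
    have h2 : Real.exp (2 * ∫ t in a..b, ζ t) * Real.exp (-2 * ∫ t in a..b, ζ t) = 1 := by
      rw [← Real.exp_add]; simp
    calc H.gam b u u x = Real.exp (2 * ∫ t in a..b, ζ t) *
          (H.gam b u u x * Real.exp (-2 * ∫ t in a..b, ζ t)) := by
            rw [mul_left_comm, h2, mul_one]
      _ ≤ _ := by gcongr
  · have h1 := mono_of_deriv (key 2) (fun t ht => mul_nonneg
      (by linarith [(abs_le.1 (bd t ht)).1]) (Real.exp_pos _).le) ha hb' hs.2.1.le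
    simp only [intervalIntegral.integral_same, mul_zero, Real.exp_zero, mul_one] at h1
    linarith

/-- the region `G` is regular on the time interval `(a, b)` -/
structure Reg (H : HC M) (a b : ℝ) (G : Set M) (ζ : ℝ → ℝ) (A B : ℝ) : Prop where
  a_pos : 0 < a
  le : a ≤ b
  lt : b < H.T
  cont : ContinuousOn ζ (Icc a b)
  nn : ∀ t ∈ Icc a b, 0 ≤ ζ t
  q0 : ∀ t ∈ Ioo a b, ∀ x ∈ G, √(H.Q 0 t x) ≤ ζ t
  q1 : ∀ t ∈ Ioo a b, ∀ x ∈ G, √(H.Q 1 t x) ≤ B * ζ t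
  n0 : ∀ t ∈ Ioo a b, ∀ x ∈ G, √(H.N 0 t x) ≤ A

namespace Reg

variable {a b A B : ℝ} {G : Set M} {ζ : ℝ → ℝ}

theorem mem_a (R : Reg H a b G ζ A B) : a ∈ Ioo 0 H.T := ⟨R.a_pos, R.le.trans_lt R.lt⟩

theorem mem_b (R : Reg H a b G ζ A B) : b ∈ Ioo 0 H.T := ⟨R.a_pos.trans_le R.le, R.lt⟩

theorem sub (R : Reg H a b G ζ A B) {a' b' : ℝ} (ha : a ≤ a') (hab : a' ≤ b') (hb : b' ≤ b)
    {G' : Set M} (hG : G' ⊆ G) : Reg H a' b' G' ζ A B :=
  ⟨R.a_pos.trans_le ha, hab, hb.trans_lt R.lt, R.cont.mono (Icc_subset_Icc ha hb),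
    fun t ht => R.nn t (Icc_subset_Icc ha hb ht),
    fun t ht x hx => R.q0 t (Ioo_subset_Ioo ha hb ht) x (hG hx),
    fun t ht x hx => R.q1 t (Ioo_subset_Ioo ha hb ht) x (hG hx),
    fun t ht x hx => R.n0 t (Ioo_subset_Ioo ha hb ht) x (hG hx)⟩

theorem int_sub (R : Reg H a b G ζ A B) {a' b' : ℝ} (ha : a ≤ a') (hab : a' ≤ b') (hb : b' ≤ b) :
    ∫ t in a'..b', ζ t ≤ ∫ t in a..b, ζ t :=
  intervalIntegral.integral_mono_interval ha hab hb
    ((ae_restrict_mem measurableSet_Ioc).mono fun t ht => R.nn t (Ioc_subset_Icc_self ht))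
    (R.cont.intervalIntegrable_of_Icc R.le)

theorem int_nonneg (R : Reg H a b G ζ A B) : 0 ≤ ∫ t in a..b, ζ t :=
  intervalIntegral.integral_nonneg R.le R.nn

/-- two-sided comparison of the gradients -/
theorem cp (h : H.Ok) (R : Reg H a b G ζ A B) {Λ : ℝ} (hΛ : Real.exp (∫ t in a..b, ζ t) ≤ Λ) :
    Cp H a b G Λ ∧ Cp H b a G Λ := by
  have h1 : Real.exp (2 * ∫ t in a..b, ζ t) ≤ Λ ^ 2 := by
    rw [two_mul, Real.exp_add, ← sq]
    exact pow_le_pow_left₀ (Real.exp_pos _).le hΛ 2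
  rcases R.le.eq_or_lt with rfl | hab
  · have h2 : 1 ≤ Λ ^ 2 := by simpa using h1
    exact ⟨fun u hu x _ => le_mul_of_one_le_left (h.alg.gam_nonneg a R.mem_a hu x) h2,
      fun u hu x _ => le_mul_of_one_le_left (h.alg.gam_nonneg a R.mem_a hu x) h2⟩
  · have hs : H.St a b := ⟨R.a_pos, hab, R.lt⟩
    constructor
    · intro u hu x hx
      refine (stat_gam h hs R.cont (fun t ht => R.q0 t ht x hx) hu).2.trans ?_
      have := h.alg.gam_nonneg b R.mem_b hu x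
      gcongr
    · intro u hu x hx
      refine (stat_gam h hs R.cont (fun t ht => R.q0 t ht x hx) hu).1.trans ?_
      have := h.alg.gam_nonneg a R.mem_a hu x
      gcongr

end Reg

/-- cutoffs made from the distance at time `τ` -/
theorem exists_cut : ∃ K : ℝ, 0 < K ∧ ∀ {H : HC M}, H.Ok → ∀ τ ∈ Ioo 0 H.T, ∀ (w : M) (α β : ℝ),
    α < β → ∃ χ : M → ℝ, H.S0 χ ∧ (∀ x, 0 ≤ χ x) ∧ (∀ x, χ x ≤ 1) ∧
      (∀ x, H.d τ w x ≤ α → χ x = 1) ∧ (∀ x, β ≤ H.d τ w x → χ x = 0) ∧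
      (∀ x, H.gam τ χ χ x ≤ (K / (β - α)) ^ 2) ∧
      ∀ t ∈ Ioo 0 H.T, ∀ x, H.d τ w x ≤ α ∨ β ≤ H.d τ w x → H.gam t χ χ x = 0 := by
  obtain ⟨K, hK, hK1, -⟩ := E.zeta_bounds
  refine ⟨2 * K + 1, by positivity, fun {H} h τ hτ w α β hαβ => ?_⟩
  have hl : 0 < β - α := sub_pos.2 hαβ
  obtain ⟨u, hu, hu1, hu2⟩ := h.dist.approx τ hτ w ((β - α) / 8) (by positivity)
  obtain ⟨v1, v2⟩ := E.deriv_vanish (f := E.zeta) (c := 1) (d := 0)
    (fun s hs => E.zeta_one hs.le) fun s hs => E.zeta_zero hs.le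
  have hcd : ContDiff ℝ ∞ fun s : ℝ => E.zeta (2 / (β - α) * s + (1 / 2 - 2 / (β - α) * α)) :=
    E.zeta_cd.comp (by fun_prop)
  have hder : ∀ s, deriv (fun s : ℝ => E.zeta (2 / (β - α) * s + (1 / 2 - 2 / (β - α) * α))) s =
      deriv E.zeta (2 / (β - α) * s + (1 / 2 - 2 / (β - α) * α)) * (2 / (β - α)) := fun s => by
    have a1 := ((E.zeta_cd.differentiable (by simp))
      (2 / (β - α) * s + (1 / 2 - 2 / (β - α) * α))).hasDerivAt.comp s
      (((hasDerivAt_id s).const_mul (2 / (β - α))).add_const (1 / 2 - 2 / (β - α) * α))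
    rw [mul_one] at a1
    exact a1.deriv
  have lo : ∀ x, H.d τ w x ≤ α → 2 / (β - α) * u x + (1 / 2 - 2 / (β - α) * α) < 1 := fun x hx => by
    have a1 := (abs_le.1 (hu2 x)).2
    have a2 : 2 / (β - α) * (u x - α) ≤ 2 / (β - α) * ((β - α) / 8) := by
      gcongr; linarith
    have a3 : 2 / (β - α) * ((β - α) / 8) = 1 / 4 := by field_simp; norm_num
    nlinarith
  have hi : ∀ x, β ≤ H.d τ w x → 2 < 2 / (β - α) * u x + (1 / 2 - 2 / (β - α) * α) := fun x hx => by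
    have a1 := (abs_le.1 (hu2 x)).1
    have a2 : 2 / (β - α) * (7 * (β - α) / 8) ≤ 2 / (β - α) * (u x - α) := by
      gcongr; linarith
    have a3 : 2 / (β - α) * (7 * (β - α) / 8) = 7 / 4 := by field_simp; norm_num
    nlinarith
  refine ⟨fun x => E.zeta (2 / (β - α) * u x + (1 / 2 - 2 / (β - α) * α)),
    h.alg.s0_compU (φ := fun s : ℝ => E.zeta (2 / (β - α) * s + (1 / 2 - 2 / (β - α) * α))) hcd hu,
    fun x => E.zeta_nonneg _, fun x => E.zeta_le_one _,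
    fun x hx => E.zeta_one (lo x hx).le, fun x hx => E.zeta_zero (hi x hx).le, fun x => ?_,
    fun t ht x hx => ?_⟩
  · rw [h.alg.gam_compU2 hτ hcd hu, hder]
    have a1 : (deriv E.zeta (2 / (β - α) * u x + (1 / 2 - 2 / (β - α) * α)) * (2 / (β - α))) ^ 2 ≤
        ((2 * K + 1) / (β - α)) ^ 2 := by
      rw [← sq_abs, abs_mul, abs_of_pos (by positivity : 0 < 2 / (β - α))]
      refine pow_le_pow_left₀ (by positivity) ?_ 2
      calc _ ≤ K * (2 / (β - α)) := by gcongr; exact hK1 _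
        _ = 2 * K / (β - α) := by ring
        _ ≤ _ := by gcongr; linarith
    have a2 := hu1 x
    have a3 := h.alg.gam_nonneg τ hτ hu x
    nlinarith [sq_nonneg ((2 * K + 1) / (β - α))]
  · rw [h.alg.gam_compU2 ht hcd hu, hder]
    rcases hx with hx | hx
    · rw [v1 _ (lo x hx)]; simp
    · rw [v2 _ (hi x hx)]; simp

/-- the flux through a static annulus -/
theorem flux_le (h : H.Ok) : ∃ C : ℝ, 0 < C ∧ ∀ {a b A B L V : ℝ} {G S : Set M} {ζ : ℝ → ℝ},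
    Reg H a b G ζ A B → 0 ≤ A → 0 ≤ B → 0 ≤ L → S ⊆ G → MeasurableSet S → ∀ {χ : M → ℝ}, H.S0 χ →
    (∀ t ∈ Ioo a b, ∀ x, x ∉ S → H.gam t χ χ x = 0) →
    (∀ t ∈ Ioo a b, ∀ x ∈ S, H.gam t χ χ x ≤ L ^ 2) → (∀ t ∈ Ioo a b, (H.vol t).real S ≤ V) →
    |∫ x, χ x * H.Pf b x ∂H.vol b - ∫ x, χ x * H.Pf a x ∂H.vol a| ≤
      C * (L * A * B * V) * ∫ t in a..b, ζ t := by
  obtain ⟨C, hC, hF⟩ := HC.flux h
  refine ⟨C, hC, fun {a b A B L V G S ζ} R hA hB hL hSG hS χ hχ h0 h1 hV => ?_⟩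
  rcases R.le.eq_or_lt with rfl | hab
  · simp
  have hs : H.St a b := ⟨R.a_pos, hab, R.lt⟩
  have k1 := hF hs (h.alg.sm_static hχ) (HasDt.static χ) a b le_rfl hab.le le_rfl
  refine k1.trans ?_
  have k2 := (D.ap_flux h.alg h.evo hs C (h.alg.sm_static hχ) (HasDt.static χ)).int_cont h.alg
    h.int hs
  rw [← intervalIntegral.integral_const_mul]
  refine intervalIntegral.integral_mono_on_of_le_Ioo hab.le (k2.intervalIntegrable_of_Icc hab.le)
    ((R.cont.intervalIntegrable_of_Icc hab.le).const_mul _) fun t ht => ?_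
  have ht' := hs.mem (Ioo_subset_Icc_self ht)
  have := h.int.fin t ht'
  have hz := R.nn t (Ioo_subset_Icc_self ht)
  have k3 := ((D.ap_flux h.alg h.evo hs C (h.alg.sm_static hχ) (HasDt.static χ)).cont h.alg
    (Ioo_subset_Icc_self ht))
  calc _ ≤ ∫ x, S.indicator (fun _ => C * (L * A * (B * ζ t))) x ∂H.vol t := by
        refine integral_mono (h.alg.integrable_cont h.int ht' k3)
          ((integrable_const _).indicator hS) fun x => ?_
        by_cases hx : x ∈ S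
        · simp only [indicator_of_mem hx, abs_zero, zero_mul, zero_add]
          have a1 : √(H.gam t χ χ x) ≤ L := Real.sqrt_le_iff.2 ⟨hL, h1 t ht x hx⟩
          have a2 := R.n0 t ht x (hSG hx)
          have a3 := R.q1 t ht x (hSG hx)
          gcongr
        · simp [indicator_of_notMem hx, h0 t ht x hx]
    _ = (H.vol t).real S * (C * (L * A * (B * ζ t))) := by
        rw [integral_indicator hS, setIntegral_const, smul_eq_mul]
    _ ≤ V * (C * (L * A * (B * ζ t))) := by gcongr; exact hV t ht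
    _ = _ := by ring

/-- transfer of energy through a static annulus, in both directions -/
theorem transfer (h : H.Ok) : ∃ C : ℝ, 0 < C ∧ ∀ {a b A B V q : ℝ} {G : Set M} {ζ : ℝ → ℝ},
    Reg H a b G ζ A B → 0 ≤ A → 0 ≤ B → Real.exp (∫ t in a..b, ζ t) ≤ 2 → ∀ {w : M} {α β : ℝ},
    α < β → (∀ x, α < H.d b w x → H.d b w x < β → x ∈ G) →
    (∀ t ∈ Ioo a b, (H.vol t).real (H.B b w β) ≤ V) →
    (∫ x in H.B b w β, H.Q 0 a x ∂H.vol a ≤ q) → (∫ x in H.B b w β, H.Q 0 b x ∂H.vol b ≤ q) →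
    ∫ x in H.B b w α, H.N 0 a x ∂H.vol a ≤
        H.en b w β + (C * (A * B * V / (β - α)) * (∫ t in a..b, ζ t) + 4 * q) ∧
      H.en b w α ≤ ∫ x in H.B b w β, H.N 0 a x ∂H.vol a +
        (C * (A * B * V / (β - α)) * (∫ t in a..b, ζ t) + 4 * q) := by
  obtain ⟨C, hC, hF⟩ := flux_le h
  obtain ⟨K, hK, hcut⟩ := exists_cut (M := M)
  refine ⟨2 * K * C, by positivity,
    fun {a b A B V q G ζ} R hA hB hζ w α β hαβ hG hV hqa hqb => ?_⟩
  obtain ⟨χ, c1, c2, c3, c4, c5, c6, c7⟩ := hcut h b R.mem_b w α β hαβ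
  have hl : 0 < β - α := sub_pos.2 hαβ
  have hS : IsOpen {x | α < H.d b w x ∧ H.d b w x < β} :=
    (isOpen_lt continuous_const (h.dist.cont b R.mem_b w)).inter
      (isOpen_lt (h.dist.cont b R.mem_b w) continuous_const)
  have mem : ∀ t ∈ Ioo a b, t ∈ Ioo 0 H.T := fun t ht => ⟨R.a_pos.trans ht.1, ht.2.trans R.lt⟩
  have k1 := hF (L := 2 * (K / (β - α))) (V := V) R hA hB (by positivity)
    (fun x hx => hG x hx.1 hx.2) hS.measurableSet c1
    (fun t ht x hx => c7 t (mem t ht) x (by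
      by_contra hc
      push Not at hc
      exact hx hc))
    (fun t ht x hx => by
      have R' := R.sub ht.1.le ht.2.le le_rfl (subset_refl G)
      have a1 := (R'.cp h ((Real.exp_le_exp.2 (R.int_sub ht.1.le ht.2.le le_rfl)).trans hζ)).1 χ c1
        x (hG x hx.1 hx.2)
      have a2 := c6 x
      rw [mul_pow]
      linarith)
    (fun t ht => by
      have := h.int.fin t (mem t ht)
      exact (measureReal_mono fun x hx => hx.2).trans (hV t ht))
  have e1 : C * (2 * (K / (β - α)) * A * B * V) = 2 * K * C * (A * B * V / (β - α)) := by ring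
  rw [e1] at k1
  have k2 : ∀ t ∈ Ioo 0 H.T, ∫ x in H.B b w α, H.N 0 t x ∂H.vol t ≤
      ∫ x, χ x * H.Pf t x ∂H.vol t + 4 * ∫ x in H.B b w β, H.Q 0 t x ∂H.vol t := fun t ht => by
    have sP : H.S0 (H.Pf t) := by
      obtain ⟨a', b', hs, ht'⟩ := HC.exists_st ht
      exact h.alg.sm_s0 (h.alg.sm_Pf hs) t ht'
    have a1 := HC.setInt_le_wt h ht (HC.isOpen_B h.dist R.mem_b w α) c1 (h.alg.s0_N ht 0) c2
      (h.evo.N_nonneg 0 t ht) fun y hy => (c4 y (le_of_lt hy)).ge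
    have a2 := HC.wt_le_setInt h ht (HC.isOpen_B h.dist R.mem_b w β) c1 (h.alg.s0_Q ht 0) c3
      (h.evo.Q_nonneg 0 t ht) fun y hy => not_le.1 fun hc => hy (c5 y hc)
    have i1 := h.alg.integrable h.int ht (h.alg.s0_mul c1 sP)
    have i2 := h.alg.integrable h.int ht (h.alg.s0_mul c1 (h.alg.s0_Q ht 0))
    have a3 : ∫ x, χ x * H.N 0 t x ∂H.vol t ≤
        ∫ x, (χ x * H.Pf t x + 4 * (χ x * H.Q 0 t x)) ∂H.vol t :=
      integral_mono (h.alg.integrable h.int ht (h.alg.s0_mul c1 (h.alg.s0_N ht 0)))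
        (i1.add (i2.const_mul 4)) fun x => by
          have := D.N_le_Pf (H := H) t x
          have := c2 x
          simp only; nlinarith
    rw [integral_add i1 (i2.const_mul 4), integral_const_mul] at a3
    linarith
  have k3 : ∀ t ∈ Ioo 0 H.T, ∫ x, χ x * H.Pf t x ∂H.vol t ≤
      ∫ x in H.B b w β, H.N 0 t x ∂H.vol t := fun t ht => by
    have sP : H.S0 (H.Pf t) := by
      obtain ⟨a', b', hs, ht'⟩ := HC.exists_st ht
      exact h.alg.sm_s0 (h.alg.sm_Pf hs) t ht'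
    have a2 := HC.wt_le_setInt h ht (HC.isOpen_B h.dist R.mem_b w β) c1 (h.alg.s0_N ht 0) c3
      (h.evo.N_nonneg 0 t ht) fun y hy => not_le.1 fun hc => hy (c5 y hc)
    refine le_trans (integral_mono (h.alg.integrable h.int ht (h.alg.s0_mul c1 sP))
      (h.alg.integrable h.int ht (h.alg.s0_mul c1 (h.alg.s0_N ht 0))) fun x => ?_) a2
    exact mul_le_mul_of_nonneg_left (D.Pf_le h.evo ht x) (c2 x)
  obtain ⟨k4, k5⟩ := abs_le.1 k1
  constructor
  · have := k2 a R.mem_a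
    have := k3 b R.mem_b
    unfold HC.en
    linarith
  · have := k2 b R.mem_b
    have := k3 a R.mem_a
    unfold HC.en
    linarith

end Crest.Agent.N207.T

end
end

-- ▼ part N207/T/St2

/-!
# Row 207 (helper36): block TOP, the split of `TRKZ`
-/

set_option autoImplicit false
set_option linter.unusedSectionVars false

open scoped ContDiff Topology
open Set MeasureTheory Filter

noncomputable section

namespace Crest.Agent.N207.T

variable {M : Type*} [TopologicalSpace M] [MeasurableSpace M] (H : HC M)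

/-- a static annulus: distances and energy -/
def TR2 : Prop :=
  ∃ D C : ℝ, 1 ≤ D ∧ 0 < C ∧ ∀ {t b A B : ℝ} {G : Set M} {ζ : ℝ → ℝ}, Reg H t b G ζ A B →
    H.T / 2 ≤ t → b - t ≤ 1 → 0 ≤ A → 0 ≤ B → Real.exp (∫ u in t..b, ζ u) ≤ 2 →
    ∀ (w : M) (α : ℝ), 0 < α → α ≤ 1 → (∀ x, α < H.d b w x → H.d b w x < 4 * α → x ∈ G) →
      (∀ x, H.d b w x < 2 * α → H.d t w x ≤ D * α) ∧
      ∫ x in H.B b w α, H.N 0 t x ∂H.vol t ≤
        H.en b w (2 * α) + C * (A * B * α ^ 3 * (∫ u in t..b, ζ u) + α ^ 2) ∧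
      H.en b w α ≤ ∫ x in H.B b w (2 * α), H.N 0 t x ∂H.vol t +
        C * (A * B * α ^ 3 * (∫ u in t..b, ζ u) + α ^ 2)

/-- leaf: clusters at a fixed time -/
def CL : Prop :=
  ∀ (ε ε2 K E : ℝ) (n0 : ℕ), 0 < ε → 0 < ε2 → 2 ≤ K → ∃ g : ℝ, 0 < g ∧ ∀ t ∈ Ioo 0 H.T,
    ∫ x, H.N 0 t x ∂H.vol t ≤ E → ∀ (U : Set M) (r : ℝ) (Bad : M → Finset ℤ), 0 < r →
    (∀ w, (Bad w).card ≤ n0) → ∃ (F : Finset M) (ρ : ℝ), (∀ w ∈ F, w ∈ U) ∧ K * (g * r) ≤ ρ ∧
      K * ρ ≤ r ∧ F.card * ε ≤ E ∧ (∀ w ∈ F, ε < H.en t w (g * r)) ∧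
      (∀ w ∈ F, ∀ w' ∈ F, w ≠ w' → 2 * (K * ρ) ≤ H.d t w w') ∧
      (∀ w ∈ F, H.en t w (K * ρ) ≤ H.en t w (ρ / K) + ε2) ∧
      (∀ w ∈ F, ∀ j ∈ Bad w, (2 : ℝ) ^ j < ρ / K ∨ K * ρ < (2 : ℝ) ^ j) ∧
      ∀ y ∈ U, (∀ w ∈ F, ρ / 2 ≤ H.d t w y) → H.en t y (g * r) ≤ ε

/-- leaf: as long as the outer annulus is regular, the centre stays inside and regular points have
small Ricci curvature -/
def CTX : Prop :=
  ∃ (ε0 A : ℝ) (B : ℕ → ℝ), 0 < ε0 ∧ 0 ≤ A ∧ (∀ k, 0 ≤ B k) ∧ B 0 ≤ 1 ∧ ∀ εb : ℝ, 0 < εb →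
    ∃ ε1 C0 θ0 : ℝ, 0 < ε1 ∧ 1 ≤ C0 ∧ 0 < θ0 ∧ ∀ L : ℝ, 2 ≤ L → ∃ C : ℝ, 2 * L ≤ C ∧
    ∀ Kr : ℝ, 1 ≤ Kr → ∀ θ ∈ Ioc 0 θ0, ∀ δ : ℝ, 0 < δ → ∃ c r1 : ℝ, 0 < c ∧ 0 < r1 ∧
    ∀ (s τ a σ : ℝ) (z : ℝ → M) (Y : ℝ → ℝ), H.T / 2 ≤ s - a ^ 2 → s ≤ τ → τ < H.T → τ - s ≤ r1 →
      0 < σ → σ ≤ a → a ≤ Kr * σ → a ≤ r1 →
      (∀ t ∈ Icc (s - a ^ 2) τ, εb ≤ H.en t (z t) a ∧
        Conc H t (H.B τ (z τ) (C * a)) (z t) a (C * a) ε1 ∧
        ∫ y in H.B t (z t) (C * a), H.Q 0 t y ∂H.vol t ≤ Y t) →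
      IntervalIntegrable Y volume (s - a ^ 2) τ →
      (τ - s) * ∫ t in (s - a ^ 2)..τ, Y t ≤ c * σ ^ 4 →
      ∃ ζ : ℝ → ℝ, ContinuousOn ζ (Icc s τ) ∧ (∀ t ∈ Icc s τ, 0 ≤ ζ t) ∧ ∫ t in s..τ, ζ t ≤ δ ∧
        ∀ t1 ∈ Icc s τ, (∀ t ∈ Ioc t1 τ, ∀ y, a ≤ H.d τ (z τ) y → H.d τ (z τ) y < 2 * L * a →
          H.en t y (θ * σ) ≤ ε0) →
          (∀ t ∈ Icc t1 τ, H.d t (z t) (z τ) ≤ C0 * a) ∧
          ∀ t ∈ Ioc t1 τ, ∀ y, H.d τ (z τ) y < 2 * L * a → H.en t y (θ * σ) ≤ ε0 →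
            √(H.N 0 t y) ≤ A / (θ * σ) ^ 2 ∧ ∀ k, (θ * σ) ^ k * √(H.Q k t y) ≤ B k * ζ t

end Crest.Agent.N207.T

end
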