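import Crest.Agent.N207.H.Asm
import Crest.Agent.N207.H.KaRm_Mg
import Crest.Agent.N207.A.Tg4
import Crest.Agent.N207.GE.Dist
import Crest.Agent.N207.H.Smooth4_Mg
import Crest.Agent.N207.T.St
import Crest.Agent.N207.C.Cutf
import Crest.Agent.N207.TR.Main
import Crest.Agent.N207.G.Gl2
import Crest.Agent.N207.T.Defs
import Crest.Agent.N207.T.Kit3
import Crest.Agent.N207.T.St2
import Crest.Agent.N207.E.Reg
import Crest.Agent.N207.D.QLoc
import Crest.Agent.N207.Rad.Neck2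

-- ▼ part N207/H/Main0
section

/-!
# Row 207, block H (helper39): `HDEC` modulo `FRB` and `SMOOTH`
-/

set_option autoImplicit false

open scoped ContDiff Manifold
open Crest.Agent.N207.Sk

namespace Crest.Agent.N207.H

theorem hdec0 {M : Type*} [TopologicalSpace M] [ChartedSpace E4 M] [IsManifold 𝓘(ℝ, E4) ∞ M]
    [CompactSpace M] [T3Space M] [ConnectedSpace M] [MeasurableSpace M] [BorelSpace M]
    {F : Flow M} (h1 : FRB) (h2 : SMOOTH) (hB : Base F) : HDEC F :=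
  hdec_of (frame_of fra h1 frc) h2 jets loc (br M) (curv hB (A.bo_rm 4) karm) hB (voln hB)

end Crest.Agent.N207.H
end

-- ▼ part N207/H/Main
section

/-!
# Row 207, block H (helper39): `HDEC`
-/

set_option autoImplicit false

open scoped ContDiff Manifold
open Crest.Agent.N207.Sk

namespace Crest.Agent.N207.H

theorem hdec {M : Type*} [TopologicalSpace M] [ChartedSpace E4 M] [IsManifold 𝓘(ℝ, E4) ∞ M]
    [CompactSpace M] [T3Space M] [ConnectedSpace M] [MeasurableSpace M] [BorelSpace M]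
    {F : Flow M} (hB : Base F) : HDEC F :=
  hdec0 frb smooth hB

end Crest.Agent.N207.H
end

-- ▼ part N207/T/Gnl
section

/-!
# Row 207 (helper31): block TOP, the leaves `RES`, `GNL`, `FIN`
-/

set_option autoImplicit false
set_option linter.unusedSectionVars false

open scoped ContDiff Manifold Topology
open Set MeasureTheory Filter
open Crest.GeometryTopology.CoordMetric Crest.GeometryTopology.ChartCurvature
  Crest.GeometryTopology.MetricFamily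

noncomputable section

namespace Crest.Agent.N207.T

open Sk

namespace Gn

variable {M : Type*} [TopologicalSpace M] [ChartedSpace E4 M] [IsManifold 𝓘(ℝ, E4) ∞ M]
  {N : Nk M} {a' b' r : ℝ}

theorem res_om (ha : N.a < a') (hr : a' < r) : (N.res a' b').Om r = N.Om r := by
  ext p
  constructor
  · rintro ((h | ⟨x, hx, rfl⟩) | ⟨x, hx, rfl⟩)
    · exact Or.inl h
    · exact Or.inr ⟨x, ⟨hx.1, hx.2.trans_lt hr⟩, rfl⟩
    · exact Or.inr ⟨x, ⟨ha.trans hx.1, hx.2⟩, rfl⟩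
  · rintro (h | ⟨x, hx, rfl⟩)
    · exact Or.inl (Or.inl h)
    · rcases le_or_gt ‖x‖ a' with e | e
      · exact Or.inl (Or.inr ⟨x, ⟨hx.1, e⟩, rfl⟩)
      · exact Or.inr ⟨x, ⟨e, hx.2⟩, rfl⟩

theorem res_in_sub (hr : a' < r) : (N.res a' b').In ⊆ N.Om r := by
  rintro p (h | ⟨x, hx, rfl⟩)
  · exact Or.inl h
  · exact Or.inr ⟨x, ⟨hx.1, hx.2.trans_lt hr⟩, rfl⟩

theorem res_top (hN : N.Top) (ha : N.a < a') (hab : a' < b') (hb : b' ≤ N.b) :
    (N.res a' b').Top := by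
  have hs : shell a' b' ⊆ shell N.a N.b := shell_mono ha.le hb
  refine ⟨hN.grp, hN.a_pos.trans ha, hab, hN.par.mono (isOpen_shell _ _) hs,
    fun x hx y hy => hN.fib x (hs hx) y (hs hy), ?_, fun r hr => ?_, fun r hr => ?_,
    hN.ne.mono subset_union_left⟩
  · rintro x hx (h | ⟨y, hy, e⟩)
    · exact hN.disj x (hs hx) h
    · have := hN.norm_eq ⟨hy.1, by linarith [hy.2]⟩ (hs hx) e
      have hx1 : a' < ‖x‖ := hx.1
      linarith [hy.2]
  · rw [res_om ha hr.1]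
    exact hN.opn r ⟨ha.trans hr.1, hr.2.trans hb⟩
  · have hr1 : a' < r := hr.1
    have hr2 : r < b' := hr.2
    have e : (N.res a' b').In ∪ (N.res a' b').Ψ '' {x | (N.res a' b').a < ‖x‖ ∧ ‖x‖ ≤ r} =
        N.In ∪ N.Ψ '' {x | N.a < ‖x‖ ∧ ‖x‖ ≤ r} := by
      ext p
      constructor
      · rintro ((h | ⟨x, hx, rfl⟩) | ⟨x, hx, rfl⟩)
        · exact Or.inl h
        · exact Or.inr ⟨x, ⟨hx.1, hx.2.trans hr1.le⟩, rfl⟩
        · exact Or.inr ⟨x, ⟨ha.trans hx.1, hx.2⟩, rfl⟩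
      · rintro (h | ⟨x, hx, rfl⟩)
        · exact Or.inl (Or.inl h)
        · rcases le_or_gt ‖x‖ a' with e | e
          · exact Or.inl (Or.inr ⟨x, ⟨hx.1, e⟩, rfl⟩)
          · exact Or.inr ⟨x, ⟨e, hx.2⟩, rfl⟩
    rw [e]
    exact hN.cls r ⟨ha.trans hr1, hr2.trans_le hb⟩

theorem wt_nonneg (a b : ℝ) (x : E4) : 0 ≤ wt a b x := by unfold wt; positivity

theorem wt_mono {a b a' b' : ℝ} (x : E4) (h1 : a ≤ a') (hb : 0 < b') (h2 : b' ≤ b) :
    wt a b x ≤ wt a' b' x :=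
  add_le_add (Real.sqrt_le_sqrt (div_le_div_of_nonneg_right h1 (norm_nonneg x)))
    (Real.sqrt_le_sqrt (div_le_div_of_nonneg_left (norm_nonneg x) hb h2))

theorem wt_le_two {a b : ℝ} (ha : 0 < a) {x : E4} (hx : x ∈ shell a b) : wt a b x ≤ 2 := by
  have h0 : 0 < ‖x‖ := ha.trans hx.1
  have h1 : √(a / ‖x‖) ≤ 1 := Real.sqrt_le_one.2 ((div_le_one h0).2 hx.1.le)
  have h2 : √(‖x‖ / b) ≤ 1 := Real.sqrt_le_one.2 ((div_le_one (h0.trans hx.2)).2 hx.2.le)
  unfold wt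
  linarith

variable [T3Space M] [ConnectedSpace M] [MeasurableSpace M] [BorelSpace M] {F : Flow M}

theorem vol_mono (hB : Base F) {s : ℝ} (hs : s ∈ Ioo 0 F.T) {A B : Set M} (h : A ⊆ B) :
    (F.m s).vol.real A ≤ (F.m s).vol.real B := by
  have := hB.ok.int.fin s hs
  exact measureReal_mono (μ := F.hc.vol s) h

/-- volumes at most double in a short time -/
theorem vol_two (hB : Base F) : ∃ c : ℝ, 0 < c ∧ ∀ s ∈ Ioo 0 F.T, ∀ t ∈ Ioo 0 F.T, |s - t| ≤ c →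
    ∀ S : Set M, (F.m s).vol.real S ≤ 2 * (F.m t).vol.real S := by
  obtain ⟨K, hK⟩ := hB.ok.evo.R_bd
  refine ⟨1 / (2 * (|K| + 1)), by positivity, fun s hs t ht h S => ?_⟩
  have := hB.ok.int.fin t ht
  have k := hB.ok.int.vol_le (K := |K|) (fun s hs x => (hK s hs x).trans (le_abs_self _)) t ht s hs S
  rw [Measure.smul_apply, smul_eq_mul] at k
  have k2 := ENNReal.toReal_mono (ENNReal.mul_ne_top ENNReal.ofReal_ne_top (measure_ne_top _ _)) k
  rw [ENNReal.toReal_mul, ENNReal.toReal_ofReal (Real.exp_pos _).le] at k2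
  refine le_trans k2 (mul_le_mul_of_nonneg_right ?_ ENNReal.toReal_nonneg)
  have h1 : |K| * |s - t| ≤ 1 / 2 := by
    refine (mul_le_mul_of_nonneg_left h (abs_nonneg K)).trans ?_
    rw [mul_one_div, div_le_div_iff₀ (by positivity) (by norm_num)]
    linarith [abs_nonneg K]
  have h2 := Real.add_one_le_exp (-(1 / 2 : ℝ))
  have h3 : Real.exp (1 / 2) * Real.exp (-(1 / 2)) = 1 := by rw [← Real.exp_add]; simp
  have h4 := Real.exp_pos (1 / 2 : ℝ)
  exact (Real.exp_le_exp.2 h1).trans (by nlinarith)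

theorem exists_small (Cp : ℕ → ℝ) (h : ∀ k, 0 < Cp k) (m : ℕ) {η : ℝ} (hη : 0 < η) :
    ∃ c : ℝ, 0 < c ∧ ∀ k ≤ m, Cp k * c ≤ η := by
  have hs : 0 < ∑ k ∈ Finset.range (m + 1), Cp k :=
    Finset.sum_pos (fun k _ => h k) Finset.nonempty_range_add_one
  refine ⟨η / ∑ k ∈ Finset.range (m + 1), Cp k, by positivity, fun k hk => ?_⟩
  rw [← mul_div_assoc, div_le_iff₀ hs, mul_comm]
  exact mul_le_mul_of_nonneg_left (Finset.single_le_sum (fun k _ => (h k).le)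
    (Finset.mem_range.2 (by omega))) hη.le

end Gn

open Gn

variable {M : Type*} [TopologicalSpace M] [ChartedSpace E4 M] [IsManifold 𝓘(ℝ, E4) ∞ M]
  [T3Space M] [ConnectedSpace M] [MeasurableSpace M] [BorelSpace M] [CompactSpace M] {F : Flow M}

theorem res (hB : Base F) : RES F := by
  intro m η Cs c v N r s h hm hη hc hb har hrb hs hsv
  have ha := h.top.a_pos
  have hr : 0 < r := ha.trans har
  refine ⟨hs, res_top h.top har hrb le_rfl, fun x hx k hk i j => ?_, ?_⟩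
  · have hx1 : r < ‖x‖ := hx.1
    have hx0 : 0 < ‖x‖ := hr.trans hx1
    refine ((h.jet x ⟨har.trans hx1, hx.2⟩ s hs.2
      (hsv.trans (mul_le_mul_of_nonneg_left hx1.le hc.le))).1 k (hk.trans hm) i j).trans ?_
    have h1 : wt N.a N.b x ≤ wt r N.b x := wt_mono x har.le (hr.trans hrb) le_rfl
    have h2 : |s - v| / ‖x‖ / c ≤ r / ‖x‖ := by
      rw [div_div, div_le_div_iff₀ (by positivity) hx0]
      nlinarith
    have h3 : r / ‖x‖ ≤ √(r / ‖x‖) :=
      Real.le_sqrt_of_sq_le (by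
        have : r / ‖x‖ ≤ 1 := (div_le_one hx0).2 hx1.le
        have : 0 ≤ r / ‖x‖ := by positivity
        nlinarith)
    have h4 : √(r / ‖x‖) ≤ wt r N.b x := le_add_of_nonneg_right (Real.sqrt_nonneg _)
    change η * _ ≤ 2 * η * wt r N.b x
    nlinarith
  · have h1 : r < min (2 * r) N.b := lt_min (by linarith) hrb
    refine (vol_mono hB (late_Ioo hs) (res_in_sub h1)).trans ((h.vol s (late_Ioo hs)
      (hsv.trans (by nlinarith)) _ ⟨har.le.trans h1.le, min_le_right _ _⟩).trans ?_)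
    have h2 : min (2 * r) N.b ^ 4 ≤ (2 * r) ^ 4 :=
      pow_le_pow_left₀ (hr.le.trans h1.le) (min_le_left _ _) 4
    change _ ≤ 192 * r ^ 4
    nlinarith

theorem gnl (hB : Base F) (hH : HDEC F) (hN : NPERS F) : GNL F := by
  obtain ⟨η1, hη1, hH⟩ := hH
  obtain ⟨r0, hr0, hN⟩ := hN
  obtain ⟨c0, hc0, hv⟩ := vol_two hB
  refine ⟨min η1 (1 / 100), by positivity, min_le_right _ _, fun V m η hm hη hη4 => ?_⟩
  obtain ⟨K, r1, Cs, hK, hr1, hH⟩ := hH V m η hη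
  obtain ⟨c1, Cp, hc1, hc1', hCp, hN⟩ := hN fun k => 2 * max (Cs k) 0
  obtain ⟨c2, hc2, hs⟩ := exists_small Cp hCp m hη
  obtain ⟨c, hc, l0, l1, l2⟩ : ∃ c : ℝ, 0 < c ∧ c ≤ c0 ∧ c ≤ c1 ∧ c ≤ c2 :=
    ⟨min c0 (min c1 c2), by positivity, min_le_left _ _,
      (min_le_right _ _).trans (min_le_left _ _), (min_le_right _ _).trans (min_le_right _ _)⟩
  refine ⟨2 * K, c, min r1 (min r0 1), fun k => max (Cs k) 0 + Cp k, by linarith, hc,
    l1.trans hc1', by positivity, (min_le_right _ _).trans (min_le_right _ _),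
    fun k => add_nonneg (le_max_right _ _) (hCp k).le, fun t ht N hT hR hb hab => ?_⟩
  have ha := hT.a_pos
  have hb0 : 0 < N.b := ha.trans hT.a_lt
  have hK0 : 0 < K := by linarith
  have hKa : 0 < K ^ 3 * N.a := by positivity
  obtain ⟨N0, T0, e1, e2, s0, G0, C0⟩ := hH t ht N hT (hR.mono le_rfl (min_le_left _ _) le_rfl)
    (hb.trans (min_le_left _ _)) (by nlinarith)
  have a0 := T0.a_pos
  have lt : 2 * N0.a < N0.b / 2 := by
    rw [e1, e2, div_div, lt_div_iff₀ (by positivity)]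
    have : 0 < K ^ 2 * N.a := by positivity
    nlinarith
  have b0 : N0.b ≤ r0 := by
    rw [e2]
    exact (div_le_self hb0.le (by linarith)).trans
      (hb.trans ((min_le_right _ _).trans (min_le_left _ _)))
  have j0 : ∀ x ∈ shell N0.a N0.b, JG 2 ((F.m t).pm N0.Ψ) x ‖x‖ (1 / 100) :=
    fun x hx k hk i j => (G0.jet x hx k (hk.trans hm) i j).trans (by
      nlinarith [wt_le_two a0 hx])
  refine ⟨N0.res (2 * N0.a) (N0.b / 2), by change 2 * N0.a = _; rw [e1]; ring,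
    by change N0.b / 2 = _; rw [e2, div_div, mul_comm], s0.trans subset_union_left,
    fun r h1 h2 => ?_, res_top T0 (by linarith) lt (by linarith), fun x hx s hsT hst => ?_,
    fun s hs0 hst r hr => ?_⟩
  · have h1' : 2 * N0.a ≤ r := h1
    have h2' : r ≤ N0.b / 2 := h2
    rw [res_om (by linarith) (by linarith)]
    have := (C0 (2 * r) ⟨by linarith, by linarith⟩).1
    rwa [show 2 * r / 2 = r by ring] at this
  · have hx' : x ∈ shell (2 * N0.a) (N0.b / 2) := hx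
    have hx0 : x ∈ shell N0.a N0.b := shell_mono (by linarith) (by linarith) hx'
    have n0 : 0 < ‖x‖ := a0.trans hx0.1
    have w0 := wt_nonneg N0.a N0.b x
    have w1 : wt N0.a N0.b x ≤ wt (2 * N0.a) (N0.b / 2) x :=
      wt_mono x (by linarith) (by linarith) (by linarith)
    have w2 := wt_le_two a0 hx0
    have al : ∀ k i j, J1 k (dv ((F.m t).pm N0.Ψ) i j) x ‖x‖ (max (Cs k) 0 * wt N0.a N0.b x) :=
      fun k i j => (G0.all x hx0 k i j).trans (mul_le_mul_of_nonneg_right (le_max_left _ _) w0)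
    have key : ∀ k i j e, J1 k (dv ((F.m t).pm N0.Ψ) i j) x ‖x‖ e →
        J1 k (dv ((F.m s).pm N0.Ψ) i j) x ‖x‖ (e + Cp k * (|s - t| / ‖x‖)) := fun k i j e =>
      (hN t ht N0 T0 j0 b0 x hx' k (fun k' _ i j => (al k' i j).trans (by
        nlinarith [le_max_right (Cs k') 0])) s hsT
        (hst.trans (mul_le_mul_of_nonneg_right l1 n0.le))).2 k le_rfl i j e
    obtain ⟨q, hq, q0⟩ : ∃ q, |s - t| / ‖x‖ = c * q ∧ 0 ≤ q :=
      ⟨|s - t| / ‖x‖ / c, by field_simp, by positivity⟩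
    have hq' : |s - t| / ‖x‖ / c = q := by rw [hq]; field_simp
    rw [hq']
    rw [hq] at key
    change JG m ((F.m s).pm N0.Ψ) x ‖x‖ (η * (wt (2 * N0.a) (N0.b / 2) x + q)) ∧
      JAll _ ((F.m s).pm N0.Ψ) x ‖x‖ (wt (2 * N0.a) (N0.b / 2) x + q)
    refine ⟨fun k hk i j => (key k i j _ (G0.jet x hx0 k hk i j)).trans ?_,
      fun k i j => (key k i j _ (al k i j)).trans ?_⟩
    · have h1 : Cp k * c ≤ η := (mul_le_mul_of_nonneg_left l2 (hCp k).le).trans (hs k hk)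
      nlinarith [mul_le_mul_of_nonneg_right h1 q0]
    · have h1 : c * q ≤ q := mul_le_of_le_one_left q0 (l1.trans hc1')
      have h2 := le_max_right (Cs k) 0
      have h3 := hCp k
      nlinarith [mul_le_mul_of_nonneg_left h1 h3.le, mul_le_mul_of_nonneg_left w1 h2,
        mul_nonneg h2 q0, mul_nonneg h3.le (w0.trans w1)]
  · have h1 : 2 * N0.a ≤ r := hr.1
    have h2 : r ≤ N0.b / 2 := hr.2
    have sub : (N0.res (2 * N0.a) (N0.b / 2)).Om r ⊆ N0.Om (11 / 10 * r) := by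
      rw [← res_om (N := N0) (a' := 2 * N0.a) (b' := N0.b / 2) (r := 11 / 10 * r) (by linarith)
        (by linarith)]
      exact Nk.Om_mono _ (by linarith)
    have v1 := T0.vol_Om (F.m t) (V := 6) (r := 11 / 10 * r)
      ⟨fun x hx k hk => j0 x hx k (by omega), G0.vol⟩ ⟨by linarith, by linarith⟩
    have v2 := hv s hs0 t (late_Ioo ht) (hst.trans l0) (N0.Om (11 / 10 * r))
    have v3 : N0.a ^ 4 ≤ (r / 2) ^ 4 := pow_le_pow_left₀ a0.le (by linarith) 4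
    have v4 : 0 < r ^ 4 := by have : 0 < r := by linarith
                              positivity
    refine (vol_mono hB hs0 sub).trans ?_
    nlinarith

theorem fin' (hB : Base F) (hG : GLUE M) (hN : NPERS F) : FIN F := by
  obtain ⟨η0, C, hη0, hC, hG⟩ := hG
  obtain ⟨r0, hr0, hN⟩ := hN
  obtain ⟨c0, hc0, hv⟩ := vol_two hB
  obtain ⟨c1, Cp, hc1, -, hCp, hN⟩ := hN fun _ => 1 / 100
  intro η1 hη1
  obtain ⟨c2, hc2, hs⟩ := exists_small Cp hCp 2 (half_pos hη1)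
  have hT := F.hT
  have C0 : 0 < C := by linarith
  obtain ⟨c, hc, l0, l1, l2, l3⟩ : ∃ c : ℝ, 0 < c ∧ c ≤ c0 ∧ c ≤ c1 ∧ c ≤ c2 ∧ c ≤ F.T / 4 :=
    ⟨min (min c0 c1) (min c2 (F.T / 4)), by positivity, (min_le_left _ _).trans (min_le_left _ _),
      (min_le_left _ _).trans (min_le_right _ _), (min_le_right _ _).trans (min_le_left _ _),
      (min_le_right _ _).trans (min_le_right _ _)⟩
  obtain ⟨δ, hδ, d0, d1, d2⟩ : ∃ δ : ℝ, 0 < δ ∧ δ ≤ η0 ∧ C * δ ≤ 1 / 100 ∧ C * δ ≤ η1 / 2 := by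
    refine ⟨min η0 (min (1 / 100) (η1 / 2) / C), by positivity, min_le_left _ _, ?_⟩
    rw [← le_min_iff, ← le_div_iff₀' C0]
    exact min_le_right _ _
  refine ⟨δ, c, min r0 1, hδ, by nlinarith, hc, by positivity,
    fun t ht N N' ρ1 ρ2 T T' R R' h1 h2 h3 h4 h5 h6 hc' => ?_⟩
  have ha := T.a_pos
  obtain ⟨N0, T0, e1, e2, -, R0, o0⟩ := hG (F.m t) N N' 192 192 δ ρ1 ρ2 T T' hδ.le d0 R R' h1 h2 h3
    (by linarith) h5 hc'
  have b1 : N'.b ≤ 1 := h6.trans (min_le_right _ _)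
  rw [← e1] at ha h1 ⊢
  rw [← e2] at h4 h6 b1 o0 ⊢
  have j0 := (R0.mono le_rfl d1 le_rfl).jet
  refine ⟨N0.res (2 * N0.a) (N0.b / 2), res_top T0 (by linarith) (by linarith) (by linarith), rfl,
    rfl, ?_, fun s hsT hst => ⟨fun x hx k hk i j => ?_, ?_⟩⟩
  · rw [res_om (by linarith) (by linarith), o0 ρ2 ⟨le_rfl, by linarith⟩]
    exact N'.In_sub _
  · have hx' : x ∈ shell (2 * N0.a) (N0.b / 2) := hx
    have hx0 : x ∈ shell N0.a N0.b := shell_mono (by linarith) (by linarith) hx'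
    have n0 : 0 < ‖x‖ := ha.trans hx0.1
    have q : |s - t| ≤ c * ‖x‖ := hst.trans (mul_le_mul_of_nonneg_left hx0.1.le hc.le)
    refine ((hN t ht N0 T0 j0 (h6.trans (min_le_left _ _)) x hx' 2 (j0 x hx0) s hsT
      (q.trans (mul_le_mul_of_nonneg_right l1 n0.le))).2 k hk i j _ (R0.jet x hx0 k hk i j)).trans ?_
    have q1 : |s - t| / ‖x‖ ≤ c2 := ((div_le_iff₀ n0).2 q).trans l2
    nlinarith [mul_le_mul_of_nonneg_left q1 (hCp k).le, hs k hk]
  · have q : |s - t| ≤ c := hst.trans (mul_le_of_le_one_right hc.le (by linarith))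
    have hs0 : s ∈ Ioo 0 F.T := ⟨by linarith [(abs_le.1 q).1, ht.1], hsT⟩
    have v1 := T0.vol_Om (F.m t) (r := 3 * N0.a) (R0.mono (Nat.zero_le 2) d1 le_rfl)
      ⟨by linarith, by linarith⟩
    have v2 := hv s hs0 t (late_Ioo ht) (q.trans l0) (N0.Om (3 * N0.a))
    have v4 : 0 < N0.a ^ 4 := by positivity
    refine (vol_mono hB hs0 (res_in_sub (r := 3 * N0.a) (by linarith))).trans ?_
    change _ ≤ 192 * (2 * N0.a) ^ 4
    nlinarith

end Crest.Agent.N207.T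

end
end

-- ▼ part N207/T/Npers
section

/-!
# Row 207 (helper31): block TOP, the leaf `NPERS`
-/

set_option autoImplicit false
set_option linter.unusedSectionVars false

open scoped ContDiff Manifold Topology
open Set MeasureTheory Filter
open Crest.GeometryTopology.CoordMetric Crest.GeometryTopology.ChartCurvature
  Crest.GeometryTopology.MetricFamily

noncomputable section

namespace Crest.Agent.N207.T

open Sk

namespace Gn

theorem j1_add {k : ℕ} {G G' : MetricField 4} {U : Set E4} {x : E4} {r e e' : ℝ} {i j : Fin 4}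
    (hG : IsRiemannianOn G U) (hG' : IsRiemannianOn G' U) (hx : x ∈ U) (hr : 0 ≤ r)
    (h : J1 k (dv G i j) x r e) (h' : J1 k (fun y => G' y i j - G y i j) x r e') :
    J1 k (dv G' i j) x r (e + e') := by
  have c1 : ContDiffAt ℝ k (fun y => G y i j) x :=
    ((hG.contDiffOn i j).contDiffAt (hG.isOpen.mem_nhds hx)).of_le (by exact_mod_cast le_top)
  have c2 : ContDiffAt ℝ k (fun y => G' y i j) x :=
    ((hG'.contDiffOn i j).contDiffAt (hG'.isOpen.mem_nhds hx)).of_le (by exact_mod_cast le_top)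
  have e0 : dv G' i j = dv G i j + fun y => G' y i j - G y i j := by
    funext y
    simp only [dv, Pi.add_apply]
    ring
  unfold J1 at *
  have c3 : ContDiffAt ℝ k (dv G i j) x := c1.sub contDiffAt_const
  rw [e0, iteratedFDeriv_add_apply c3 (c2.sub c1)]
  refine (mul_le_mul_of_nonneg_right (norm_add_le _ _) (by positivity)).trans ?_
  rw [add_mul]
  exact add_le_add h h'

variable {M : Type*} [TopologicalSpace M] [ChartedSpace E4 M] [IsManifold 𝓘(ℝ, E4) ∞ M]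
  [T3Space M] [ConnectedSpace M] [MeasurableSpace M] [BorelSpace M] [CompactSpace M] {F : Flow M}

/-- small energy around the points of a rough neck -/
theorem en_small (hB : Base F) (hC : CURV M) {ε : ℝ} (hε : 0 < ε) : ∃ θ : ℝ, 0 < θ ∧ θ ≤ 1 ∧
    ∀ t ∈ late F, ∀ N : Nk M, N.Top →
      (∀ x ∈ shell N.a N.b, JG 2 ((F.m t).pm N.Ψ) x ‖x‖ (1 / 100)) →
      ∀ x ∈ shell (2 * N.a) (N.b / 2), F.hc.en t (N.Ψ x) (θ * ‖x‖) ≤ ε := by
  obtain ⟨C, hC0, hC⟩ := hC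
  obtain ⟨V, hV0, hV⟩ := hB.c.up _ (half_pos F.hT)
  obtain ⟨θ, hθ, θ1, θ2⟩ : ∃ θ : ℝ, 0 < θ ∧ θ ≤ 1 / 4 ∧ 16 * C * V * θ ≤ ε :=
    ⟨min (1 / 4) (ε / (16 * C * V)), by positivity, min_le_left _ _,
      (le_div_iff₀' (by positivity)).1 (min_le_right _ _)⟩
  refine ⟨θ, hθ, by linarith, fun t ht N hT hJ x hx => ?_⟩
  have tI := late_Ioo ht
  have ha := hT.a_pos
  have x1 : 2 * N.a < ‖x‖ := hx.1
  have x2 : ‖x‖ < N.b / 2 := hx.2
  have n0 : 0 < ‖x‖ := by linarith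
  have hx0 : x ∈ shell N.a N.b := ⟨by linarith, by linarith⟩
  have key : ∀ q ∈ F.hc.B t (N.Ψ x) (θ * ‖x‖), ‖F.hc.N 0 t q‖ ≤ 16 * C / ‖x‖ ^ 4 := by
    intro q hq
    have d0 : (F.m t).d (N.Ψ x) q < θ * ‖x‖ := hq
    have d1 := hT.rad_le_d (F.m t) (fun y hy => (hJ y hy).near) (by norm_num) q (N.Ψ x)
    have d2 := hT.rad_le_d (F.m t) (fun y hy => (hJ y hy).near) (by norm_num) (N.Ψ x) q
    have d3 : (F.m t).d q (N.Ψ x) = (F.m t).d (N.Ψ x) q := hB.ok.dist.symm t tI _ _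
    have d4 : θ * ‖x‖ ≤ 1 / 4 * ‖x‖ := mul_le_mul_of_nonneg_right θ1 n0.le
    rw [hT.rad_Ψ hx0] at d1 d2
    obtain ⟨y, hy, rfl, ey⟩ := hT.exists_of_rad (p := q) (by linarith) (by linarith)
    have y1 : ‖x‖ / 2 ≤ ‖y‖ := by linarith
    rw [Real.norm_of_nonneg (hB.ok.evo.N_nonneg 0 t tI _)]
    refine (hC (F.m t) N.Ψ _ y ‖y‖ (1 / 100) hT.par hy (by linarith) (by norm_num) le_rfl
      (hJ y hy)).trans ?_
    have y2 : (‖x‖ / 2) ^ 4 ≤ ‖y‖ ^ 4 := pow_le_pow_left₀ (by positivity) y1 4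
    have y3 : 0 < ‖x‖ ^ 4 := by positivity
    rw [div_le_div_iff₀ (by nlinarith) y3]
    nlinarith [mul_le_mul_of_nonneg_left y2 hC0.le, mul_pos hC0 y3]
  have := hB.ok.int.fin t tI
  have k1 := norm_setIntegral_le_of_norm_le_const (μ := F.hc.vol t) (measure_lt_top _ _) key
  refine (le_abs_self _).trans (le_trans k1 ((mul_le_mul_of_nonneg_left
    (hV t ht _ _ (by positivity)) (by positivity)).trans ?_))
  have e : 16 * C / ‖x‖ ^ 4 * (V * (θ * ‖x‖) ^ 4) = 16 * C * V * θ ^ 4 := by field_simp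
  have θ4 : θ ^ 4 ≤ θ := pow_le_of_le_one hθ.le (by linarith) (by norm_num)
  rw [e]
  exact (mul_le_mul_of_nonneg_left θ4 (by positivity)).trans θ2

/-- two-sided persistence of the bounds on the Ricci curvature at the centre -/
theorem rc_stat (hB : Base F) : ∃ ε c r0 : ℝ, 0 < ε ∧ 0 < c ∧ 0 < r0 ∧ ∃ A : ℕ → ℝ,
    ∀ t ∈ late F, ∀ p r, 0 < r → r ≤ r0 → F.hc.en t p r ≤ ε → ∀ s < F.T, |s - t| ≤ c * r → ∀ k,
      √((F.m s).rc k p) ≤ A k / r ^ (k + 1) := by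
  have hT : 0 < F.T / 2 := half_pos F.hT
  obtain ⟨e1, c1, r1, he1, hc1, hr1, h1⟩ := hB.e.stat _ hT
  obtain ⟨e2, c2, r2, he2, hc2, hr2, -, h2⟩ := hB.e.statB _ hT
  choose C1 hC1 h1 using h1
  choose C2 hC2 h2 using h2
  refine ⟨min e1 e2, min c1 c2, min r1 r2, lt_min he1 he2, lt_min hc1 hc2, lt_min hr1 hr2,
    fun k => √(C1 k + C2 k), fun t ht p r hr hrr he s hs hst k => ?_⟩
  have hp : p ∈ F.hc.B t p (r / 2) := by
    change F.hc.d t p p < r / 2
    rw [hB.ok.dist.self t (late_Ioo ht)]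
    positivity
  have := hC1 k
  have := hC2 k
  have key : (F.m s).rc k p ≤ (C1 k + C2 k) / r ^ (2 + 2 * k) := by
    rcases le_total t s with hts | hts
    · exact (h1 k t ht p r hr (hrr.trans (min_le_left _ _)) (he.trans (min_le_left _ _)) p hp s
        ⟨hts, hs⟩ ((le_abs_self _).trans (hst.trans (by gcongr; exact min_le_left _ _)))).2.trans
        (by gcongr; linarith)
    · exact (h2 k t ht p r hr (hrr.trans (min_le_right _ _)) (he.trans (min_le_right _ _)) p hp s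
        hts ((le_abs_self _).trans ((abs_sub_comm _ _).trans_le
          (hst.trans (by gcongr; exact min_le_right _ _))))).2.trans (by gcongr; linarith)
  refine Real.sqrt_le_iff.2 ⟨by positivity, key.trans_eq ?_⟩
  rw [div_pow, Real.sq_sqrt (by positivity), ← pow_mul, show (k + 1) * 2 = 2 + 2 * k by ring]

end Gn

open Gn

variable {M : Type*} [TopologicalSpace M] [ChartedSpace E4 M] [IsManifold 𝓘(ℝ, E4) ∞ M]
  [T3Space M] [ConnectedSpace M] [MeasurableSpace M] [BorelSpace M] [CompactSpace M] {F : Flow M}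

theorem npers (hB : Base F) (hP : PERS F) (hC : CURV M) : NPERS F := by
  obtain ⟨ε, c1, r1, hε, hc1, hr1, A, hA⟩ := rc_stat hB
  obtain ⟨θ, hθ, θ1, hE⟩ := en_small hB hC hε
  refine ⟨min r1 1, by positivity, fun Cs => ?_⟩
  obtain ⟨δ, Cp, hδ, hCp, hP⟩ := hP Cs fun k => A k / θ ^ (k + 1)
  have hT := F.hT
  obtain ⟨c, hc, l0, l1, l2, l3⟩ : ∃ c : ℝ, 0 < c ∧ c ≤ 1 ∧ c ≤ c1 * θ ∧ c ≤ δ ∧ c ≤ F.T / 4 :=
    ⟨min (min 1 (c1 * θ)) (min δ (F.T / 4)), by positivity,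
      (min_le_left _ _).trans (min_le_left _ _), (min_le_left _ _).trans (min_le_right _ _),
      (min_le_right _ _).trans (min_le_left _ _), (min_le_right _ _).trans (min_le_right _ _)⟩
  refine ⟨c, Cp, hc, l0, hCp, fun t ht N hN hJ hb x hx m hm s hs hst => ?_⟩
  have ha := hN.a_pos
  have x1 : 2 * N.a < ‖x‖ := hx.1
  have x2 : ‖x‖ < N.b / 2 := hx.2
  have n0 : 0 < ‖x‖ := by linarith
  have hx0 : x ∈ shell N.a N.b := ⟨by linarith, by linarith⟩
  have b1 := hb.trans (min_le_left _ _)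
  have b2 := hb.trans (min_le_right _ _)
  have q : |s - t| ≤ c := hst.trans (mul_le_of_le_one_right hc.le (by linarith))
  have s0 : 0 < s := by linarith [(abs_le.1 q).1, ht.1]
  have sub : uIcc t s ⊆ Ioo 0 F.T := ordConnected_Ioo.uIcc_subset (late_Ioo ht) ⟨s0, hs⟩
  have ei : |∫ _ in t..s, 1 / ‖x‖| = |s - t| / ‖x‖ := by
    rw [intervalIntegral.integral_const, smul_eq_mul, abs_mul, abs_of_pos (one_div_pos.2 n0),
      mul_one_div]
  have key := hP m N.Ψ _ x ‖x‖ t s (fun _ => 1 / ‖x‖) hN.par hx0 n0 sub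
    (fun k hk => hJ x hx0 k (by omega)) hm continuousOn_const (fun _ _ => by positivity)
    (fun u hu k _ => by
      have hu' : u ∈ uIcc t s := Ioo_subset_Icc_self hu
      have h1 := hA t ht (N.Ψ x) (θ * ‖x‖) (by positivity)
        ((mul_le_of_le_one_left n0.le θ1).trans (by linarith)) (hE t ht N hN hJ x hx) u (sub hu').2
        ((abs_sub_left_of_mem_uIcc hu').trans (hst.trans (by
          rw [← mul_assoc]; exact mul_le_mul_of_nonneg_right l1 n0.le))) k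
      refine (mul_le_mul_of_nonneg_left h1 (by positivity)).trans_eq ?_
      rw [mul_pow, pow_succ ‖x‖]
      field_simp)
    (by rw [ei]; exact ((div_le_iff₀ n0).2 hst).trans l2)
  rw [ei] at key
  exact ⟨s0, fun k hk i j e he =>
    j1_add (hN.par.riem _) (hN.par.riem _) hx0 n0.le he (key k hk i j)⟩

end Crest.Agent.N207.T

end
end

-- ▼ part N207/T/Stat
section

/-!
# Row 207 (helper83): block TOP, the leaf `STAT`
-/

set_option autoImplicit false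
set_option linter.unusedSectionVars false

open scoped ContDiff Manifold Topology
open Set MeasureTheory Filter
open Crest.GeometryTopology.CoordMetric Crest.GeometryTopology.ChartCurvature
  Crest.GeometryTopology.MetricFamily

noncomputable section

namespace Crest.Agent.N207.T

open Sk

theorem st_wt {a b : ℝ} (ha : 0 < a) {x : E4} (hx : x ∈ shell a b) : wt a b x ≤ 2 := by
  have h0 : 0 < ‖x‖ := ha.trans hx.1
  have h1 : √(a / ‖x‖) ≤ 1 := Real.sqrt_le_one.2 ((div_le_one h0).2 hx.1.le)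
  have h2 : √(‖x‖ / b) ≤ 1 := Real.sqrt_le_one.2 ((div_le_one (h0.trans hx.2)).2 hx.2.le)
  unfold wt; linarith

theorem st_j1 {G G' : MetricField 4} {x : E4} {s e e' : ℝ} {k : ℕ} {i j : Fin 4} (hs : 0 ≤ s)
    (hG : ContDiffAt ℝ ∞ (fun y => G y i j) x) (hG' : ContDiffAt ℝ ∞ (fun y => G' y i j) x)
    (h1 : J1 k (dv G i j) x s e) (h2 : J1 k (fun y => G' y i j - G y i j) x s e') :
    J1 k (dv G' i j) x s (e + e') := by
  have e1 : dv G' i j = dv G i j + fun y => G' y i j - G y i j := by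
    funext y; simp only [dv, Pi.add_apply]; ring
  have c1 : ContDiffAt ℝ k (dv G i j) x := (hG.sub contDiffAt_const).of_le (by exact_mod_cast le_top)
  have c2 : ContDiffAt ℝ k (fun y => G' y i j - G y i j) x :=
    (hG'.sub hG).of_le (by exact_mod_cast le_top)
  unfold J1 at *
  rw [e1, iteratedFDeriv_add_apply c1 c2]
  refine (mul_le_mul_of_nonneg_right (norm_add_le _ _) (pow_nonneg hs k)).trans ?_
  rw [add_mul]
  exact add_le_add h1 h2

variable {M : Type*} [TopologicalSpace M] [ChartedSpace E4 M] [IsManifold 𝓘(ℝ, E4) ∞ M]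
  [T3Space M] [ConnectedSpace M] [CompactSpace M] [MeasurableSpace M] [BorelSpace M]

theorem SN.jg {F : Flow M} {s η : ℝ} {N : Nk M} (h : SN F s η N) (h0 : 0 ≤ η) {x : E4}
    (hx : x ∈ shell N.a N.b) : JG 2 ((F.m s).pm N.Ψ) x ‖x‖ (2 * η) := fun k hk i j =>
  (h.jet x hx k hk i j).trans (by nlinarith [mul_le_mul_of_nonneg_left (st_wt h.top.a_pos hx) h0])

theorem SN.rough0 {F : Flow M} {s η : ℝ} {N : Nk M} (h : SN F s η N) (h0 : 0 ≤ η)
    (h1 : η ≤ 1 / 200) : Rough (F.m s) N 0 (1 / 100) 192 :=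
  ⟨fun x hx k hk i j => (h.jg h0 hx k (hk.trans (Nat.zero_le _)) i j).trans (by linarith), h.vol⟩

theorem st_mass {F : Flow M} (hB : Base F) {t : ℝ} (ht : t ∈ Ioo 0 F.T) {S S' : Set M}
    (h : S ⊆ S') : ∫ y in S, F.hc.Q 0 t y ∂F.hc.vol t ≤ mass (F.m t) S' :=
  setIntegral_mono_set (hB.ok.alg.integrable hB.ok.int ht (hB.ok.alg.s0_Q ht 0)).integrableOn
    (Eventually.of_forall fun z => hB.ok.evo.Q_nonneg 0 t ht z) h.eventuallyLE

theorem stat {F : Flow M} (hB : Base F) (hZ : TRKZ F.hc) (hC : CEN F) (hS : SW F) (hP : PERS F) :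
    STAT F := by
  intro p ε c0 r0 hp
  obtain ⟨hε, hc0, hr0, -⟩ := id hp
  obtain ⟨C, K, rE, hC0, hK, hrE, rE1, hcen⟩ := hC
  obtain ⟨ε1, C0, hε1, hC01, hZ⟩ := hZ (ε / 2) (half_pos hε)
  obtain ⟨KS, rS, hKS, hrS, -, hsw⟩ := hS 192
  obtain ⟨Cd, hCd, hlo⟩ := hB.c.dlo
  obtain ⟨η0, hη0, η1, η2⟩ : ∃ η0 : ℝ, 0 < η0 ∧ η0 ≤ 1 / 200 ∧ C * η0 ^ 2 ≤ min (ε / 2) ε1 := by
    have q : 0 < min (ε / 2) ε1 / C := by positivity
    refine ⟨min (1 / 200) (min (ε / 2) ε1 / C), by positivity, min_le_left _ _, ?_⟩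
    have q1 := min_le_left (1 / 200 : ℝ) (min (ε / 2) ε1 / C)
    have q2 := (le_div_iff₀ hC0).1 (min_le_right (1 / 200 : ℝ) (min (ε / 2) ε1 / C))
    have q3 : 0 < min (1 / 200 : ℝ) (min (ε / 2) ε1 / C) := by positivity
    nlinarith [mul_pos hC0 q3]
  obtain ⟨K0, hK0⟩ : ∃ K0, K0 = 16 * C0 * K + 2 := ⟨_, rfl⟩
  have k01 : 16 * K ≤ 16 * C0 * K := by nlinarith
  refine ⟨η0, K0, hη0, by nlinarith, fun L hL => ?_⟩
  obtain ⟨C1, hC1, hZ⟩ := hZ (L + KS) (by linarith)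
  obtain ⟨K1, hK1⟩ : ∃ K1, K1 = L + K0 + 16 * C1 * K := ⟨_, rfl⟩
  have k11 : 0 ≤ 16 * C1 * K := by positivity
  refine ⟨K1, by linarith, by linarith, fun Kr hKr δ hδ => ?_⟩
  obtain ⟨B, hB0, hZ⟩ := hZ Kr hKr
  obtain ⟨δP, Cp, hδP, hCp, hP⟩ := hP (fun _ => 1 / 100) fun k => (L * Kr) ^ k * B k
  obtain ⟨δT, hδT, d1, d2⟩ : ∃ δT : ℝ, 0 < δT ∧ δT ≤ δP ∧ ∀ k ≤ 2, Cp k * δT ≤ δ := by
    have := hCp 0
    have := hCp 1
    have := hCp 2
    refine ⟨min δP (δ / (Cp 0 + Cp 1 + Cp 2)), by positivity, min_le_left _ _, fun k hk => ?_⟩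
    have q := (le_div_iff₀ (show 0 < Cp 0 + Cp 1 + Cp 2 by positivity)).1
      (min_le_right δP (δ / (Cp 0 + Cp 1 + Cp 2)))
    have q0 : 0 < min δP (δ / (Cp 0 + Cp 1 + Cp 2)) := by positivity
    refine le_trans ?_ q
    rw [mul_comm]
    refine mul_le_mul_of_nonneg_left ?_ q0.le
    interval_cases k <;> linarith
  obtain ⟨cT, rT, hcT, hrT, hZ⟩ := hZ δT hδT
  refine ⟨min (min (cT / Kr ^ 4) c0) (min (1 / Cd ^ 2) rT), min (min rE rS) (min r0 rT),
    by positivity, by positivity,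
    fun s τ l l' A R η N Y hsτ hη hηη hl1 hl2 hA hR hR1 hTc hN hNτ hY hint => ?_⟩
  obtain ⟨c, hc⟩ : ∃ c, c = min (min (cT / Kr ^ 4) c0) (min (1 / Cd ^ 2) rT) := ⟨_, rfl⟩
  rw [← hc] at hTc hint
  have c1 : c ≤ cT / Kr ^ 4 := hc ▸ (min_le_left _ _).trans (min_le_left _ _)
  have c2 : c ≤ c0 := hc ▸ (min_le_left _ _).trans (min_le_right _ _)
  have c3 : c ≤ 1 / Cd ^ 2 := hc ▸ (min_le_right _ _).trans (min_le_left _ _)
  have c4 : c ≤ rT := hc ▸ (min_le_right _ _).trans (min_le_right _ _)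
  have c5 : 0 < c := by rw [hc]; positivity
  have R1 : R ≤ rE := hR1.trans ((min_le_left _ _).trans (min_le_left _ _))
  have R2 : R ≤ rS := hR1.trans ((min_le_left _ _).trans (min_le_right _ _))
  have R3 : R ≤ r0 := hR1.trans ((min_le_right _ _).trans (min_le_left _ _))
  have R4 : R ≤ rT := hR1.trans ((min_le_right _ _).trans (min_le_right _ _))
  obtain ⟨s0, hs0⟩ : ∃ s0, s0 = s - (K0 * l) ^ 2 := ⟨_, rfl⟩
  rw [← hs0] at hTc hN hY hint
  have s0s : s0 ≤ s := by rw [hs0]; linarith [sq_nonneg (K0 * l)]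
  have mτ : τ ∈ Icc s0 τ := ⟨s0s.trans hsτ, le_rfl⟩
  have l'0 : 0 < l' := hNτ ▸ (hN τ mτ).1.top.a_pos
  have l0 : 0 < l := l'0.trans_le hl1
  have hK0' : 0 < K := by linarith
  have Kl : 0 < K * l := by positivity
  have e1 : K1 * l = L * l + K0 * l + 2 * (C1 * (8 * K * l)) := by rw [hK1]; ring
  have e2 : K0 * l = 2 * (C0 * (8 * K * l)) + 2 * l := by rw [hK0]; ring
  have e3 : 8 * K * l ≤ C0 * (8 * K * l) := le_mul_of_one_le_left (by positivity) hC01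
  have e4 : 8 * K * l ≤ C1 * (8 * K * l) := le_mul_of_one_le_left (by positivity) hC1
  have e5 : l ≤ L * l := le_mul_of_one_le_left l0.le hL
  have e6 : 8 * K * l = 8 * (K * l) := by ring
  have A0 : 0 < A := by linarith
  have A1 : A ≤ 1 := by linarith
  have cA : c * A ^ 2 ≤ c * A := mul_le_mul_of_nonneg_left (by nlinarith) c5.le
  have cA1 : c * A ≤ c := mul_le_of_le_one_right c5.le A1
  have η200 : η ≤ 1 / 200 := hηη.trans η1
  have ηC : C * η ^ 2 ≤ min (ε / 2) ε1 :=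
    (mul_le_mul_of_nonneg_left (pow_le_pow_left₀ hη hηη 2) hC0.le).trans η2
  have hT : ∀ t ∈ Icc s0 τ, t ∈ Ioo 0 F.T := fun t ht => late_Ioo (hN t ht).1.late
  have hex : ∀ t, ∃ z, t ∈ Icc s0 τ → z ∈ (N t).In := fun t => by
    by_cases ht : t ∈ Icc s0 τ
    · obtain ⟨z, hz⟩ := (hN t ht).1.top.ne
      exact ⟨z, fun _ => hz⟩
    · exact ⟨p, fun h => absurd h ht⟩
  choose z hz using hex
  have aK : ∀ t ∈ Icc s0 τ, K * (N t).a ≤ K * l := fun t ht =>
    mul_le_mul_of_nonneg_left (hN t ht).2.1 hK0'.le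
  have cen := fun t (ht : t ∈ Icc s0 τ) => (hcen p ε c0 r0 hp t η A (N t) hη η200 (by linarith)
    (by linarith [ht.1, mul_le_mul_of_nonneg_right c2 A0.le]) (hN t ht).1
    (by rw [(hN t ht).2.2.1]; exact R1) (by linarith [aK t ht])
    (by rw [(hN t ht).2.2.1]; linarith) (hN t ht).2.2.2.1).1 (z t) (hz t ht)
  have sw := fun t (ht : t ∈ Icc s0 τ) => hsw t (hN t ht).1.late (N t) (hN t ht).1.top
    ((hN t ht).1.rough0 hη η200) (by rw [(hN t ht).2.2.1]; exact R2)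
    (by rw [(hN t ht).2.2.1]; linarith [(hN t ht).2.1]) (z t) (hz t ht)
  have D := hB.ok.dist
  have conc : ∀ t ∈ Icc s0 τ, ∀ a', K * (N t).a ≤ a' →
      Conc F.hc t (F.hc.B τ (z τ) (C1 * (8 * K * l))) (z t) a' (C1 * (8 * K * l)) ε1 := by
    intro t ht a' ha' x hx y hy r hr0 hr hen
    have q1 : F.hc.d τ (z τ) x < C1 * (8 * K * l) := hx
    have q2 : F.hc.d t x y < C1 * (8 * K * l) := hy
    have q3 : F.hc.d τ (z τ) p ≤ 3 * A := (cen τ mτ).2.1
    have q4 : F.hc.d t (z t) p ≤ 3 * A := (cen t ht).2.1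
    have q5 := hlo t τ (hT t ht).1 ht.2 (hT τ mτ).2 p x
    have q6 : Cd * √(τ - t) ≤ A := by
      have w1 : τ - t ≤ (A / Cd) ^ 2 := by
        have := mul_le_mul_of_nonneg_right c3 (sq_nonneg A)
        have w2 : 1 / Cd ^ 2 * A ^ 2 = (A / Cd) ^ 2 := by ring
        linarith [(hT τ mτ).2, ht.1]
      have := Real.sqrt_le_iff.2 ⟨by positivity, w1⟩
      rwa [le_div_iff₀ hCd, mul_comm] at this
    have q7 := D.tri τ (hT τ mτ) p (z τ) x
    rw [D.symm τ (hT τ mτ) p (z τ)] at q7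
    have q8 := D.tri t (hT t ht) (z t) p x
    have q9 := D.tri t (hT t ht) (z t) x y
    have := (cen t ht).2.2 y r (by
      rw [(hN t ht).2.2.1]
      show F.hc.d t (z t) y + r ≤ R / 2
      linarith) ((ηC.trans (min_le_right _ _)).trans_lt hen)
    show (F.m t).d (z t) y < 2 * r + a'
    linarith
  have sub : Icc (s - (8 * K * l) ^ 2) τ ⊆ Icc s0 τ := by
    refine Icc_subset_Icc ?_ le_rfl
    have := pow_le_pow_left₀ (by positivity) (show 8 * K * l ≤ K0 * l by linarith) 2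
    linarith
  have m1 : s - (8 * K * l) ^ 2 ∈ Icc s0 τ := sub ⟨le_rfl, by linarith [sq_nonneg (8 * K * l)]⟩
  have Y0 : ∀ t ∈ Icc s0 τ, 0 ≤ Y t := fun t ht =>
    le_trans (integral_nonneg fun q => hB.ok.evo.Q_nonneg 0 t (hT t ht) q) (hN t ht).2.2.2.2
  have hY' : IntervalIntegrable Y volume (s - (8 * K * l) ^ 2) τ :=
    hY.mono_set (by rw [uIcc_of_le m1.2, uIcc_of_le mτ.1]; exact sub)
  obtain ⟨out1, ζ, cζ, ζ0, iζ, out2⟩ := hZ s τ (8 * K * l) (8 * K * l') z Y (hN _ m1).1.late.1 hsτ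
    (hT τ mτ).2 (by linarith [(hT τ mτ).2]) (by positivity)
    (mul_le_mul_of_nonneg_left hl1 (by positivity))
    (by have := mul_le_mul_of_nonneg_left hl2 (show 0 ≤ 8 * K by positivity); linarith)
    (by linarith)
    (fun t ht => ⟨by
      have q1 := (cen t (sub ht)).1
      have q2 := HC.en_mono_set hB.ok (hT t (sub ht))
        (HC.B_mono2 t (z t) (show K * (N t).a ≤ 8 * K * l by linarith [aK t (sub ht)]))
      linarith [ηC.trans (min_le_left _ _)],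
      conc t (sub ht) _ (by linarith [aK t (sub ht)]),
      (st_mass hB (hT t (sub ht)) fun q hq => (sw t (sub ht) (K1 * l)
        ⟨by linarith [(hN t (sub ht)).2.1], by rw [(hN t (sub ht)).2.2.1]; linarith⟩).2 q (by
          have q1 : (F.m t).d (z t) q < C1 * (8 * K * l) := hq
          linarith [(hN t (sub ht)).2.1])).trans (hN t (sub ht)).2.2.2.2⟩)
    (conc τ mτ _ (by rw [hNτ]; linarith)) hY' (by
      have q1 : ∫ t in (s - (8 * K * l) ^ 2)..τ, Y t ≤ ∫ t in s0..τ, Y t :=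
        intervalIntegral.integral_mono_interval m1.1 m1.2 le_rfl
          ((ae_restrict_mem measurableSet_Ioc).mono fun t ht => Y0 t (Ioc_subset_Icc_self ht)) hY
      refine (mul_le_mul_of_nonneg_left q1 (sub_nonneg.2 hsτ)).trans (hint.trans ?_)
      have q2 : l ≤ Kr * (8 * K * l') := hl2.trans (mul_le_mul_of_nonneg_left
        (le_mul_of_one_le_left l'0.le (by linarith)) (by linarith))
      have q3 := pow_le_pow_left₀ l0.le q2 4
      refine (mul_le_mul c1 q3 (by positivity) (by positivity)).trans (le_of_eq ?_)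
      field_simp)
  intro t ht
  have mt : t ∈ Icc s0 τ := ⟨s0s.trans ht.1.le, ht.2⟩
  refine ⟨fun x hx => ?_, z τ, hz τ mτ, (sw t mt (K0 * l)
    ⟨by linarith [(hN t mt).2.1], by rw [(hN t mt).2.2.1]; linarith⟩).2 _ ?_⟩
  swap
  · have q1 : (F.m t).d (z t) (z τ) ≤ C0 * (8 * K * l) := out1 t ht
    linarith [(hN t mt).2.1]
  have top := (hN τ mτ).1.top
  have hb : (N τ).b = R := (hN τ mτ).2.2.1
  have K0l : (16 * K + 2) * l' ≤ K0 * l' := mul_le_mul_of_nonneg_right (by linarith) l'0.le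
  have Kl' : 0 < K * l' := by positivity
  have hx' : x ∈ shell (N τ).a (N τ).b :=
    ⟨by rw [hNτ]; linarith [hx.1], by rw [hb]; linarith [hx.2]⟩
  have x0 : 0 < ‖x‖ := top.a_pos.trans hx'.1
  have lo : 8 * K * l' ≤ F.hc.d τ (z τ) ((N τ).Ψ x) := by
    by_contra hn
    have q1 : (F.m τ).d (z τ) ((N τ).Ψ x) < 8 * K * l' := not_le.1 hn
    have q2 := (sw τ mτ ‖x‖ ⟨hx'.1.le, hx'.2.le⟩).2 ((N τ).Ψ x) (by rw [hNτ]; linarith [hx.1])
    rw [top.mem_Om ⟨hx'.1, hx'.2.le⟩, top.rad_Ψ hx'] at q2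
    exact lt_irrefl _ q2
  have hi : F.hc.d τ (z τ) ((N τ).Ψ x) ≤ (L + KS) * (8 * K * l) := by
    have q1 := (sw τ mτ (L * l) ⟨by rw [hNτ]; linarith, by rw [hb]; linarith⟩).1 ((N τ).Ψ x)
      (Or.inr ⟨x, ⟨hx'.1, hx.2⟩, rfl⟩)
    rw [hNτ] at q1
    have q2 : KS * l' ≤ KS * l := mul_le_mul_of_nonneg_left hl1 (by linarith)
    have q3 : (L + KS) * (2 * l) ≤ (L + KS) * (8 * K * l) :=
      mul_le_mul_of_nonneg_left (by nlinarith) (by linarith)
    have q4 : 0 < KS * l := by positivity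
    show (F.m τ).d (z τ) ((N τ).Ψ x) ≤ _
    linarith
  have jτ := (hN τ mτ).1.jg hη hx'
  have sub2 : Icc t τ ⊆ Icc s τ := Icc_subset_Icc ht.1.le le_rfl
  have iζ' : |∫ r in τ..t, ζ r| ≤ δT := by
    rw [intervalIntegral.integral_symm, abs_neg, abs_of_nonneg
      (intervalIntegral.integral_nonneg ht.2 fun r hr => ζ0 r (sub2 hr))]
    exact (intervalIntegral.integral_mono_interval ht.1.le ht.2 le_rfl
      ((ae_restrict_mem measurableSet_Ioc).mono fun r hr => ζ0 r (Ioc_subset_Icc_self hr))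
      (cζ.intervalIntegrable_of_Icc hsτ)).trans iζ
  have eu : uIcc τ t = Icc t τ := uIcc_of_ge ht.2
  have key := hP 2 (N τ).Ψ _ x ‖x‖ τ t ζ top.par hx' x0
    (by rw [eu]; exact fun r hr => hT r ⟨mt.1.trans hr.1, hr.2⟩)
    (fun k hk i j => (jτ k (hk.trans (Nat.zero_le _)) i j).trans (by linarith))
    (fun k hk i j => (jτ k hk i j).trans (by linarith)) (by rw [eu]; exact cζ.mono sub2)
    (by rw [eu]; exact fun r hr => ζ0 r (sub2 hr)) (fun r hr k _ => by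
      rw [min_eq_right ht.2, max_eq_left ht.2] at hr
      have q1 := out2 r ⟨ht.1.trans hr.1, hr.2⟩ _ lo hi k
      have q2 : ‖x‖ ≤ L * Kr * (8 * K * l') := by
        have w1 : L * l ≤ L * (Kr * l') := mul_le_mul_of_nonneg_left hl2 (by linarith)
        have w2 : L * Kr * l' ≤ L * Kr * (8 * K * l') :=
          mul_le_mul_of_nonneg_left (le_mul_of_one_le_left l'0.le (by linarith)) (by positivity)
        linarith [hx.2]
      have q3 := pow_le_pow_left₀ x0.le q2 k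
      rw [mul_pow] at q3
      refine (mul_le_mul_of_nonneg_right q3 (Real.sqrt_nonneg _)).trans ?_
      have q4 := mul_le_mul_of_nonneg_left q1 (show 0 ≤ (L * Kr) ^ k by positivity)
      rw [← mul_assoc, ← mul_assoc] at q4
      exact q4) (iζ'.trans d1)
  intro k hk i j
  have sm : ∀ r, ContDiffAt ℝ ∞ (fun y => (F.m r).pm (N τ).Ψ y i j) x := fun r =>
    ((V.par_riem top.par (F.m r)).contDiffOn i j).contDiffAt (top.par.isOpen.mem_nhds hx')
  exact st_j1 x0.le (sm τ) (sm t) (jτ k hk i j) ((key k hk i j).trans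
    ((mul_le_mul_of_nonneg_left iζ' (hCp k).le).trans (d2 k hk)))

end Crest.Agent.N207.T

end
end

-- ▼ part N207/TR/Glue
section

/-!
# Row 207 (helper38): `T.GLUE`, gluing of two comparable necks
-/

set_option autoImplicit false
set_option linter.style.haveILetI false
set_option linter.unusedSectionVars false

open scoped ContDiff Manifold Topology
open Set Filter Metric

noncomputable section

namespace Crest.Agent.N207.TR

open Sk

variable {M : Type*} [TopologicalSpace M] [ChartedSpace E4 M] [IsManifold 𝓘(ℝ, E4) ∞ M]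
  [T3Space M] [ConnectedSpace M] [MeasurableSpace M] [BorelSpace M]

theorem Om_mono (N : Nk M) {r r' : ℝ} (h : r ≤ r') : N.Om r ⊆ N.Om r' :=
  union_subset_union_right _ (image_mono (shell_mono le_rfl h))

/-- gluing data -/
structure Gd (N N' : Nk M) (r ε : ℝ) (A : E4 ≃ₗᵢ[ℝ] E4) (P : E4 → E4) : Prop where
  t : N.Top
  t' : N'.Top
  a : N.a ≤ r / 16
  a' : N'.a ≤ r / 16
  b : 8 * r ≤ N.b
  b' : 8 * r ≤ N'.b
  pert : G.Pert 1 P r ε
  eps : ε ≤ 1 / 100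
  he : ∀ x ∈ shell (r / 2) r, N'.Ψ (A (x + P x)) = N.Ψ x
  eqv : ∀ γ ∈ N.Γ, ∀ x, r / 2 < ‖x‖ → P (γ x) = γ (P x)
  c1 : ∀ γ ∈ N.Γ, ∃ γ' ∈ N'.Γ, ∀ x, A (γ x) = γ' (A x)
  c2 : ∀ γ' ∈ N'.Γ, ∃ γ ∈ N.Γ, ∀ x, A (γ x) = γ' (A x)
  k2 : N.Om (3 / 5 * r) ⊆ N'.Om (7 / 10 * r)
  k3 : N'.Om (7 / 10 * r) ⊆ N.Om r

/-- the glued neck -/
def glN (N N' : Nk M) (r : ℝ) (A : E4 ≃ₗᵢ[ℝ] E4) (P : E4 → E4) : Nk M :=
  ⟨N.Γ, G.gl N.Ψ (fun y => N'.Ψ (A y)) P r, N.In, N.a, N'.b⟩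

namespace Gd

variable {N N' : Nk M} {r ε : ℝ} {A : E4 ≃ₗᵢ[ℝ] E4} {P : E4 → E4} (h : Gd N N' r ε A P)
include h

theorem pos : 0 < r := by linarith [h.a, h.t.a_pos]

theorem inn {x : E4} (hx : ‖x‖ < r) : (glN N N' r A P).Ψ x = N.Ψ x :=
  G.gl_in (Ψ2 := fun y => N'.Ψ (A y)) h.pos h.he hx

theorem out {x : E4} (hx : r / 2 < ‖x‖) : (glN N N' r A P).Ψ x = N'.Ψ (A (x + P x)) :=
  G.gl_out (Ψ2 := fun y => N'.Ψ (A y)) h.pos h.he hx

theorem mem {x : E4} {s : ℝ} (hs : 2 * r ≤ s) (hx : x ∈ shell (r / 2) s) :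
    A (x + P x) ∈ shell N'.a s :=
  shell_iso A (h.pert.mem h.pos h.eps (by linarith [h.a', h.pos]) hs hx)

theorem low {x : E4} (hx : r ≤ ‖x‖) : 7 / 10 * r ≤ ‖A (x + P x)‖ := by
  have hp := h.pos
  have h1 := h.pert.val (x := x) (by linarith)
  have h2 := norm_sub_le (x + P x) (P x)
  rw [add_sub_cancel_right] at h2
  rw [A.norm_map]
  nlinarith [h.eps]

theorem par2 : Par (fun y => N'.Ψ (A y)) (shell N'.a N'.b) :=
  Gs.par_comp h.t'.par (isOpen_shell _ _) A.contDiff.contDiffOn (fun _ hy => shell_iso A hy)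
    fun y _ => by
      rw [show fderiv ℝ A y = (A.toContinuousLinearEquiv : E4 →L[ℝ] E4) from
        A.toContinuousLinearEquiv.fderiv]
      exact A.injective

theorem par : Par (glN N N' r A P).Ψ (shell N.a N'.b) := by
  have hp := h.pos
  refine Gs.par_of_local (isOpen_shell _ _) fun x hx => ?_
  by_cases h3 : ‖x‖ < r
  · exact ⟨shell N.a r, ⟨hx.1, h3⟩, Gs.par_congr (Gs.par_mono h.t.par (isOpen_shell _ _)
      (shell_mono le_rfl (by linarith [h.b]))) fun y hy => h.inn hy.2⟩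
  · exact ⟨shell (r / 2) N'.b, ⟨by linarith, hx.2⟩, Gs.par_congr (h.pert.par hp h.eps
      (by linarith [h.a']) (by linarith [h.b']) h.par2) fun y hy => h.out hy.1⟩

theorem not_in {x : E4} (hx : r ≤ ‖x‖) (hx' : ‖x‖ < N'.b) :
    (glN N N' r A P).Ψ x ∉ N.Om (3 / 5 * r) := fun hh => by
  have hp := h.pos
  rw [h.out (by linarith)] at hh
  exact not_mem_Om h.t' (h.mem (by linarith [h.b']) ⟨by linarith, hx'⟩) (h.low hx) (h.k2 hh)

theorem om_in {s : ℝ} (hs : s ≤ r) : (glN N N' r A P).Om s = N.Om s :=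
  congrArg (N.In ∪ ·) (image_congr fun _ hx => h.inn (hx.2.trans_le hs))

theorem top : (glN N N' r A P).Top := by
  have hp := h.pos
  have hb := h.b
  have hb' := h.b'
  have ha := h.a
  refine ⟨h.t.grp, h.t.a_pos, show N.a < N'.b by linarith, h.par,
    fun x hx y hy => ⟨fun e => ?_, ?_⟩, fun x hx hh => ?_, fun s hs => ?_, fun s hs => ?_, h.t.ne⟩
  · by_cases h3 : ‖x‖ < r ∧ ‖y‖ < r
    · rw [h.inn h3.1, h.inn h3.2] at e
      exact (h.t.fib x ⟨hx.1, by linarith [h3.1]⟩ y ⟨hy.1, by linarith [h3.2]⟩).1 e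
    have key : ∀ x ∈ shell N.a N'.b, ∀ y ∈ shell N.a N'.b,
        (glN N N' r A P).Ψ x = (glN N N' r A P).Ψ y → r ≤ ‖y‖ → 3 / 5 * r ≤ ‖x‖ :=
      fun x hx y hy e h4 => by
        by_contra h5
        refine h.not_in h4 hy.2 (Or.inr ⟨x, ⟨hx.1, not_le.1 h5⟩, ?_⟩)
        rw [← e, h.inn (by linarith [not_le.1 h5])]
    have h4 : 3 / 5 * r ≤ ‖x‖ ∧ 3 / 5 * r ≤ ‖y‖ := by
      rcases not_and_or.1 h3 with h5 | h5
      · exact ⟨by linarith [not_lt.1 h5], key y hy x hx e.symm (not_lt.1 h5)⟩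
      · exact ⟨key x hx y hy e (not_lt.1 h5), by linarith [not_lt.1 h5]⟩
    have h5 : r / 2 < ‖x‖ := by linarith [h4.1]
    have h6 : r / 2 < ‖y‖ := by linarith [h4.2]
    rw [h.out h5, h.out h6] at e
    obtain ⟨γ', hγ', e'⟩ := (h.t'.fib _ (h.mem (by linarith) ⟨h5, hx.2⟩) _
      (h.mem (by linarith) ⟨h6, hy.2⟩)).1 e
    obtain ⟨γ, hγ, hc⟩ := h.c2 γ' hγ'
    rw [← hc, A.injective.eq_iff, map_add, ← h.eqv γ hγ x h5] at e'
    exact ⟨γ, hγ, h.pert.inj hp h.eps (by rw [γ.norm_map]; exact h4.1) h4.2 e'⟩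
  · rintro ⟨γ, hγ, rfl⟩
    by_cases h3 : ‖x‖ < r
    · rw [h.inn h3, h.inn (by rwa [γ.norm_map])]
      exact (psi_inv h.t ⟨hx.1, by linarith⟩ hγ).symm
    · have h5 : r / 2 < ‖x‖ := by linarith
      obtain ⟨γ', hγ', hc⟩ := h.c1 γ hγ
      rw [h.out h5, h.out (by rwa [γ.norm_map]), h.eqv γ hγ x h5, ← map_add, hc]
      exact (psi_inv h.t' (h.mem (by linarith) ⟨h5, hx.2⟩) hγ').symm
  · by_cases h3 : ‖x‖ < r
    · rw [h.inn h3] at hh
      exact h.t.disj x ⟨hx.1, by linarith⟩ hh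
    · exact h.not_in (not_lt.1 h3) hx.2 (Or.inl hh)
  · have e : (glN N N' r A P).Om s = N.Om (min s r) ∪ (glN N N' r A P).Ψ '' shell N.a s := by
      rw [← h.om_in (min_le_right s r)]
      exact (union_eq_self_of_subset_right subset_union_right).symm.trans (by
        refine Subset.antisymm (union_subset ?_ subset_union_right)
          (union_subset_union_left _ (Om_mono _ (min_le_left _ _)))
        exact union_subset (subset_union_left.trans subset_union_left) subset_union_right)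
    rw [e]
    exact (h.t.opn _ ⟨lt_min hs.1 (by linarith), (min_le_right _ _).trans (by linarith)⟩).union
      (Gs.par_isOpen h.par (isOpen_shell _ _) (shell_mono le_rfl hs.2))
  · set c := min s (4 / 5 * r) with hc
    have c1 : N.a < c := lt_min hs.1 (by linarith)
    have c2 : c ≤ 4 / 5 * r := min_le_right _ _
    have c3 : c ≤ s := min_le_left _ _
    have hK : IsCompact {x : E4 | c ≤ ‖x‖ ∧ ‖x‖ ≤ s} :=
      (isCompact_closedBall (0 : E4) s).of_isClosed_subset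
        ((isClosed_le continuous_const continuous_norm).inter
          (isClosed_le continuous_norm continuous_const))
        fun x hx => mem_closedBall_zero_iff.2 hx.2
    have h1 := (hK.image_of_continuousOn ((Gs.par_cont h.par).mono fun x hx =>
      ⟨c1.trans_le hx.1, hx.2.trans_lt hs.2⟩)).isClosed
    convert (h.t.cls c ⟨c1, by linarith⟩).union h1 using 1
    refine Subset.antisymm (union_subset (subset_union_left.trans subset_union_left) ?_)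
      (union_subset (union_subset subset_union_left ?_) ?_)
    · rintro _ ⟨x, hx, rfl⟩
      by_cases h3 : ‖x‖ ≤ c
      · exact Or.inl (Or.inr ⟨x, ⟨hx.1, h3⟩, (h.inn (by linarith)).symm⟩)
      · exact Or.inr ⟨x, ⟨(not_le.1 h3).le, hx.2⟩, rfl⟩
    · rintro _ ⟨x, hx, rfl⟩
      exact Or.inr ⟨x, ⟨hx.1, hx.2.trans c3⟩, h.inn (by linarith [hx.2])⟩
    · rintro _ ⟨x, hx, rfl⟩
      exact Or.inr ⟨x, ⟨c1.trans_le hx.1, hx.2⟩, rfl⟩

theorem om_out {s : ℝ} (hs : 2 * r ≤ s) : (glN N N' r A P).Om s = N'.Om s := by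
  have hp := h.pos
  have ha := h.a
  have k2 : N.Om (3 / 5 * r) ⊆ N'.Om s := h.k2.trans (Om_mono _ (by linarith))
  have k3 : N'.Om (7 / 10 * r) ⊆ (glN N N' r A P).Om s :=
    h.k3.trans ((h.om_in le_rfl).symm.subset.trans (Om_mono _ (by linarith)))
  refine Subset.antisymm (union_subset (subset_union_left.trans k2) ?_)
    (union_subset (subset_union_left.trans k3) ?_)
  · rintro _ ⟨x, hx, rfl⟩
    by_cases h3 : ‖x‖ < 3 / 5 * r
    · exact k2 (Or.inr ⟨x, ⟨hx.1, h3⟩, (h.inn (by linarith)).symm⟩)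
    · have h5 : r / 2 < ‖x‖ := by linarith
      exact Or.inr ⟨_, h.mem hs ⟨h5, hx.2⟩, (h.out h5).symm⟩
  · rintro _ ⟨y, hy, rfl⟩
    by_cases h3 : ‖y‖ < 7 / 10 * r
    · exact k3 (Or.inr ⟨y, ⟨hy.1, h3⟩, rfl⟩)
    obtain ⟨y, rfl⟩ := A.surjective y
    have h4 := hy.2
    rw [A.norm_map] at h3 h4
    by_cases h6 : 3 / 2 * r ≤ ‖y‖
    · exact Or.inr ⟨y, ⟨show N.a < _ by linarith, h4⟩, by
        rw [h.out (by linarith), h.pert.zero y h6, add_zero]⟩
    · obtain ⟨x, hx, e⟩ := h.pert.surj hp h.eps (y := y) (by linarith)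
      have h7 := norm_sub_norm_le x y
      have h8 := norm_sub_norm_le y x
      rw [norm_sub_rev] at h8
      exact Or.inr ⟨x, ⟨show N.a < _ by linarith, by linarith⟩, by rw [h.out (by linarith), e]⟩

end Gd

/-- `TRANS` without the unused hypotheses, for a given lift -/
theorem ana : ∃ η0 : ℝ, 0 < η0 ∧ ∀ m : ℕ, ∃ C : ℝ, 0 < C ∧ ∀ (g : Met 4 M) (N N' : Nk M)
    (r1 r2 : ℝ) (Θ : E4 → E4) (ι : N.Γ ≃* N'.Γ), Two N N' r1 r2 → Lf N N' r1 r2 Θ →
    (∀ γ : N.Γ, ∀ x ∈ shell r1 (r2 / 2), Θ (γ.1 x) = (ι γ).1 (Θ x)) →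
      ∀ r δ : ℝ, 4 * r1 ≤ r → 8 * r ≤ r2 → 0 ≤ δ → δ ≤ η0 →
        (∀ x ∈ shell (r / 4) (4 * r), JG (m + 1) (g.pm N.Ψ) x ‖x‖ δ) →
        (∀ x ∈ shell (r / 8) (8 * r), JG (m + 1) (g.pm N'.Ψ) x ‖x‖ δ) →
        ∃ A : E4 ≃ₗᵢ[ℝ] E4, (∀ γ : N.Γ, ∀ x, A (γ.1 x) = (ι γ).1 (A x)) ∧
          ∀ x ∈ shell (r / 2) (2 * r), ∀ k ≤ m + 2, J1 k (fun y => Θ y - A y) x r (C * δ * r) := by
  obtain ⟨η0, hη, h⟩ := euc
  refine ⟨η0, hη, fun m => ?_⟩
  obtain ⟨C, hC, h⟩ := h m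
  refine ⟨C, hC, fun g N N' r1 r2 Θ ι hT hΘ hι r δ hr1 hr2 hδ hδ' j1 j2 => ?_⟩
  have hp := hT.pos
  have s1 : shell (r / 4) (4 * r) ⊆ shell r1 (r2 / 2) := shell_mono (by linarith) (by linarith)
  haveI := hT.t.grp.fin
  refine h N.Γ (N'.Γ.subtype.comp ι.toMonoidHom) N.Γ.subtype _ _ Θ _ _ r δ ?_
    (Gs.pull_of' g hT.t.par hT.t'.par (isOpen_shell _ _) hT.sub hΘ.sm
      fun z hz => ⟨hΘ.mem z hz, hΘ.eq z hz⟩) (by linarith) s1
    (fun x hx => ⟨by linarith [hΘ.lo x (s1 hx), hx.1], by linarith [hΘ.hi x (s1 hx), hx.2]⟩)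
    (fun γ x hx => hι γ x (s1 hx)) hδ hδ' j1 j2
  obtain ⟨γ, hγ⟩ := (Subgroup.ne_bot_iff_exists_ne_one).1 hT.t'.grp.ne
  refine ⟨ι.symm γ, fun v hv => by_contra fun h0 => hγ (Subtype.ext ?_)⟩
  exact hT.t'.grp.free γ.1 γ.2 v h0 (by simpa using hv)

theorem norm_near {Θ : E4 → E4} {A : E4 ≃ₗᵢ[ℝ] E4} {x : E4} {s c : ℝ}
    (h : J1 0 (fun y => Θ y - A y) x s c) : |‖Θ x‖ - ‖x‖| ≤ c := by
  have h1 : ‖Θ x - A x‖ ≤ c := by simpa [J1, norm_iteratedFDeriv_zero] using h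
  rw [← A.norm_map x]
  exact (abs_norm_sub_norm_le _ _).trans h1

/-- existence of gluing data -/
theorem exists_gd : ∃ η0 C : ℝ, 0 < η0 ∧ 1 ≤ C ∧ ∀ (g : Met 4 M) (N N' : Nk M) (δ r1 r2 : ℝ),
    Two N N' r1 r2 → 0 ≤ δ → δ ≤ η0 → (∀ x ∈ shell N.a N.b, JG 2 (g.pm N.Ψ) x ‖x‖ δ) →
    (∀ x ∈ shell N'.a N'.b, JG 2 (g.pm N'.Ψ) x ‖x‖ δ) →
    ∃ A P, Gd N N' (8 * r1) (C * δ) A P ∧ G.Pert 3 P (8 * r1) (C * δ) := by
  obtain ⟨η0, hη0, hA⟩ := ana (M := M)
  obtain ⟨C, hC, hA⟩ := hA 1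
  obtain ⟨C', hC', hP⟩ := G.exists_P 3
  have hK : 1 ≤ C' * (C + 1) := one_le_mul_of_one_le_of_one_le hC' (by linarith)
  refine ⟨min η0 (1 / (100 * (C' * (C + 1)))), C' * (C + 1), by positivity, hK,
    fun g N N' δ r1 r2 hT h0 h1 j1 j2 => ?_⟩
  have h2 : δ ≤ η0 := h1.trans (min_le_left _ _)
  have h3 : C' * (C + 1) * δ ≤ 1 / 100 := by
    have := h1.trans (min_le_right _ _)
    rw [le_div_iff₀ (by positivity)] at this
    linarith
  have h4 : C * δ ≤ 1 / 100 := le_trans (by gcongr; nlinarith) h3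
  have hp := hT.pos
  have ⟨ha, ha', hb, hb', hr⟩ : 2 * N.a ≤ r1 ∧ 2 * N'.a ≤ r1 ∧ r2 ≤ N.b ∧ r2 ≤ N'.b ∧ 64 * r1 ≤ r2 :=
    ⟨hT.a, hT.a', hT.b, hT.b', hT.r⟩
  have a0 := hT.t.a_pos
  have a0' := hT.t'.a_pos
  obtain ⟨Θ, ι, hΘ, hι⟩ := hT.iso
  obtain ⟨A, hAi, hJ⟩ := hA g N N' r1 r2 Θ ι hT hΘ hι (8 * r1) δ (by linarith) (by linarith) h0 h2
    (fun x hx => j1 x (shell_mono (by linarith) (by linarith) hx))
    fun x hx => j2 x (shell_mono (by linarith) (by linarith) hx)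
  obtain ⟨A2, -, hJ2⟩ := hA g N N' r1 r2 Θ ι hT hΘ hι (4 * r1) δ le_rfl (by linarith) h0 h2
    (fun x hx => j1 x (shell_mono (by linarith) (by linarith) hx))
    fun x hx => j2 x (shell_mono (by linarith) (by linarith) hx)
  have S : ∀ x ∈ shell (2 * r1) (16 * r1), |‖Θ x‖ - ‖x‖| ≤ 8 * r1 / 100 := fun x hx => by
    by_cases h5 : ‖x‖ < 8 * r1
    · exact (norm_near (hJ2 x ⟨by linarith [hx.1], by linarith⟩ 0 (by omega))).trans (by nlinarith)
    · exact (norm_near (hJ x ⟨by linarith, by linarith [hx.2]⟩ 0 (by omega))).trans (by nlinarith)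
  have s2 : shell (2 * r1) (16 * r1) ⊆ shell r1 (r2 / 2) := shell_mono (by linarith) (by linarith)
  have s3 : shell (8 * r1 / 2) (2 * (8 * r1)) ⊆ shell r1 (r2 / 2) :=
    shell_mono (by linarith) (by linarith)
  obtain ⟨P, p1, p2, p3⟩ := hP Θ A (8 * r1) ((C + 1) * δ) (by linarith) (by positivity)
    (hΘ.sm.mono s3) fun x hx k hk => (hJ x hx k hk).trans (by gcongr; linarith)
  rw [← mul_assoc] at p1
  refine ⟨A, P, ⟨hT.t, hT.t', by linarith, by linarith, by linarith, by linarith,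
    p1.of_le (by norm_num), h3, fun x hx => ?_, fun γ hγ => ?_,
    fun γ hγ => ⟨_, (ι ⟨γ, hγ⟩).2, hAi ⟨γ, hγ⟩⟩,
    fun γ hγ => ⟨_, (ι.symm ⟨γ, hγ⟩).2, fun x => by simpa using hAi (ι.symm ⟨γ, hγ⟩) x⟩,
    fun p hp' => ?_, fun p hp' => ?_⟩, p1⟩
  · rw [p2 x hx]
    exact hΘ.eq x (shell_mono (by linarith) (by linarith) hx)
  · exact p3 γ (ι ⟨γ, hγ⟩).1 (hAi ⟨γ, hγ⟩) fun x hx => hι ⟨γ, hγ⟩ x (s3 hx)
  · by_cases h5 : p ∈ N.Om (5 * r1 / 2)
    · exact Om_mono _ (by linarith) ((hT.c (5 * r1) ⟨by linarith, by linarith⟩).1 h5)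
    obtain h6 | ⟨x, hx, rfl⟩ := hp'
    · exact absurd (Or.inl h6) h5
    have h7 : 5 * r1 / 2 ≤ ‖x‖ := not_lt.1 fun h => h5 (Or.inr ⟨x, ⟨hx.1, h⟩, rfl⟩)
    have h8 : x ∈ shell (2 * r1) (16 * r1) := ⟨by linarith, by linarith [hx.2]⟩
    exact Or.inr ⟨Θ x, ⟨(hΘ.mem x (s2 h8)).1, by linarith [(abs_le.1 (S x h8)).2, hx.2]⟩,
      hΘ.eq x (s2 h8)⟩
  · by_cases h5 : p ∈ N'.Om (8 * r1 / 2)
    · exact (hT.c (8 * r1) ⟨by linarith, by linarith⟩).2 h5
    obtain h6 | ⟨y, hy, rfl⟩ := hp'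
    · exact absurd (Or.inl h6) h5
    have h7 : 8 * r1 / 2 ≤ ‖y‖ := not_lt.1 fun h => h5 (Or.inr ⟨y, ⟨hy.1, h⟩, rfl⟩)
    have h9 := hy.2
    obtain ⟨x, hx, e, lo, hi⟩ := hT.symm.pt (x := y) ⟨by linarith, by linarith⟩
    refine Or.inr ⟨x, ⟨hx.1, not_le.1 fun h => ?_⟩, e⟩
    have h8 : x ∈ shell (2 * r1) (16 * r1) := ⟨by linarith, by linarith⟩
    have := norm_eq_of hT.t' (hΘ.mem x (s2 h8)) ⟨hy.1, by linarith⟩ ((hΘ.eq x (s2 h8)).trans e)
    linarith [(abs_le.1 (S x h8)).1]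

/-- **gluing of two necks** -/
theorem glue (M : Type*) [TopologicalSpace M] [ChartedSpace E4 M] [IsManifold 𝓘(ℝ, E4) ∞ M]
    [T3Space M] [ConnectedSpace M] [MeasurableSpace M] [BorelSpace M] : T.GLUE M := by
  obtain ⟨η0, C, hη0, hC, hG⟩ := exists_gd (M := M)
  obtain ⟨Cr, hCr, hrot⟩ := G.jg_rot (M := M) 1
  obtain ⟨Cp, hCp, hpert⟩ := G.jg_pert (M := M) 1
  set K : ℝ := 8 * C * Cr with hK
  have k1 : Cr ≤ K := le_mul_of_one_le_left (by linarith) (by linarith)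
  have k2 : 4 * Cr ≤ K := by rw [hK]; gcongr; linarith
  have k3 : 8 * C ≤ K := le_mul_of_one_le_right (by linarith) hCr
  have k4 : K ≤ Cp * K := le_mul_of_one_le_left (by linarith) hCp
  refine ⟨min η0 (1 / K), Cp * K, lt_min hη0 (by rw [one_div, inv_pos]; linarith), by linarith,
    fun g N N' V V' δ r1 r2 t t' h0 h1 R R' a a' b b' hr c => ?_⟩
  have hT : Two N N' r1 r2 := ⟨t, t', a, a', b, b', hr, c⟩
  have h2 : K * δ ≤ 1 := by
    have := h1.trans (min_le_right _ _)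
    rwa [le_div_iff₀' (by linarith)] at this
  obtain ⟨A, P, h, hP⟩ := hG g N N' δ r1 r2 hT h0 (h1.trans (min_le_left _ _)) R.jet R'.jet
  set r := 8 * r1 with hrd
  have hp := h.pos
  have hb := h.b
  have ha' := h.a'
  refine ⟨glN N N' r A P, h.top, rfl, rfl, rfl, ⟨fun x hx => ?_, R.vol⟩,
    fun s hs => h.om_out (by linarith [hs.1])⟩
  have rot : ∀ y ∈ shell N'.a N'.b, JG 2 (g.pm fun z => N'.Ψ (A z)) y ‖y‖ (Cr * δ) := fun y hy =>
    hrot g N'.Ψ _ A y _ δ t'.par (shell_iso A hy) (t'.a_pos.trans hy.1)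
      (by simpa only [A.norm_map] using R'.jet _ (shell_iso A hy))
  by_cases k1' : ‖x‖ < r
  · refine G.jg_mono (G.jg_congr (R.jet x ⟨hx.1, by linarith⟩) (G.pm_ev_congr g ?_))
      (le_mul_of_one_le_left h0 (by linarith))
    filter_upwards [continuous_norm.continuousAt.eventually (gt_mem_nhds k1')] with y hy
    exact h.inn hy
  push Not at k1'
  by_cases k2' : 3 / 2 * r < ‖x‖
  · refine G.jg_mono (G.jg_congr (rot x ⟨by linarith, hx.2⟩) (G.pm_ev_congr g ?_))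
      (by gcongr; linarith)
    filter_upwards [continuous_norm.continuousAt.eventually (lt_mem_nhds k2')] with y hy
    rw [h.out (by linarith), hP.zero y hy.le, add_zero]
  push Not at k2'
  have h5 : r / 2 < ‖x‖ := by linarith
  have hm : x + P x ∈ shell N'.a N'.b :=
    h.pert.mem hp h.eps (by linarith) (by linarith [h.b']) ⟨h5, hx.2⟩
  have hv : ‖x‖ ≤ 2 * ‖x + P x‖ := by
    have h6 := h.pert.val h5
    have h7 := norm_sub_le (x + P x) (P x)
    rw [add_sub_cancel_right] at h7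
    nlinarith [h.eps]
  rw [mul_assoc]
  refine G.jg_congr (hpert g _ _ P x ‖x‖ (K * δ) h.par2 hm (by linarith) h2
    (G.jg_of_jb fun i j => ((G.jb_of_jg (G.pm_smooth g h.par2 hm) (rot _ hm) i j).scale
      (norm_nonneg _) (norm_nonneg _) one_le_two hv).mono ?_)
    (((hP.jb x h5).scale hp.le (norm_nonneg _) one_le_two (by linarith)).mono ?_))
    (G.pm_ev_congr g ?_)
  · nlinarith
  · have : C * δ * r ≤ C * δ * ‖x‖ := by gcongr
    have h6 : 8 * C * (δ * ‖x‖) ≤ K * (δ * ‖x‖) := by gcongr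
    nlinarith
  · filter_upwards [continuous_norm.continuousAt.eventually (lt_mem_nhds h5)] with y hy
    exact h.out hy

end Crest.Agent.N207.TR

end
end

-- ▼ part N207/T/ClB
section

/-!
# Row 207 (helper36): clusters at a fixed time
-/

set_option autoImplicit false
set_option linter.unusedSectionVars false

open scoped ContDiff Topology
open Set MeasureTheory Filter

noncomputable section

namespace Crest.Agent.N207.T

variable {M : Type*} [TopologicalSpace M] [CompactSpace M] [MeasurableSpace M]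
  [OpensMeasurableSpace M] {H : HC M}

/-- maximal separated families -/
theorem exists_net {X : Type*} (d : X → X → ℝ) (hs : ∀ x y, d x y = d y x) (h0 : ∀ x, d x x = 0)
    (S : Set X) {r : ℝ} (hr : 0 < r) (n : ℕ) (hn : ∀ F : Finset X, (∀ w ∈ F, w ∈ S) →
      (∀ w ∈ F, ∀ w' ∈ F, w ≠ w' → r ≤ d w w') → F.card ≤ n) :
    ∃ F : Finset X, (∀ w ∈ F, w ∈ S) ∧ (∀ w ∈ F, ∀ w' ∈ F, w ≠ w' → r ≤ d w w') ∧
      ∀ y ∈ S, ∃ w ∈ F, d w y < r := by
  classical
  let P : ℕ → Prop := fun k => ∃ F : Finset X, (∀ w ∈ F, w ∈ S) ∧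
    (∀ w ∈ F, ∀ w' ∈ F, w ≠ w' → r ≤ d w w') ∧ F.card = k
  obtain ⟨F, f1, f2, f3⟩ : P (Nat.findGreatest P n) :=
    Nat.findGreatest_spec (Nat.zero_le n) ⟨∅, by simp, by simp, rfl⟩
  refine ⟨F, f1, f2, fun y hy => ?_⟩
  by_contra hc
  push Not at hc
  have hyF : y ∉ F := fun h => by have := hc y h; rw [h0] at this; linarith
  have g1 : ∀ w ∈ insert y F, w ∈ S := fun w hw => by
    rcases Finset.mem_insert.1 hw with rfl | h
    exacts [hy, f1 w h]
  have g2 : ∀ w ∈ insert y F, ∀ w' ∈ insert y F, w ≠ w' → r ≤ d w w' := fun w hw w' hw' e => by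
    rcases Finset.mem_insert.1 hw with rfl | h <;> rcases Finset.mem_insert.1 hw' with rfl | h'
    exacts [absurd rfl e, hs w w' ▸ hc w' h', hc w h, f2 w h w' h' e]
  have := Nat.le_findGreatest (P := P) (hn _ g1 g2) ⟨_, g1, g2, rfl⟩
  rw [Finset.card_insert_of_notMem hyF] at this
  omega

theorem exists_drop {f : ℕ → ℝ} {I : ℕ} (h0 : ∀ i, 0 ≤ f i) (hI : f 0 < I) :
    ∃ i < I, f i - f (i + 1) < 1 := by
  by_contra hc
  push Not at hc
  have : ∀ i ≤ I, f i + i ≤ f 0 := fun i hi => by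
    induction i with
    | zero => simp
    | succ i ih => have := ih (by omega); have := hc i (by omega); push_cast; linarith
  linarith [this I le_rfl, h0 I]

theorem clB (h : H.Ok) : CL H := by
  classical
  intro ε ε2 K E n0 hε hε2 hK
  set N0 := ⌊E / ε⌋₊ with hN0
  obtain ⟨I, hI⟩ := exists_nat_gt ((N0 : ℝ) * N0 + N0 * (|E| / ε2) + N0 * n0)
  have q1 : 1 ≤ 4 * K ^ 2 := by nlinarith
  refine ⟨1 / (2 * (4 * K ^ 2) ^ I), by positivity, fun t ht hE U r Bad hr hBad => ?_⟩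
  set g := 1 / (2 * (4 * K ^ 2) ^ I) with hg
  have g0 : 0 < g := by positivity
  have card_le : ∀ F : Finset M, (∀ w ∈ F, ε < H.en t w (g * r)) →
      (∀ w ∈ F, ∀ w' ∈ F, w ≠ w' → 2 * (g * r) ≤ H.d t w w') → F.card * ε ≤ E := fun F f1 f2 =>
    calc (F.card : ℝ) * ε = ∑ _w ∈ F, ε := by simp
      _ ≤ ∑ w ∈ F, H.en t w (g * r) := Finset.sum_le_sum fun w hw => (f1 w hw).le
      _ ≤ E := (sum_en_le h ht F (W := univ) f2 fun _ _ => subset_univ _).trans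
          ((intN_le h ht _).trans hE)
  obtain ⟨F0, f1, f2, f3⟩ := exists_net (H.d t) (h.dist.symm t ht) (h.dist.self t ht)
    {y | y ∈ U ∧ ε < H.en t y (g * r)} (r := 2 * (g * r)) (by positivity) N0 fun F f1 f2 =>
      Nat.le_floor (by rw [le_div_iff₀ hε]; exact card_le F (fun w hw => (f1 w hw).2) f2)
  have c0 := card_le F0 (fun w hw => (f1 w hw).2) f2
  have c1 : F0.card ≤ N0 := Nat.le_floor (by rw [le_div_iff₀ hε]; exact c0)
  have c2 : (F0.card : ℝ) ≤ N0 := by exact_mod_cast c1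
  let R : ℕ → ℝ := fun i => r / (4 * K ^ 2) ^ i
  have R0 : ∀ i, 0 < R i := fun i => by positivity
  have Rs : ∀ i, R i = 4 * K ^ 2 * R (i + 1) := fun i => by
    simp only [R, pow_succ]; field_simp
  have Ra : ∀ i, R (i + 1) ≤ R i := fun i => by
    rw [Rs i]; exact le_mul_of_one_le_left (R0 _).le q1
  let A : ℕ → Finset (M × M) := fun i => (F0 ×ˢ F0).filter fun p => H.d t p.1 p.2 < R i
  let C : ℕ → M → Finset ℤ := fun i w => (Bad w).filter fun j => (2 : ℝ) ^ j ≤ R i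
  have en0 : ∀ w s, 0 ≤ H.en t w s := fun w s => HC.en_nonneg h.evo ht w s
  obtain ⟨i, hi, hd⟩ := exists_drop (I := I) (f := fun i => (A i).card +
      ∑ w ∈ F0, H.en t w (R i) / ε2 + ∑ w ∈ F0, ((C i w).card : ℝ))
    (fun i => by
      exact add_nonneg (add_nonneg (Nat.cast_nonneg _)
        (Finset.sum_nonneg fun w _ => div_nonneg (en0 w (R i)) hε2.le))
        (Finset.sum_nonneg fun w _ => Nat.cast_nonneg _)) (by
      refine lt_of_le_of_lt (add_le_add (add_le_add ?_ ?_) ?_) hI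
      · have : (A 0).card ≤ N0 * N0 := (Finset.card_filter_le _ _).trans
          (by rw [Finset.card_product]; exact Nat.mul_le_mul c1 c1)
        exact_mod_cast this
      · refine (Finset.sum_le_card_nsmul _ _ (|E| / ε2) fun w _ => ?_).trans ?_
        · gcongr
          exact (intN_le h ht _).trans (hE.trans (le_abs_self E))
        · rw [nsmul_eq_mul]; gcongr
      · refine (Finset.sum_le_card_nsmul _ _ (n0 : ℝ) fun w _ => ?_).trans ?_
        · exact_mod_cast (Finset.card_filter_le _ _).trans (hBad w)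
        · rw [nsmul_eq_mul]; gcongr)
  have sA : A (i + 1) ⊆ A i := fun p hp =>
    Finset.mem_filter.2 ⟨(Finset.mem_filter.1 hp).1, (Finset.mem_filter.1 hp).2.trans_le (Ra i)⟩
  have sC : ∀ w, C (i + 1) w ⊆ C i w := fun w j hj =>
    Finset.mem_filter.2 ⟨(Finset.mem_filter.1 hj).1, (Finset.mem_filter.1 hj).2.trans (Ra i)⟩
  have d1 : ((A (i + 1)).card : ℝ) ≤ (A i).card := by exact_mod_cast Finset.card_le_card sA
  have m2 : ∀ w, 0 ≤ H.en t w (R i) / ε2 - H.en t w (R (i + 1)) / ε2 := fun w =>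
    sub_nonneg.2 (by gcongr; exact en_mono h ht w (Ra i))
  have m3 : ∀ w, 0 ≤ ((C i w).card : ℝ) - (C (i + 1) w).card := fun w =>
    sub_nonneg.2 (by exact_mod_cast Finset.card_le_card (sC w))
  have d2 := Finset.sum_nonneg fun w (_ : w ∈ F0) => m2 w
  have d3 := Finset.sum_nonneg fun w (_ : w ∈ F0) => m3 w
  have e2 := fun w (hw : w ∈ F0) => Finset.single_le_sum (fun w _ => m2 w) hw
  have e3 := fun w (hw : w ∈ F0) => Finset.single_le_sum (fun w _ => m3 w) hw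
  simp only [Finset.sum_sub_distrib] at d2 d3 e2 e3
  have eA : A (i + 1) = A i := Finset.eq_of_subset_of_card_le sA (by
    have : ((A i).card : ℝ) < (A (i + 1)).card + 1 := by linarith
    have : (A i).card < (A (i + 1)).card + 1 := by exact_mod_cast this
    omega)
  have eC : ∀ w ∈ F0, C (i + 1) w = C i w := fun w hw => Finset.eq_of_subset_of_card_le (sC w) (by
    have : ((C i w).card : ℝ) < (C (i + 1) w).card + 1 := by linarith [e3 w hw]
    have : (C i w).card < (C (i + 1) w).card + 1 := by exact_mod_cast this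
    omega)
  obtain ⟨F, g1, g2, g3⟩ := exists_net (H.d t) (h.dist.symm t ht) (h.dist.self t ht)
    (F0 : Set M) (R0 i) F0.card fun F f1 _ => Finset.card_le_card f1
  have K0 : 0 < K := by linarith
  have e1 : K * (R i / (2 * K)) = R i / 2 := by field_simp
  have e4 : R i / (2 * K) / K = 2 * R (i + 1) := by rw [Rs i]; field_simp; ring
  have e5 : R i / (2 * K) = K * (2 * R (i + 1)) := by rw [Rs i]; field_simp; ring
  have gr : 2 * (g * r) ≤ R (i + 1) := by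
    have a1 : 2 * (g * r) = r / (4 * K ^ 2) ^ I := by rw [hg]; field_simp
    rw [a1]
    exact div_le_div_of_nonneg_left hr.le (by positivity) (pow_le_pow_right₀ q1 hi)
  have gr0 : 0 < g * r := by positivity
  refine ⟨F, R i / (2 * K), fun w hw => (f1 w (g1 w hw)).1, ?_, ?_, ?_,
    fun w hw => (f1 w (g1 w hw)).2, fun w hw w' hw' e => ?_, fun w hw => ?_, fun w hw j hj => ?_,
    fun y hy hc => ?_⟩
  · rw [e5]; exact mul_le_mul_of_nonneg_left (by linarith [R0 (i + 1)]) K0.le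
  · rw [e1]
    have : R i ≤ r := div_le_self hr.le (one_le_pow₀ q1)
    linarith [R0 i]
  · refine le_trans ?_ c0
    gcongr
    exact g1
  · rw [e1]; linarith [g2 w hw w' hw' e]
  · rw [e1, e4]
    have a1 := en_mono h ht w (show R i / 2 ≤ R i by linarith [R0 i])
    have a2 := en_mono h ht w (show R (i + 1) ≤ 2 * R (i + 1) by linarith [R0 (i + 1)])
    have a3 : H.en t w (R i) / ε2 - H.en t w (R (i + 1)) / ε2 < 1 := by linarith [e2 w (g1 w hw)]
    rw [← sub_div, div_lt_one hε2] at a3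
    linarith
  · rw [e1, e4]
    by_contra hc
    push Not at hc
    have a1 : j ∈ C i w := Finset.mem_filter.2 ⟨hj, by linarith [hc.2, R0 i]⟩
    rw [← eC w (g1 w hw)] at a1
    linarith [(Finset.mem_filter.1 a1).2, hc.1, R0 (i + 1)]
  · by_contra hy2
    obtain ⟨w0, hw0, a1⟩ := f3 y ⟨hy, not_le.1 hy2⟩
    obtain ⟨w, hw, a2⟩ := g3 w0 hw0
    have a3 : (w, w0) ∈ A i := Finset.mem_filter.2 ⟨Finset.mem_product.2 ⟨g1 w hw, hw0⟩, a2⟩
    rw [← eA] at a3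
    have a4 : H.d t w w0 < R (i + 1) := (Finset.mem_filter.1 a3).2
    have a5 := h.dist.tri t ht w w0 y
    have a6 := hc w hw
    rw [e5] at a6
    nlinarith [R0 (i + 1)]

end Crest.Agent.N207.T

end
end

-- ▼ part N207/T/Ctx
section

/-!
# Row 207 (helper65): block TOP, the leaf `CTX`
-/

set_option autoImplicit false
set_option linter.unusedSectionVars false

open scoped ContDiff Topology
open Set MeasureTheory Filter

noncomputable section

namespace Crest.Agent.N207.T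

/-- the majorant `√(K ∫_{t-h}^t Y)` -/
theorem zeta_int {s τ q h K δ : ℝ} {Y : ℝ → ℝ} (hs : s ≤ τ) (h0 : 0 ≤ h) (hh : h ≤ q)
    (hY : IntervalIntegrable Y volume (s - q) τ) (Y0 : ∀ t ∈ Icc (s - q) τ, 0 ≤ Y t) (hK : 0 ≤ K)
    (hδ : 0 < δ) (hb : K * h * ((τ - s) * ∫ t in (s - q)..τ, Y t) ≤ δ ^ 2) :
    ContinuousOn (fun t => √(K * ∫ u in (t - h)..t, Y u)) (Icc s τ) ∧
      ∫ t in s..τ, √(K * ∫ u in (t - h)..t, Y u) ≤ δ := by
  have hq : s - q ≤ τ := by linarith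
  set P : ℝ → ℝ := fun t => ∫ u in (s - q)..t, Y u with hP
  have cP : ContinuousOn P (Icc (s - q) τ) := by
    have := intervalIntegral.continuousOn_primitive_interval' hY left_mem_uIcc
    rwa [uIcc_of_le hq] at this
  have iY : ∀ t ∈ Icc (s - q) τ, IntervalIntegrable Y volume (s - q) t := fun t ht =>
    hY.mono_set (uIcc_subset_uIcc left_mem_uIcc (by rwa [uIcc_of_le hq]))
  have e : ∀ t ∈ Icc s τ, ∫ u in (t - h)..t, Y u = P t - P (t - h) := fun t ht =>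
    (intervalIntegral.integral_interval_sub_left (iY t ⟨by linarith [ht.1], ht.2⟩)
      (iY _ ⟨by linarith [ht.1], by linarith [ht.2]⟩)).symm
  have c1 : ContinuousOn P (Icc s τ) := cP.mono (Icc_subset_Icc (by linarith) le_rfl)
  have c2 : ContinuousOn (fun t => P (t - h)) (Icc s τ) :=
    cP.comp (by fun_prop) fun t ht => ⟨by linarith [ht.1], by linarith [ht.2]⟩
  have cZ : ContinuousOn (fun t => K * ∫ u in (t - h)..t, Y u) (Icc s τ) :=
    continuousOn_const.mul ((c1.sub c2).congr e)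
  refine ⟨cZ.sqrt, ?_⟩
  rcases hs.eq_or_lt with rfl | hlt
  · simpa using hδ.le
  have P0 : ∀ t ∈ Icc (s - q) τ, 0 ≤ P t := fun t ht =>
    intervalIntegral.integral_nonneg ht.1 fun u hu => Y0 u ⟨hu.1, hu.2.trans ht.2⟩
  have P1 : ∀ t ∈ Icc (s - q) τ, P t ≤ P τ := fun t ht =>
    intervalIntegral.integral_mono_interval le_rfl ht.1 ht.2
      ((ae_restrict_mem measurableSet_Ioc).mono fun u hu => Y0 u (Ioc_subset_Icc_self hu)) hY
  have iP : ∀ a ∈ Icc (s - q) τ, ∀ b ∈ Icc (s - q) τ, IntervalIntegrable P volume a b :=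
    fun a ha b hb => (cP.mono (uIcc_subset_Icc ha hb)).intervalIntegrable
  have m1 : s ∈ Icc (s - q) τ := ⟨by linarith, hs⟩
  have m2 : τ ∈ Icc (s - q) τ := ⟨hq, le_rfl⟩
  have m3 : s - h ∈ Icc (s - q) τ := ⟨by linarith, by linarith⟩
  have m4 : τ - h ∈ Icc (s - q) τ := ⟨by linarith, by linarith⟩
  have k1 : ∫ t in s..τ, (P t - P (t - h)) ≤ h * P τ := by
    rw [intervalIntegral.integral_sub (iP _ m1 _ m2) (c2.intervalIntegrable_of_Icc hs),
      intervalIntegral.integral_comp_sub_right P h,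
      intervalIntegral.integral_interval_sub_interval_comm' (iP _ m1 _ m2) (iP _ m3 _ m4)
        (iP _ m1 _ m3)]
    have a1 : 0 ≤ ∫ t in (s - h)..s, P t := intervalIntegral.integral_nonneg (by linarith)
      fun u hu => P0 u ⟨m3.1.trans hu.1, hu.2.trans hs⟩
    have a2 := intervalIntegral.integral_mono_on (by linarith) (iP _ m4 _ m2)
      (intervalIntegrable_const (c := P τ)) fun u hu => P1 u ⟨m4.1.trans hu.1, hu.2⟩
    rw [intervalIntegral.integral_const, smul_eq_mul] at a2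
    linarith
  have l0 : 0 < τ - s := sub_pos.2 hlt
  have k2 : ∫ t in s..τ, √(K * ∫ u in (t - h)..t, Y u) ≤
      ∫ t in s..τ, ((τ - s) * K / (2 * δ) * (P t - P (t - h)) + δ / (2 * (τ - s))) := by
    refine intervalIntegral.integral_mono_on hs (cZ.sqrt.intervalIntegrable_of_Icc hs)
      (((continuousOn_const.mul (c1.sub c2)).add continuousOn_const).intervalIntegrable_of_Icc hs)
      fun t ht => ?_
    rw [← e t ht]
    have z0 : 0 ≤ K * ∫ u in (t - h)..t, Y u := mul_nonneg hK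
      (intervalIntegral.integral_nonneg (by linarith) fun u hu =>
        Y0 u ⟨by linarith [hu.1, ht.1], hu.2.trans ht.2⟩)
    have a := Real.sq_sqrt z0
    have b : (τ - s) * K / (2 * δ) * (∫ u in (t - h)..t, Y u) + δ / (2 * (τ - s)) -
        √(K * ∫ u in (t - h)..t, Y u) =
        (τ - s) / (2 * δ) * (√(K * ∫ u in (t - h)..t, Y u) - δ / (τ - s)) ^ 2 := by
      rw [sub_sq, a]; field_simp; ring
    have : 0 ≤ (τ - s) / (2 * δ) * (√(K * ∫ u in (t - h)..t, Y u) - δ / (τ - s)) ^ 2 := by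
      positivity
    linarith
  have j : IntervalIntegrable (fun t => (τ - s) * K / (2 * δ) * (P t - P (t - h))) volume s τ :=
    (continuousOn_const.mul (c1.sub c2)).intervalIntegrable_of_Icc hs
  rw [intervalIntegral.integral_add j intervalIntegrable_const,
    intervalIntegral.integral_const_mul, intervalIntegral.integral_const, smul_eq_mul] at k2
  have k3 := mul_le_mul_of_nonneg_left k1 (show 0 ≤ (τ - s) * K / (2 * δ) by positivity)
  have k4 : (τ - s) * K / (2 * δ) * (h * P τ) ≤ δ / 2 := by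
    rw [div_mul_eq_mul_div, div_le_iff₀ (by positivity)]
    simp only [hP]; nlinarith
  have k5 : (τ - s) * (δ / (2 * (τ - s))) = δ / 2 := by field_simp
  linarith

variable {M : Type*} [TopologicalSpace M] [CompactSpace M] [MeasurableSpace M]
  [OpensMeasurableSpace M] {H : HC M}

theorem mem_B_self (h : H.Ok) {t : ℝ} (ht : t ∈ Ioo 0 H.T) (x : M) {r : ℝ} (hr : 0 < r) :
    x ∈ H.B t x r := by
  show H.d t x x < r
  rwa [h.dist.self t ht]

/-- the space-time integral of `|Ric|²` over a fixed ball -/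
theorem int_Q_le (h : H.Ok) {a t r : ℝ} (st : H.St a t) {y : M} {Y : ℝ → ℝ} {S : ℝ → Set M}
    (hY : IntervalIntegrable Y volume a t) (hS : ∀ u ∈ Icc a t, H.B t y r ⊆ S u)
    (hQ : ∀ u ∈ Icc a t, ∫ v in S u, H.Q 0 u v ∂H.vol u ≤ Y u) :
    ∫ u in a..t, ∫ v in H.B t y r, H.Q 0 u v ∂H.vol u ≤ ∫ u in a..t, Y u := by
  refine intervalIntegral.integral_mono_on st.2.1.le (E.ball_ii h.alg h.int h.dist st
    (h.alg.sm_Q 0 st) (fun σ hσ => h.evo.Q_nonneg 0 σ (st.mem hσ))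
    (st.mem (right_mem_Icc.2 st.2.1.le)) y r) hY fun u hu => le_trans ?_ (hQ u hu)
  exact setIntegral_mono_set
    (h.alg.integrable h.int (st.mem hu) (h.alg.s0_Q (st.mem hu) 0)).integrableOn
    (Eventually.of_forall fun v => h.evo.Q_nonneg 0 u (st.mem hu) v) (hS u hu).eventuallyLE

set_option maxHeartbeats 1600000 in
/-- **CTX** -/
theorem ctx (h : H.Ok) (c : H.COut) (hP : H.EPers) (hR : H.EReg) (h2 : TR2 H) : CTX H := by
  have T0 := half_pos h.alg.T_pos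
  obtain ⟨ε0, cE, rE, hε0, hcE, hrE, -, hk⟩ := hR _ T0
  choose Ck hCk hreg using hk
  obtain ⟨D, C2, hD, hC2, tr⟩ := h2
  obtain ⟨Cd, hCd, dl⟩ := c.dlo
  have C00 := hCk 0
  refine ⟨ε0, √(Ck 0 * (ε0 + 1)), fun k => √(Ck k / Ck 0), hε0, Real.sqrt_nonneg _,
    fun _ => Real.sqrt_nonneg _, by simp [div_self C00.ne'], fun εb hεb => ?_⟩
  obtain ⟨A, hA⟩ : ∃ A, A = √(Ck 0 * (ε0 + 1)) := ⟨_, rfl⟩
  obtain ⟨B1, hB1⟩ : ∃ B, B = √(Ck 1 / Ck 0) := ⟨_, rfl⟩
  have A0 : 0 ≤ A := hA ▸ Real.sqrt_nonneg _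
  have B0 : 0 ≤ B1 := hB1 ▸ Real.sqrt_nonneg _
  obtain ⟨cP, lam, rP, hcP, hl, hrP, pers⟩ := hP _ T0 (εb / 5) (by positivity)
  obtain ⟨E, hE, eE⟩ : ∃ E, 0 < E ∧ lam * E = D + 1 := ⟨(D + 1) / lam, by positivity, by field_simp⟩
  obtain ⟨cw, w0, w1, w2⟩ : ∃ cw, 0 < cw ∧ cw ≤ 1 ∧ cw ≤ cP * E ^ 2 :=
    ⟨min 1 (cP * E ^ 2), by positivity, min_le_left _ _, min_le_right _ _⟩
  refine ⟨εb / 5, 2 * D + 3, min 1 (cw / (2 * cE)), by positivity, by linarith, by positivity,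
    fun L hL => ⟨2 * (2 * E + 1 + D + 5 * L + Cd), by linarith, fun Kr hKr θ hθ δ hδ => ?_⟩⟩
  have θ0 := hθ.1
  have θ1 : θ ≤ 1 := hθ.2.trans (min_le_left _ _)
  have θ2 : θ * (2 * cE) ≤ cw := (le_div_iff₀ (by positivity)).1 (hθ.2.trans (min_le_right _ _))
  have K0 : 0 < Kr := by linarith
  obtain ⟨d, d0, d1, d2, d3⟩ : ∃ d, 0 < d ∧ d ≤ δ ∧ d ≤ 1 / 2 ∧
      d * (4 * (C2 * (A * B1 * (Kr / θ) ^ 3)) + 1) ≤ εb :=
    ⟨min (min δ (1 / 2)) (εb / (4 * (C2 * (A * B1 * (Kr / θ) ^ 3)) + 1)), by positivity,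
      (min_le_left _ _).trans (min_le_left _ _), (min_le_left _ _).trans (min_le_right _ _),
      (le_div_iff₀ (by positivity)).1 (min_le_right _ _)⟩
  refine ⟨d ^ 2 * θ ^ 4 / (Ck 0 * cE), min (min 1 rE) (min (rP / E) (εb / (4 * C2))),
    by positivity, by positivity,
    fun s τ a σ z Y hs hsτ hτ hr hσ hσa haσ ha hz iY hb => ?_⟩
  have a0 : 0 < a := hσ.trans_le hσa
  have a1 : a ≤ 1 := ha.trans ((min_le_left _ _).trans (min_le_left _ _))
  have a2 : a ≤ rE := ha.trans ((min_le_left _ _).trans (min_le_right _ _))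
  have a3 : a * E ≤ rP := (le_div_iff₀ hE).1 (ha.trans ((min_le_right _ _).trans (min_le_left _ _)))
  have a4 : a * (4 * C2) ≤ εb :=
    (le_div_iff₀ (by positivity)).1 (ha.trans ((min_le_right _ _).trans (min_le_right _ _)))
  have r1 : τ - s ≤ 1 := hr.trans ((min_le_left _ _).trans (min_le_left _ _))
  obtain ⟨C, hC⟩ : ∃ C, C = 2 * (2 * E + 1 + D + 5 * L + Cd) := ⟨_, rfl⟩
  rw [← hC] at hz
  obtain ⟨ρ, hρ⟩ : ∃ ρ, ρ = θ * σ := ⟨_, rfl⟩
  rw [← hρ, ← hA]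
  have ρ0 : 0 < ρ := by rw [hρ]; positivity
  have ρ1 : ρ ≤ a := by rw [hρ]; exact (mul_le_of_le_one_left hσ.le θ1).trans hσa
  have q0 : 0 < a ^ 2 := by positivity
  have q1 : 0 < cE * ρ ^ 2 := by positivity
  have q2 : cE * ρ ^ 2 ≤ cw * a ^ 2 / 2 := by
    have k1 : ρ ^ 2 ≤ θ * a ^ 2 := by
      rw [hρ, mul_pow]
      exact mul_le_mul (by rw [sq]; exact mul_le_of_le_one_left θ0.le θ1)
        (pow_le_pow_left₀ hσ.le hσa 2) (sq_nonneg _) θ0.le
    linarith [mul_le_mul_of_nonneg_left k1 hcE.le, mul_le_mul_of_nonneg_right θ2 q0.le]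
  have q3 : cw * a ^ 2 ≤ a ^ 2 := mul_le_of_le_one_left q0.le w1
  have mem : ∀ t ∈ Icc (s - a ^ 2) τ, t ∈ Ico (H.T / 2) H.T := fun t ht =>
    ⟨hs.trans ht.1, ht.2.trans_lt hτ⟩
  have mo : ∀ t ∈ Icc (s - a ^ 2) τ, t ∈ Ioo 0 H.T := fun t ht =>
    ⟨T0.trans_le (mem t ht).1, (mem t ht).2⟩
  have sub : ∀ t ∈ Icc s τ, t ∈ Icc (s - a ^ 2) τ := fun t ht => ⟨by linarith [ht.1], ht.2⟩
  have mτ := mo τ (sub τ ⟨hsτ, le_rfl⟩)
  have Y0 : ∀ t ∈ Icc (s - a ^ 2) τ, 0 ≤ Y t := fun t ht =>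
    (integral_nonneg fun y => h.evo.Q_nonneg 0 t (mo t ht) y).trans (hz t ht).2.2
  obtain ⟨cζ, iζ⟩ := zeta_int (h := cE * ρ ^ 2) (K := Ck 0 / ρ ^ 6) hsτ q1.le (by linarith) iY Y0
    (by positivity) d0 ((mul_le_mul_of_nonneg_left hb (by positivity)).trans_eq (by
      rw [hρ]; field_simp))
  set ζ : ℝ → ℝ := fun t => √(Ck 0 / ρ ^ 6 * ∫ u in (t - cE * ρ ^ 2)..t, Y u) with hζ
  have La : 2 * a ≤ L * a := mul_le_mul_of_nonneg_right hL a0.le
  have Ea : 0 < E * a := by positivity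
  have Da : 0 < D * a := by positivity
  have Cda : 0 < Cd * a := by positivity
  have eC : C * a = 2 * (2 * (E * a) + a + D * a + 5 * (L * a) + Cd * a) := by rw [hC]; ring
  have wC : z τ ∈ H.B τ (z τ) (C * a) := mem_B_self h mτ _ (by linarith)
  -- pointwise regularity
  have regp : ∀ t ∈ Icc s τ, ∀ y, H.en t y ρ ≤ ε0 →
      (∀ u ∈ Icc (t - cE * ρ ^ 2) t, H.d u (z u) y ≤ C * a / 2) →
      √(H.N 0 t y) ≤ A / ρ ^ 2 ∧ ∀ k, ρ ^ k * √(H.Q k t y) ≤ √(Ck k / Ck 0) * ζ t := by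
    intro t ht y hy hW
    have mt := mo t (sub t ht)
    have yB := mem_B_self h mt y (half_pos ρ0)
    have sb : Icc (t - cE * ρ ^ 2) t ⊆ Icc (s - a ^ 2) τ :=
      Icc_subset_Icc (by linarith [ht.1]) ht.2
    have st : H.St (t - cE * ρ ^ 2) t :=
      ⟨(mo _ (sb (left_mem_Icc.2 (by linarith)))).1, by linarith, mt.2⟩
    have iQ := int_Q_le h st (y := y) (r := ρ) (S := fun u => H.B u (z u) (C * a))
      (iY.mono_set (by
        rw [uIcc_of_le st.2.1.le, uIcc_of_le (by linarith)]; exact sb))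
      (fun u hu v hv => by
        have k1 := dl u t (mo u (sb hu)).1 hu.2 mt.2 y v
        have k2 : H.d t y v < ρ := hv
        have k3 : √(t - u) ≤ a := Real.sqrt_le_iff.2 ⟨a0.le, by linarith [hu.1]⟩
        have k4 := h.dist.tri u (mo u (sb hu)) (z u) y v
        have k5 := mul_le_mul_of_nonneg_left k3 hCd.le
        show H.d u (z u) v < C * a
        linarith [hW u hu])
      fun u hu => (hz u (sb hu)).2.2
    refine ⟨?_, fun k => ?_⟩
    · have k1 := ((hreg 0 t (mem t (sub t ht)) y ρ ρ0 (ρ1.trans a2) hy y yB).1 t mt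
        (by rw [sub_self, abs_zero]; exact q1.le)).1
      refine Real.sqrt_le_iff.2 ⟨by positivity, k1.trans ?_⟩
      rw [div_pow, hA, Real.sq_sqrt (by positivity), ← pow_mul]
      gcongr
      linarith
    · have k1 := ((hreg k t (mem t (sub t ht)) y ρ ρ0 (ρ1.trans a2) hy y yB).2).trans
        (mul_le_mul_of_nonneg_left iQ (by have := hCk k; positivity))
      have := hCk k
      rw [hζ, ← Real.sqrt_mul (by positivity), ← Real.sqrt_sq (pow_pos ρ0 k).le,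
        ← Real.sqrt_mul (sq_nonneg _)]
      refine Real.sqrt_le_sqrt ((mul_le_mul_of_nonneg_left k1 (sq_nonneg _)).trans_eq ?_)
      field_simp
      ring
  -- the state at time `t`
  obtain ⟨S, hS⟩ : ∃ S : ℝ → Prop, S = fun t => (∀ y, H.d τ (z τ) y < 2 * L * a →
      H.d t (z τ) y ≤ (D + 5 * L) * a) ∧ εb / 2 ≤ H.en t (z τ) ((D + 1) * a) := ⟨_, rfl⟩
  have regS : ∀ t ∈ Icc s τ, Reg H t τ {y | a ≤ H.d τ (z τ) y ∧ H.d τ (z τ) y < 2 * L * a} ζ
      (A / ρ ^ 2) (B1 / ρ) → S t := by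
    intro t ht R
    have mt := R.mem_a
    have i1 : ∫ u in t..τ, ζ u ≤ d := le_trans (intervalIntegral.integral_mono_interval ht.1 ht.2
      le_rfl (Eventually.of_forall fun u => Real.sqrt_nonneg _)
      (cζ.intervalIntegrable_of_Icc hsτ)) iζ
    have ex : Real.exp (∫ u in t..τ, ζ u) ≤ 2 := by
      refine (Real.exp_le_exp.2 (i1.trans d2)).trans ?_
      have := Real.exp_one_lt_three
      have e : Real.exp (1 / 2) * Real.exp (1 / 2) = Real.exp 1 := by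
        rw [← Real.exp_add]; norm_num
      nlinarith [Real.exp_pos (1 / 2)]
    obtain ⟨t1, -, t3⟩ := tr R (mem t (sub t ht)).1 (by linarith [ht.1]) (by positivity)
      (by positivity) ex (z τ) a a0 a1 fun x x1 x2 => ⟨x1.le, by linarith⟩
    rw [hS]
    refine ⟨fun y hy => ?_, ?_⟩
    · obtain ⟨x, x1, x2⟩ := reach h mt mτ two_pos (R.cp h ex).2 a0 (fun x x1 x2 => ⟨x1, x2⟩) hy
        (D := 5 * L * a) (by linarith)
      have k1 := h.dist.tri t mt (z τ) x y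
      rw [h.dist.symm t mt x y] at k1
      linarith [t1 x (by linarith)]
    · have k1 : ∫ x in H.B τ (z τ) (2 * a), H.N 0 t x ∂H.vol t ≤ H.en t (z τ) ((D + 1) * a) :=
        setIntegral_mono_set (h.alg.integrable h.int mt (h.alg.s0_N mt 0)).integrableOn
          (Eventually.of_forall fun v => h.evo.N_nonneg 0 t mt v)
          (HasSubset.Subset.eventuallyLE fun x hx =>
            show H.d t (z τ) x < _ by linarith [t1 x hx])
      have k2 : A / ρ ^ 2 * (B1 / ρ) * a ^ 3 ≤ A * B1 * (Kr / θ) ^ 3 := by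
        have : a / ρ ≤ Kr / θ := by
          rw [div_le_div_iff₀ ρ0 θ0, hρ]; linarith [mul_le_mul_of_nonneg_right haσ θ0.le]
        calc _ = A * B1 * (a / ρ) ^ 3 := by field_simp
          _ ≤ _ := by gcongr
      have k3 := mul_le_mul k2 i1 R.int_nonneg (by positivity)
      have k4 := mul_le_mul_of_nonneg_left k3 hC2.le
      have k5 : C2 * a ^ 2 ≤ C2 * a := by
        rw [sq]; exact mul_le_mul_of_nonneg_left (mul_le_of_le_one_left a0.le a1) hC2.le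
      linarith [(hz τ (sub τ ⟨hsτ, le_rfl⟩)).1]
  have SW : ∀ t ∈ Icc s τ, S t → ∀ u, t - cw * a ^ 2 ≤ u → u ≤ t → ∀ y,
      H.d τ (z τ) y < 2 * L * a → H.d u (z u) y ≤ C * a / 2 := by
    intro t ht hSt u u1 u2 y hy
    rw [hS] at hSt
    have mu : u ∈ Icc (s - a ^ 2) τ := ⟨by linarith [ht.1], u2.trans ht.2⟩
    have mt := mo t (sub t ht)
    have k1 : εb / 5 < H.en u (z τ) (E * a) := by
      by_contra k
      have := pers u (mem u mu) (z τ) (E * a) Ea (by linarith) (not_lt.1 k) t mt (by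
        rw [abs_of_nonneg (sub_nonneg.2 u2), mul_pow]
        linarith [mul_le_mul_of_nonneg_right w2 q0.le])
      rw [← mul_assoc, eE] at this
      linarith [hSt.2]
    have k2 := (hz u mu).2.1 _ wC _ (mem_B_self h (mo u mu) _ (by linarith)) _ Ea (by linarith) k1
    have k3 := dl u t (mo u mu).1 u2 mt.2 (z τ) y
    have k4 : √(t - u) ≤ a := Real.sqrt_le_iff.2 ⟨a0.le, by linarith⟩
    have k5 := mul_le_mul_of_nonneg_left k4 hCd.le
    have k6 := h.dist.tri u (mo u mu) (z u) (z τ) y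
    linarith [hSt.1 y hy]
  refine ⟨ζ, cζ, fun t _ => Real.sqrt_nonneg _, iζ.trans d1, fun t1 ht1 hA' => ?_⟩
  have mkR : ∀ t ∈ Icc t1 τ, (∀ u ∈ Ioo t τ, ∀ v ∈ Icc (u - cE * ρ ^ 2) u, ∀ y,
      H.d τ (z τ) y < 2 * L * a → H.d v (z v) y ≤ C * a / 2) → S t := by
    intro t ht hW
    have ht' : t ∈ Icc s τ := ⟨ht1.1.trans ht.1, ht.2⟩
    have k : ∀ u ∈ Ioo t τ, ∀ y ∈ {y | a ≤ H.d τ (z τ) y ∧ H.d τ (z τ) y < 2 * L * a}, _ :=
      fun u hu y hy => regp u ⟨ht'.1.trans hu.1.le, hu.2.le⟩ y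
        (hA' u ⟨ht.1.trans_lt hu.1, hu.2.le⟩ y hy.1 hy.2) fun v hv => hW u hu v hv y hy.2
    refine regS t ht' ⟨(mo t (sub t ht')).1, ht.2, hτ, cζ.mono (Icc_subset_Icc ht'.1 le_rfl),
      fun u _ => Real.sqrt_nonneg _, fun u hu y hy => ?_, fun u hu y hy => ?_,
      fun u hu y hy => (k u hu y hy).1⟩
    · simpa [div_self C00.ne'] using (k u hu y hy).2 0
    · have := (k u hu y hy).2 1
      rw [pow_one, ← hB1] at this
      rw [div_mul_eq_mul_div, le_div_iff₀ ρ0]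
      linarith
  have boot : ∀ n : ℕ, ∀ t ∈ Icc t1 τ, τ - n * (cw * a ^ 2 / 2) ≤ t → S t := by
    intro n
    induction n with
    | zero =>
      intro t ht h0
      refine mkR t ht fun u hu => absurd (hu.1.trans hu.2) ?_
      simpa using h0
    | succ n ih =>
      intro t ht h0
      refine mkR t ht fun u hu v hv => ?_
      have n0 : 0 ≤ n * (cw * a ^ 2 / 2) := by positivity
      have m1 : max u (τ - n * (cw * a ^ 2 / 2)) ∈ Icc t1 τ :=
        ⟨(ht.1.trans hu.1.le).trans (le_max_left _ _), max_le hu.2.le (by linarith)⟩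
      push_cast at h0
      refine SW _ ⟨ht1.1.trans m1.1, m1.2⟩ (ih _ m1 (le_max_right _ _)) v ?_
        (hv.2.trans (le_max_left _ _))
      have : max u (τ - n * (cw * a ^ 2 / 2)) ≤ v + cw * a ^ 2 :=
        max_le (by linarith [hv.1]) (by linarith [hv.1, hu.1])
      linarith
  have all : ∀ t ∈ Icc t1 τ, S t := fun t ht => by
    obtain ⟨n, hn⟩ := exists_nat_ge ((τ - t) / (cw * a ^ 2 / 2))
    rw [div_le_iff₀ (by positivity)] at hn
    exact boot n t ht (by linarith)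
  refine ⟨fun t ht => ?_, fun t ht y hy he => ?_⟩
  · have ht' := sub t ⟨ht1.1.trans ht.1, ht.2⟩
    have k := all t ht
    rw [hS] at k
    have := (hz t ht').2.1 _ wC _ (mem_B_self h (mo t ht') _ (by linarith)) ((D + 1) * a)
      (by positivity) (by linarith) (by linarith [k.2])
    linarith
  · have ht' : t ∈ Icc s τ := ⟨ht1.1.trans ht.1.le, ht.2⟩
    exact regp t ht' y he fun u hu =>
      SW t ht' (all t (Ioc_subset_Icc_self ht)) u (by linarith [hu.1]) hu.2 y hy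

end Crest.Agent.N207.T

end
end

-- ▼ part N207/T/Wd1
section

/-!
# Row 207 (helper69): block TOP, leaf `WD`, part 1: small kit
-/

set_option autoImplicit false
set_option linter.unusedSectionVars false

open scoped ContDiff Manifold Topology
open Set MeasureTheory Filter
open Crest.GeometryTopology.CoordMetric Crest.GeometryTopology.ChartCurvature
  Crest.GeometryTopology.MetricFamily

noncomputable section

namespace Crest.Agent.N207.T.W

open Sk Rad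

theorem wt_two {a b : ℝ} (ha : 0 < a) {x : E4} (hx : x ∈ shell a b) : wt a b x ≤ 2 := by
  have h0 : 0 < ‖x‖ := ha.trans hx.1
  have h1 : √(a / ‖x‖) ≤ 1 := Real.sqrt_le_one.2 ((div_le_one h0).2 hx.1.le)
  have h2 : √(‖x‖ / b) ≤ 1 := Real.sqrt_le_one.2 ((div_le_one (h0.trans hx.2)).2 hx.2.le)
  unfold wt; linarith

theorem wt_nn (a b : ℝ) (x : E4) : 0 ≤ wt a b x := by unfold wt; positivity

theorem div_le_wt {a b : ℝ} (ha : 0 < a) {x : E4} (hx : a < ‖x‖) : a / ‖x‖ ≤ wt a b x := by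
  have h0 : 0 < ‖x‖ := ha.trans hx
  have h1 : a / ‖x‖ ≤ 1 := (div_le_one h0).2 hx.le
  have h2 : a / ‖x‖ ≤ √(a / ‖x‖) := by
    refine Real.le_sqrt_of_sq_le ?_
    have : 0 ≤ a / ‖x‖ := by positivity
    nlinarith
  have h3 := Real.sqrt_nonneg (‖x‖ / b)
  unfold wt; linarith

theorem jg_mono {m m' : ℕ} {G : MetricField 4} {x : E4} {s e e' : ℝ} (h : JG m G x s e)
    (hm : m' ≤ m) (he : e ≤ e') : JG m' G x s e' :=
  fun k hk i j => (h k (hk.trans hm) i j).trans he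

theorem jall_mono {C C' : ℕ → ℝ} {G : MetricField 4} {x : E4} {s w w' : ℝ} (h : JAll C G x s w)
    (he : ∀ k, C k * w ≤ C' k * w') : JAll C' G x s w' :=
  fun k i j => (h k i j).trans (he k)

variable {M : Type*} [TopologicalSpace M] [ChartedSpace E4 M] [IsManifold 𝓘(ℝ, E4) ∞ M]
  [T3Space M] [ConnectedSpace M] [CompactSpace M] [MeasurableSpace M] [BorelSpace M]
  {F : Flow M} {N N' : Nk M}

theorem om_sub_res (N : Nk M) (a' b' r : ℝ) : N.Om r ⊆ (N.res a' b').Om r := by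
  rintro p (h | ⟨x, hx, rfl⟩)
  · exact Or.inl (Or.inl h)
  · rcases le_or_gt ‖x‖ a' with e | e
    · exact Or.inl (Or.inr ⟨x, ⟨hx.1, e⟩, rfl⟩)
    · exact Or.inr ⟨x, ⟨e, hx.2⟩, rfl⟩

theorem res_in_mono (N : Nk M) {a' a'' : ℝ} (b' b'' : ℝ) (h : a' ≤ a'') :
    (N.res a' b').In ⊆ (N.res a'' b'').In :=
  union_subset_union_right _ (image_mono fun _ hx => ⟨hx.1, hx.2.trans h⟩)

theorem cmp_of_res {a' b' a'' b'' ρ1 ρ2 : ℝ} (h : Cmp (N.res a' b') (N'.res a'' b'') ρ1 ρ2)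
    (h1 : N.a < a') (h2 : a' < ρ1) (h3 : N'.a < a'') (h4 : a'' < ρ1) : Cmp N N' ρ1 ρ2 :=
  fun r hr => ⟨(om_sub_res N a' b' _).trans ((h r hr).1.trans (res_om h3 (h4.trans_le hr.1)).le),
    (om_sub_res N' a'' b'' _).trans ((h r hr).2.trans (res_om h1 (h2.trans_le hr.1)).le)⟩

theorem sn_rough {s η η' : ℝ} {m : ℕ} (h : SN F s η N) (h0 : 0 ≤ η) (h1 : 2 * η ≤ η')
    (hm : m ≤ 2) : Rough (F.m s) N m η' 192 :=
  ⟨fun x hx => jg_mono (h.jet x hx) hm
    (by nlinarith [mul_le_mul_of_nonneg_left (wt_two h.top.a_pos hx) h0]), h.vol⟩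

theorem fin_vol (hB : Base F) {s : ℝ} (hs : s ∈ late F) : IsFiniteMeasure (F.m s).vol :=
  hB.ok.int.fin s (late_Ioo hs)

theorem rough_res (hB : Base F) {s η V a' b' : ℝ} {m : ℕ} (hs : s ∈ late F) (hT : N.Top)
    (h : Rough (F.m s) N m η V) (hη : η ≤ 1 / 100) (hV : 192 ≤ V) (h1 : 2 * N.a ≤ a')
    (h2 : 2 * a' ≤ N.b) (h3 : b' ≤ N.b) : Rough (F.m s) (N.res a' b') m η V := by
  have ha := hT.a_pos
  have := fin_vol hB hs
  refine ⟨fun x hx => h.jet x (shell_mono (show N.a ≤ a' by linarith) h3 hx), ?_⟩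
  have h4 := (measureReal_mono (res_in_sub (N := N) (a' := a') (b' := b') (r := 2 * a')
    (by linarith))).trans (hT.vol_Om (F.m s) (h.mono (Nat.zero_le _) hη le_rfl)
      ⟨by linarith, h2⟩)
  have h5 : (2 * N.a) ^ 4 ≤ a' ^ 4 := pow_le_pow_left₀ (by positivity) h1 4
  have h6 : 0 < N.a ^ 4 := by positivity
  show _ ≤ V * a' ^ 4
  nlinarith

theorem mass_nn (hB : Base F) {s : ℝ} (hs : s ∈ late F) (A : Set M) : 0 ≤ mass (F.m s) A :=
  integral_nonneg fun y => hB.ok.evo.Q_nonneg 0 s (late_Ioo hs) y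

theorem mass_mono (hB : Base F) {s : ℝ} (hs : s ∈ late F) {A B : Set M} (h : A ⊆ B) :
    mass (F.m s) A ≤ mass (F.m s) B :=
  setIntegral_mono_set (hB.ok.alg.integrable hB.ok.int (late_Ioo hs)
    (hB.ok.alg.s0_Q (late_Ioo hs) 0)).integrableOn
    (Eventually.of_forall fun z => hB.ok.evo.Q_nonneg 0 s (late_Ioo hs) z) h.eventuallyLE

/-- the mass inside a good neck -/
theorem mass_le (hB : Base F) (hS : SW F) : ∃ C r1 : ℝ, 0 < C ∧ 0 < r1 ∧ ∀ (s η : ℝ) (N : Nk M),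
    SN F s η N → 0 ≤ η → η ≤ 1 / 200 → N.b ≤ r1 → 2 * N.a ≤ N.b → ∀ ρ ∈ Icc N.a N.b,
      mass (F.m s) (N.Om ρ) ≤ C * ρ ^ 2 := by
  obtain ⟨K, r1, hK, hr, -, h⟩ := hS 192
  obtain ⟨C, hC, hq⟩ := HC.qLoc hB.ok hB.c hB.d (half_pos F.hT)
  refine ⟨C * (2 + K) ^ 2, r1, by positivity, hr, fun s η N hN h0 h1 h2 h3 ρ hρ => ?_⟩
  obtain ⟨z, hz⟩ := hN.top.ne
  have ha := hN.top.a_pos
  have hρ0 : 0 < ρ := ha.trans_le hρ.1
  have h4 := (h s hN.late N hN.top (sn_rough hN h0 (by linarith) (Nat.zero_le _)) h2 h3 z hz ρ hρ).1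
  have h5 : N.Om ρ ⊆ F.hc.B s z ((2 + K) * ρ) := fun q hq => by
    have h6 := h4 q hq
    have h7 : K * N.a ≤ K * ρ := mul_le_mul_of_nonneg_left hρ.1 (by linarith)
    show (F.m s).d z q < _
    linarith
  refine (mass_mono hB hN.late h5).trans ((hq s hN.late z _ (by positivity)).trans (le_of_eq ?_))
  ring

/-- the energy of a small set is small -/
theorem en_small (hB : Base F) {s : ℝ} (hs : s ∈ late F) : ∃ C : ℝ, 0 ≤ C ∧ ∀ A : Set M,
    ∫ q in A, (F.m s).rm 0 q ∂(F.m s).vol ≤ C * (F.m s).vol.real A := by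
  have := fin_vol hB hs
  have hc : Continuous ((F.m s).rm 0) := hB.ok.alg.s0_cont (hB.ok.alg.s0_N (late_Ioo hs) 0)
  obtain ⟨C, hC⟩ := (isCompact_univ.image hc).isBounded.exists_norm_le
  refine ⟨max C 0, le_max_right _ _, fun A => ?_⟩
  refine (le_abs_self _).trans ?_
  exact norm_setIntegral_le_of_norm_le_const (measure_lt_top _ _) fun x _ =>
    (hC _ ⟨x, mem_univ _, rfl⟩).trans (le_max_left _ _)

end Crest.Agent.N207.T.W

end
end

-- ▼ part N207/T/Wd2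
section

/-!
# Row 207 (helper69): block TOP, leaf `WD`, part 2: the constants, the easy fields
-/

set_option autoImplicit false
set_option linter.unusedSectionVars false

open scoped ContDiff Manifold Topology
open Set MeasureTheory Filter
open Crest.GeometryTopology.CoordMetric Crest.GeometryTopology.ChartCurvature
  Crest.GeometryTopology.MetricFamily

noncomputable section

namespace Crest.Agent.N207.T.W

open Sk Rad

variable {M : Type*} [TopologicalSpace M] [ChartedSpace E4 M] [IsManifold 𝓘(ℝ, E4) ∞ M]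
  [T3Space M] [ConnectedSpace M] [CompactSpace M] [MeasurableSpace M] [BorelSpace M]

/-- the constants -/
structure Ks (M : Type*) where
  p : M
  m : ℕ
  η1 : ℝ
  δ : ℝ
  e : ℝ
  ε : ℝ
  KE : ℝ
  KC : ℝ
  K' : ℝ
  cG : ℝ
  cF : ℝ
  CG : ℝ
  K0 : ℝ
  K1 : ℝ
  K : ℝ
  δS : ℝ
  cS : ℝ
  R : ℝ
  c : ℝ
  l : ℝ
  ts : ℝ
  V1 : ℝ
  V : ℝ
  Cs : ℕ → ℝ
  Ns : Nk M

/-- the numerical constraints -/
structure Ks.Num (k : Ks M) : Prop where
  m2 : 2 ≤ k.m
  η1 : k.η1 ≤ 1 / 100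
  δ : k.δ ≤ 1 / 100
  e0 : 0 < k.e
  e1 : k.e ≤ 1 / 400
  ε : 0 < k.ε
  KE : 2 ≤ k.KE
  KC : 2 ≤ k.KC
  K' : 2 ≤ k.K'
  cG1 : k.cG ≤ 1
  CG : 1 ≤ k.CG
  K0 : 2 ≤ k.K0
  K1 : 64 * k.KC * k.K0 ≤ k.K1
  KK1 : 2 * k.K1 ≤ k.K
  KK2 : 64 * k.KC * k.KE ≤ k.K
  KK3 : 4 * k.K0 * k.K' ≤ k.K
  δS0 : 0 < k.δS
  δS : k.CG * (4 * k.e + k.δS) ≤ k.δ
  R1 : 2 * (k.K' * k.R) ≤ 1
  c0 : 0 < k.c
  c1 : 32 * k.KC * k.KE * (2 * k.c) ≤ k.cG
  c2 : 4 * k.K' * k.c ≤ k.cG
  c3 : 4 * k.K' * k.c ≤ k.cF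
  c4 : k.c * (1 + 16 * k.K0 ^ 2 * k.K1 ^ 2 * k.V) ≤ 16 * k.cS
  l0 : 0 < k.l
  l1 : k.K ^ 2 * k.l ≤ k.R
  l2 : 16384 * k.K * k.l ≤ k.R
  l3 : 4 * k.K0 ^ 2 * k.l ≤ k.c
  V1 : 192 ≤ k.V1
  V : 12 ≤ k.V
  Cs : ∀ j, 0 ≤ k.Cs j

/-- the leaves, at these constants -/
structure Ks.Ok (k : Ks M) (F : Flow M) : Prop extends k.Num where
  base : Base F
  ts : k.ts ∈ late F
  res : RES F
  far : ∀ a, 0 < a → a < k.K' * k.R → ∃ (N : Nk M) (t0 : ℝ), t0 ∈ late F ∧ N.Top ∧ N.a = a ∧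
    N.b = k.K' * k.R ∧ k.p ∈ N.In ∧ ∀ s ∈ Ico t0 F.T, Rough (F.m s) N 2 k.η1 k.V1
  gnl : ∀ t ∈ late F, ∀ N : Nk M, N.Top → Rough (F.m t) N 2 k.η1 k.V1 → N.b ≤ k.K' * k.R →
    k.K' ^ 3 * N.a ≤ N.b → ∃ N' : Nk M, N'.a = k.K' * N.a ∧ N'.b = N.b / k.K' ∧ N.In ⊆ N'.In ∧
      (∀ r, N'.a ≤ r → r ≤ N'.b → N.Om r ⊆ N'.Om (2 * r)) ∧ GN F k.m k.e k.Cs k.cG t N'
  cen : ∀ s ∈ Ico k.ts F.T, ∀ N : Nk M, SN F s (2 * k.e) N → N.b ≤ 2 * (k.K' * k.R) →
    k.KE * N.a ≤ k.R / 32 → 8 * (k.R / 32) ≤ N.b → k.p ∈ N.Om (k.R / 32) →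
    (k.ε ≤ ∫ q in N.In, (F.m s).rm 0 q ∂(F.m s).vol) ∧
      ∀ N' : Nk M, SN F s (2 * k.e) N' → N'.b ≤ 2 * (k.K' * k.R) → k.KE * N'.a ≤ k.R / 32 →
        8 * (k.R / 32) ≤ N'.b → k.p ∈ N'.Om (k.R / 32) → (N.In ∩ N'.In).Nonempty
  cmpl : ∀ t ∈ late F, ∀ N N' : Nk M, N.Top → N'.Top →
    Rough (F.m t) N 0 (1 / 100) 192 → Rough (F.m t) N' 0 (1 / 100) 192 →
    N.b ≤ 2 * (k.K' * k.R) → N'.b ≤ 2 * (k.K' * k.R) → ∀ a0 ρ1 ρ2 : ℝ, N.a ≤ a0 → N'.a ≤ a0 →
    k.KC * a0 ≤ ρ1 → ρ2 ≤ N.b → ρ2 ≤ N'.b → (N.Om a0 ∩ N'.Om a0).Nonempty → Cmp N N' ρ1 ρ2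
  mass : ∀ (s : ℝ) (N : Nk M), SN F s (2 * k.e) N → N.b ≤ k.R → 2 * N.a ≤ N.b →
    ∀ ρ ∈ Icc N.a N.b, mass (F.m s) (N.Om ρ) ≤ k.V / 4 * ρ ^ 2
  fin : ∀ t ∈ late F, ∀ (N N' : Nk M) (ρ1 ρ2 : ℝ), N.Top → N'.Top → Rough (F.m t) N 2 k.δ 192 →
    Rough (F.m t) N' 2 k.δ 192 → 2 * N.a ≤ ρ1 → 2 * N'.a ≤ ρ1 → ρ2 ≤ N.b → 2 * ρ2 ≤ N'.b →
    64 * ρ1 ≤ ρ2 → N'.b ≤ 2 * (k.K' * k.R) → Cmp N N' ρ1 ρ2 →
    ∃ N'' : Nk M, N''.Top ∧ N''.a = 2 * N.a ∧ N''.b = N'.b / 2 ∧ N'.In ⊆ N''.Om ρ2 ∧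
      ∀ s < F.T, |s - t| ≤ k.cF * N.a → Rough (F.m s) N'' 2 k.η1 192
  glue : ∀ (g : Met 4 M) (N N' : Nk M) (r1 r2 : ℝ), N.Top → N'.Top →
    Rough g N 2 (4 * k.e + k.δS) 192 → Rough g N' 2 (4 * k.e + k.δS) 192 → 2 * N.a ≤ r1 →
    2 * N'.a ≤ r1 → r2 ≤ N.b → r2 ≤ N'.b → 64 * r1 ≤ r2 → Cmp N N' r1 r2 →
    ∃ N'' : Nk M, N''.Top ∧ N''.a = N.a ∧ N''.b = N'.b ∧ N''.In = N.In ∧
      Rough g N'' 2 (k.CG * (4 * k.e + k.δS)) 192 ∧ ∀ r ∈ Icc r2 N'.b, N''.Om r = N'.Om r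
  stat : ∀ (s τ l l' : ℝ) (N : ℝ → Nk M) (Y : ℝ → ℝ), s ≤ τ → l' ≤ l → l ≤ k.K * l' →
    k.K1 * l ≤ k.R / 32 → k.ts ≤ s - (k.K0 * l) ^ 2 →
    (∀ t ∈ Icc (s - (k.K0 * l) ^ 2) τ, SN F t (2 * k.e) (N t) ∧ (N t).a ≤ l ∧ (N t).b = k.R ∧
      k.p ∈ (N t).Om (k.R / 32) ∧ Sk.mass (F.m t) ((N t).Om (k.K1 * l)) ≤ Y t) →
    (N τ).a = l' → IntervalIntegrable Y volume (s - (k.K0 * l) ^ 2) τ →
    (τ - s) * ∫ t in (s - (k.K0 * l) ^ 2)..τ, Y t ≤ k.cS * l ^ 4 → ∀ t ∈ Ioc s τ,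
      (∀ x ∈ shell (k.K0 * l') (64 * k.KC * k.K0 * l),
        JG 2 ((F.m t).pm (N τ).Ψ) x ‖x‖ (2 * (2 * k.e) + k.δS)) ∧
      ((N τ).In ∩ (N t).Om (k.K0 * l)).Nonempty
  ns : ∀ s ∈ Ico k.ts F.T, SN F s (2 * k.e) k.Ns
  ns_a : k.Ns.a = k.R / (4096 * k.KC * k.KE)
  ns_b : k.Ns.b = 2 * (k.K' * k.R)
  ns_p : k.p ∈ k.Ns.In

namespace Ks

/-- a rough neck of inner radius `lam / K'` -/
def P (k : Ks M) (F : Flow M) (lam t : ℝ) : Prop :=
  ∃ N : Nk M, N.Top ∧ N.a = lam / k.K' ∧ N.b = k.K' * k.R ∧ k.p ∈ N.Om (k.R / 64) ∧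
    Rough (F.m t) N 2 k.η1 k.V1

/-- a good neck of inner radius `lam` -/
structure G (k : Ks M) (F : Flow M) (lam v : ℝ) (N : Nk M) : Prop where
  mem : v ∈ Ico k.ts F.T
  a : N.a = lam
  b : N.b = k.R
  p : k.p ∈ N.Om (k.R / 32)
  gn : GN F k.m k.e k.Cs k.cG v N

variable {k : Ks M} {F : Flow M} {lam v s t r : ℝ} {N N' : Nk M}

namespace Num

variable (h : k.Num)
include h

theorem K_ge : 512 ≤ k.K := by nlinarith [h.KK1, h.K1, h.KC, h.K0]

theorem K'_le : 8 * k.K' ≤ k.K := by nlinarith [h.KK3, h.K0, h.K']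

theorem R_pos : 0 < k.R := by
  have := h.K_ge; have := h.l0
  exact lt_of_lt_of_le (by positivity) h.l1

theorem R_le : k.R ≤ k.K' * k.R := by nlinarith [h.R_pos, h.K']

theorem c_le : 8 * k.c ≤ k.cG := by nlinarith [h.c2, h.c0, h.K']

theorem cG0 : 0 < k.cG := by linarith [h.c_le, h.c0]

theorem l_le : 8388608 * k.l ≤ k.R := by nlinarith [h.l2, h.K_ge, h.l0]

theorem kce : 4 ≤ k.KC * k.KE := by nlinarith [h.KC, h.KE]

theorem KE_le : 128 * k.KE ≤ k.K := by nlinarith [h.KK2, h.KC, h.KE]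

theorem lam_pos (n : ℕ) : 0 < k.l / k.K ^ n := by
  have := h.K_ge; have := h.l0; positivity

theorem lam_le (n : ℕ) : k.l / k.K ^ n ≤ k.l :=
  div_le_self h.l0.le (one_le_pow₀ (by linarith [h.K_ge]))

theorem e_le : 4 * k.e + k.δS ≤ k.δ := by nlinarith [h.δS, h.CG, h.e0, h.δS0]

end Num

namespace Ok

variable (h : k.Ok F)
include h

theorem late (hs : s ∈ Ico k.ts F.T) : s ∈ late F := ⟨h.ts.1.trans hs.1, hs.2⟩

theorem snap (hG : k.G F lam v N) (hs : s ∈ Ico k.ts F.T) (h1 : lam < r) (h2 : r < k.R)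
    (h3 : |s - v| ≤ k.cG * r) : SN F s (2 * k.e) (N.res r k.R) := by
  have := h.res _ _ _ _ v N r s hG.gn h.m2 h.e0.le h.cG0 (by linarith [hG.b, h.R1, h.R_le])
    (hG.a ▸ h1) (hG.b ▸ h2) (h.late hs) h3
  rwa [hG.b] at this

theorem r0 (hN : SN F s (2 * k.e) N) : Rough (F.m s) N 0 (1 / 100) 192 :=
  sn_rough hN (by linarith [h.e0]) (by linarith [h.e1]) (Nat.zero_le _)

theorem ev (h0 : 0 < lam) (h1 : lam ≤ k.l) : ∃ t0 < F.T, ∀ t ∈ Ico t0 F.T, k.P F lam t := by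
  have := h.K'
  obtain ⟨N, t0, a1, a2, a3, a4, a5, a6⟩ := h.far (lam / k.K') (by positivity)
    (lt_of_le_of_lt (div_le_self h0.le (by linarith)) (by linarith [h.l_le, h.R_le, h.l0]))
  exact ⟨t0, a1.2, fun t ht => ⟨N, a2, a3, a4, N.In_sub _ a5, a6 t ht⟩⟩

theorem mono (h0 : 0 < lam) (h1 : lam ≤ k.l) (ht : t ∈ Ico k.ts F.T) (hP : k.P F (lam / k.K) t) :
    k.P F lam t := by
  obtain ⟨N, a1, a2, a3, a4, a5⟩ := hP
  have := h.K'
  have := h.K_ge
  have b1 : lam / k.K' ≤ lam := div_le_self h0.le (by linarith)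
  have b2 : 2 * N.a ≤ lam / k.K' := by
    rw [a2, div_right_comm, ← mul_div_assoc, div_le_iff₀ (by positivity)]
    nlinarith [show 0 < lam / k.K' by positivity]
  have b3 : 2 * (lam / k.K') ≤ N.b := by linarith [h.l_le, h.R_le, h.l0]
  exact ⟨N.res (lam / k.K') (k.K' * k.R), res_top a1 (by linarith [a1.a_pos])
    (by linarith [a1.a_pos]) a3.ge, rfl, rfl, om_sub_res _ _ _ _ a4,
    rough_res h.base (h.late ht) a1 a5 h.η1 h.V1 b2 b3 a3.ge⟩

theorem ex (h0 : 0 < lam) (h1 : lam ≤ k.l) (hv : v ∈ Ico k.ts F.T) (hP : k.P F lam v) :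
    ∃ N, k.G F lam v N := by
  obtain ⟨N, a1, a2, a3, a4, a5⟩ := hP
  have := h.K'
  obtain ⟨N', b1, b2, -, b4, b5⟩ := h.gnl v (h.late hv) N a1 a5 a3.le (by
    rw [a2, a3, show k.K' ^ 3 * (lam / k.K') = k.K' * (k.K' * lam) by field_simp]
    refine mul_le_mul_of_nonneg_left ?_ (by linarith)
    nlinarith [h.K'_le, h.l2, h.l0, mul_le_mul_of_nonneg_left h1 (show 0 ≤ k.K' by linarith)])
  have c1 : N'.a = lam := by rw [b1, a2]; field_simp
  have c2 : N'.b = k.R := by rw [b2, a3]; field_simp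
  refine ⟨N', hv, c1, c2, ?_, b5⟩
  have := b4 (k.R / 64) (by linarith [h.l_le, h.l0]) (by linarith [h.R_pos]) a4
  rwa [show 2 * (k.R / 64) = k.R / 32 by ring] at this

theorem cen' (hG : k.G F lam v N) (hs : s ∈ Ico k.ts F.T) (h1 : lam < r)
    (h2 : k.KE * r ≤ k.R / 32) (h3 : |s - v| ≤ k.cG * r) :
    (k.ε ≤ ∫ q in (N.res r k.R).In, (F.m s).rm 0 q ∂(F.m s).vol) ∧
      ∀ N' : Nk M, SN F s (2 * k.e) N' → N'.b ≤ 2 * (k.K' * k.R) → k.KE * N'.a ≤ k.R / 32 →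
        8 * (k.R / 32) ≤ N'.b → k.p ∈ N'.Om (k.R / 32) → ((N.res r k.R).In ∩ N'.In).Nonempty := by
  have hr : 0 < r := (hG.a ▸ hG.gn.top.a_pos).trans h1
  exact h.cen s hs _ (h.snap hG hs h1 (by nlinarith [h.KE, h.R_pos]) h3)
    (show k.R ≤ _ by linarith [h.R_le, h.R_pos]) h2 (show _ ≤ k.R by linarith [h.R_pos])
    (om_sub_res _ _ _ _ hG.p)

theorem fail (ht : t ∈ Ico k.ts F.T) : ∃ n, ¬k.P F (k.l / k.K ^ n) t := by
  by_contra! hc
  obtain ⟨C, hC, hb⟩ := en_small h.base (h.late ht)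
  have hK := h.K_ge
  have key : ∀ n, k.ε ≤ C * (192 * (2 * (k.l / k.K ^ n)) ^ 4) := fun n => by
    have a0 := h.lam_pos n
    have a1 := h.lam_le n
    obtain ⟨N, hG⟩ := h.ex a0 a1 ht (hc n)
    have a2 : |t - t| ≤ k.cG * (2 * (k.l / k.K ^ n)) := by
      have := h.cG0; rw [sub_self, abs_zero]; positivity
    have a3 : k.KE * (2 * (k.l / k.K ^ n)) ≤ k.R / 32 := by
      nlinarith [h.KE_le, h.l2, h.l0, h.KE,
        mul_le_mul_of_nonneg_left a1 (show 0 ≤ k.KE by linarith [h.KE])]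
    exact (h.cen' hG ht (by linarith) a3 a2).1.trans ((hb _).trans (mul_le_mul_of_nonneg_left
      (h.snap hG ht (by linarith) (by linarith [h.l_le, h.l0]) a2).vol hC))
  have lim : Tendsto (fun n : ℕ => C * (192 * (2 * (k.l / k.K ^ n)) ^ 4)) atTop
      (𝓝 (C * (192 * (2 * 0) ^ 4))) :=
    ((((tendsto_pow_atTop_atTop_of_one_lt (by linarith : 1 < k.K)).const_div_atTop
      k.l).const_mul 2).pow 4 |>.const_mul 192).const_mul C
  have := ge_of_tendsto' lim key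
  simp at this
  linarith [h.ε]

theorem far' {η u : ℝ} {m : ℕ} (hm : m ≤ k.m) (hη : 2 * k.e ≤ η) (hG : k.G F lam v N)
    (hu : |u - v| ≤ k.c * lam) (h1 : lam ≤ r) (hs : s ∈ Ico k.ts F.T) (h2 : |s - u| ≤ k.c * r)
    {x : E4} (hx : x ∈ shell r k.R) :
    JG m ((F.m s).pm N.Ψ) x ‖x‖ (η * (wt lam k.R x + |s - u| / ‖x‖ / k.c)) ∧
      JAll (fun j => 4 * k.Cs j) ((F.m s).pm N.Ψ) x ‖x‖ 1 := by
  have a0 : 0 < lam := hG.a ▸ hG.gn.top.a_pos
  have a1 : lam < ‖x‖ := h1.trans_lt hx.1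
  have a2 : 0 < ‖x‖ := a0.trans a1
  have a3 : |s - v| ≤ |s - u| + k.c * lam := (abs_sub_le _ u _).trans (by linarith)
  have hc := h.c0
  have hc8 := h.c_le
  have a4 : |s - v| ≤ k.cG * ‖x‖ := by nlinarith [hx.1]
  have a5 : x ∈ shell lam k.R := ⟨a1, hx.2⟩
  obtain ⟨b1, b2⟩ := hG.gn.jet x (by rw [hG.a, hG.b]; exact a5) s hs.2 a4
  rw [hG.a, hG.b] at b1 b2
  have a6 : |s - v| / ‖x‖ / k.cG ≤ |s - u| / ‖x‖ / k.c + wt lam k.R x :=
    calc _ ≤ (|s - u| + k.c * lam) / ‖x‖ / k.c := by gcongr; linarith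
      _ = |s - u| / ‖x‖ / k.c + lam / ‖x‖ := by field_simp
      _ ≤ _ := by linarith [div_le_wt (b := k.R) a0 a1]
  have a7 : |s - v| / ‖x‖ / k.cG ≤ 1 := by
    rw [div_div, div_le_one (by have := h.cG0; positivity)]; linarith
  have a8 : 0 ≤ |s - u| / ‖x‖ / k.c := by positivity
  have a9 := wt_nn lam k.R x
  refine ⟨jg_mono b1 hm ?_, jall_mono b2 fun j => ?_⟩
  · nlinarith [h.e0]
  · nlinarith [h.Cs j, wt_two a0 a5]

theorem good {η : ℝ} {m : ℕ} (hm : m ≤ k.m) (hη : 2 * k.e ≤ η) (h1 : lam ≤ k.l)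
    (hG : k.G F lam v N) (hs : s ∈ Ico k.ts F.T) (h2 : |s - v| ≤ 2 * (k.c * lam)) :
    Good (F.m s) N m η (fun j => 4 * k.Cs j) k.V ∧ ∀ r ∈ Icc lam k.R,
      (F.m s).vol.real (N.Om r) ≤ k.V * r ^ 4 ∧ Sk.mass (F.m s) (N.Om r) ≤ k.V * r ^ 2 := by
  have a0 : 0 < lam := hG.a ▸ hG.gn.top.a_pos
  have hc := h.c0
  have hc8 := h.c_le
  have hl := h.l_le
  have := fin_vol h.base (h.late hs)
  have vol : ∀ r ∈ Icc lam k.R, (F.m s).vol.real (N.Om r) ≤ k.V * r ^ 4 := fun r hr =>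
    (hG.gn.vol s (late_Ioo (h.late hs)) (by nlinarith [h.R1, h.R_le]) r
      (by rw [hG.a, hG.b]; exact hr)).trans (mul_le_mul_of_nonneg_right h.V (by positivity))
  have jet : ∀ x ∈ shell N.a N.b, JG k.m ((F.m s).pm N.Ψ) x ‖x‖ (k.e * (2 * wt N.a N.b x)) ∧
      JAll k.Cs ((F.m s).pm N.Ψ) x ‖x‖ (2 * wt N.a N.b x) := fun x hx => by
    have a1 : lam < ‖x‖ := hG.a ▸ hx.1
    have a2 : 0 < ‖x‖ := a0.trans a1
    obtain ⟨b1, b2⟩ := hG.gn.jet x hx s hs.2 (by nlinarith)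
    have a6 : |s - v| / ‖x‖ / k.cG ≤ wt N.a N.b x :=
      calc _ ≤ (k.cG * lam) / ‖x‖ / k.cG := by gcongr; exacts [h.cG0.le, by nlinarith]
        _ = lam / ‖x‖ := by have := h.cG0; field_simp
        _ ≤ _ := by rw [hG.a]; exact div_le_wt a0 a1
    exact ⟨jg_mono b1 le_rfl (by nlinarith [h.e0]), jall_mono b2 fun j => by nlinarith [h.Cs j]⟩
  refine ⟨⟨fun x hx => jg_mono (jet x hx).1 hm (by nlinarith [wt_nn N.a N.b x]),
    fun x hx => jall_mono (jet x hx).2 fun j => by nlinarith [wt_nn N.a N.b x, h.Cs j],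
    (measureReal_mono (N.In_sub lam)).trans (hG.a ▸ vol lam ⟨le_rfl, by linarith⟩)⟩,
    fun r hr => ⟨vol r hr, ?_⟩⟩
  have b1 := h.snap hG hs (r := 2 * lam) (by linarith) (by linarith) (by nlinarith)
  have b2 := h.mass s _ b1 le_rfl (show 2 * (2 * lam) ≤ k.R by linarith) (max r (2 * lam))
    ⟨le_max_right _ _, max_le hr.2 (show 2 * lam ≤ k.R by linarith)⟩
  have b3 : max r (2 * lam) ^ 2 ≤ (2 * r) ^ 2 :=
    pow_le_pow_left₀ (by positivity) (max_le (by linarith [hr.1]) (by linarith [hr.1])) 2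
  refine (mass_mono h.base (h.late hs) ((om_sub_res _ _ _ _).trans
    (Nk.Om_mono _ (le_max_left _ _)))).trans (b2.trans ?_)
  nlinarith [h.V]

theorem cmp {lam' v' : ℝ} (hG : k.G F lam v N) (hG' : k.G F lam' v' N') (h1 : k.K * lam ≤ r)
    (h2 : k.K * lam' ≤ r) (h3 : |v - v'| ≤ 2 * (k.c * r)) : Cmp N N' r k.R := by
  rcases lt_or_ge k.R r with hr | hr
  · exact fun x hx => absurd (hx.1.trans hx.2) hr.not_ge
  have a0 : 0 < lam := hG.a ▸ hG.gn.top.a_pos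
  have a0' : 0 < lam' := hG'.a ▸ hG'.gn.top.a_pos
  have hK := h.K_ge
  have r0 : 0 < r := lt_of_lt_of_le (by positivity) h1
  have hk := h.kce
  have hC := h.KC
  have hE := h.KE
  obtain ⟨r', e, r1⟩ : ∃ r', r = 32 * k.KC * k.KE * r' ∧ 0 < r' :=
    ⟨r / (32 * k.KC * k.KE), by field_simp, by positivity⟩
  have b1 : lam < r' := by
    by_contra! hc
    nlinarith [h.KK2, mul_le_mul_of_nonneg_left hc (show 0 ≤ k.KC * k.KE by linarith)]
  have b2 : lam' < r' := by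
    by_contra! hc
    nlinarith [h.KK2, mul_le_mul_of_nonneg_left hc (show 0 ≤ k.KC * k.KE by linarith)]
  have b3 : k.KE * r' ≤ k.R / 32 := by nlinarith [mul_pos (show 0 < k.KE by linarith) r1]
  have b4 : r' < r := by nlinarith
  have b5 : k.KC * r' ≤ r := by nlinarith [mul_pos (show 0 < k.KC by linarith) r1]
  have b6 : |v - v| ≤ k.cG * r' := by have := h.cG0; rw [sub_self, abs_zero]; positivity
  have b7 : |v - v'| ≤ k.cG * r' := by
    have := mul_le_mul_of_nonneg_right h.c1 r1.le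
    rw [e] at h3; linarith
  have s1 := h.snap hG hG.mem b1 (by linarith) b6
  have s2 := h.snap hG' hG.mem b2 (by linarith) b7
  have hR : k.R ≤ 2 * (k.K' * k.R) := by linarith [h.R_le, h.R_pos]
  have c1 := (h.cen' hG hG.mem b1 b3 b6).2 _ s2 hR b3 (show _ ≤ k.R by linarith [h.R_pos])
    (om_sub_res _ _ _ _ hG'.p)
  exact cmp_of_res (h.cmpl v s1.late _ _ s1.top s2.top (h.r0 s1) (h.r0 s2) hR hR r' r k.R le_rfl
    le_rfl b5 le_rfl le_rfl (c1.mono (inter_subset_inter (Nk.In_sub _ _) (Nk.In_sub _ _))))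
    (hG.a ▸ b1) b4 (hG'.a ▸ b2) b4

end Ok

end Ks

end Crest.Agent.N207.T.W

end
end

-- ▼ part N207/T/Wd3
section

/-!
# Row 207 (helper69): block TOP, leaf `WD`, part 3: `back` and `stat`
-/

set_option autoImplicit false
set_option linter.unusedSectionVars false

open scoped ContDiff Manifold Topology
open Set MeasureTheory Filter
open Crest.GeometryTopology.CoordMetric Crest.GeometryTopology.ChartCurvature
  Crest.GeometryTopology.MetricFamily

noncomputable section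

namespace Crest.Agent.N207.T.W

open Sk Rad

/-- a function which is constant before `s` and equal to `Y` on `[s, τ)` -/
theorem glue_int {Y Z : ℝ → ℝ} {a s τ C : ℝ} (h1 : a ≤ s) (h2 : s ≤ τ)
    (hY : IntervalIntegrable Y volume s τ) (e1 : ∀ t < s, Z t = C) (e2 : ∀ t ∈ Ioo s τ, Z t = Y t) :
    IntervalIntegrable Z volume a τ ∧ ∫ t in a..τ, Z t = (s - a) * C + ∫ t in s..τ, Y t := by
  have i1 : IntervalIntegrable Z volume a s := by
    rw [intervalIntegrable_iff_integrableOn_Ioo_of_le h1]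
    exact (integrableOn_const (C := C) (by simp)).congr_fun (fun t ht => (e1 t ht.2).symm)
      measurableSet_Ioo
  have i2 : IntervalIntegrable Z volume s τ := by
    rw [intervalIntegrable_iff_integrableOn_Ioo_of_le h2] at hY ⊢
    exact hY.congr_fun (fun t ht => (e2 t ht).symm) measurableSet_Ioo
  refine ⟨i1.trans i2, ?_⟩
  rw [← intervalIntegral.integral_add_adjacent_intervals i1 i2]
  congr 1
  · rw [intervalIntegral.integral_of_le h1, integral_Ioc_eq_integral_Ioo,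
      setIntegral_congr_fun measurableSet_Ioo (g := fun _ => C) fun t ht => e1 t ht.2]
    simp [h1]
  · rw [intervalIntegral.integral_of_le h2, intervalIntegral.integral_of_le h2,
      integral_Ioc_eq_integral_Ioo, integral_Ioc_eq_integral_Ioo]
    exact setIntegral_congr_fun measurableSet_Ioo e2

variable {M : Type*} [TopologicalSpace M] [ChartedSpace E4 M] [IsManifold 𝓘(ℝ, E4) ∞ M]
  [T3Space M] [ConnectedSpace M] [CompactSpace M] [MeasurableSpace M] [BorelSpace M]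

namespace Ks.Ok

variable {k : Ks M} {F : Flow M} {lam v s t r : ℝ} {N N' : Nk M} (h : k.Ok F)
include h

theorem as_le : 16384 * k.Ns.a ≤ k.R ∧ k.KE * k.Ns.a ≤ k.R / 32 ∧ k.KC * k.Ns.a ≤ k.R / 64 / 64 ∧
    2 * k.l ≤ k.Ns.a := by
  have hC := h.KC
  have hE := h.KE
  have hR := h.R_pos
  have a0 : 0 < k.Ns.a := by rw [h.ns_a]; positivity
  have e : k.R = 4096 * k.KC * k.KE * k.Ns.a := by rw [h.ns_a]; field_simp
  have hk := h.kce
  refine ⟨by nlinarith, by nlinarith [mul_pos (show 0 < k.KE by linarith) a0],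
    by nlinarith [mul_pos (show 0 < k.KC by linarith) a0], ?_⟩
  by_contra! hc
  nlinarith [h.l2, h.l0, mul_le_mul_of_nonneg_right h.KK2 h.l0.le,
    mul_lt_mul_of_pos_left hc (show 0 < k.KC * k.KE by linarith)]

theorem cmp_ns (hG : k.G F lam v N) (hs : s ∈ Ico k.ts F.T) (h1 : lam < r) (h2 : r ≤ 2 * k.l)
    (h3 : |s - v| ≤ k.cG * r) : Cmp (N.res r k.R) k.Ns (k.R / 64 / 64) (k.R / 64) := by
  obtain ⟨a1, a2, a3, a4⟩ := h.as_le
  have hR := h.R_pos
  have hR' := h.R_le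
  have s1 := h.snap hG hs h1 (by linarith [h.l_le, h.l0]) h3
  have s2 := h.ns s hs
  have c1 := (h.cen' hG hs h1 ((mul_le_mul_of_nonneg_left (h2.trans a4)
    (by linarith [h.KE])).trans a2) h3).2 _ s2 h.ns_b.le a2 (by linarith [h.ns_b])
    (Nk.In_sub _ _ h.ns_p)
  exact h.cmpl s s1.late _ _ s1.top s2.top (h.r0 s1) (h.r0 s2) (show k.R ≤ _ by linarith)
    h.ns_b.le k.Ns.a _ _ (h2.trans a4) le_rfl a3 (show _ ≤ k.R by linarith) (by linarith [h.ns_b])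
    (c1.mono (inter_subset_inter (Nk.In_sub _ _) (Nk.In_sub _ _)))

theorem fin' (h1 : lam ≤ k.l) (ht : t ∈ Ico k.ts F.T) (hT : N.Top)
    (hN : Rough (F.m t) N 2 k.δ 192) (ha : N.a = lam / (2 * k.K')) (hb : N.b = k.R)
    (hc : Cmp N k.Ns (k.R / 64 / 64) (k.R / 64)) (hs : s < F.T) (h2 : |s - t| ≤ 2 * (k.c * lam)) :
    k.P F lam s := by
  obtain ⟨a1, -, -, a4⟩ := h.as_le
  have hR := h.R_pos
  have hR' := h.R_le
  have hK := h.K'
  have a0 := hT.a_pos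
  have e : lam = 2 * k.K' * N.a := by rw [ha]; field_simp
  obtain ⟨N'', b1, b2, b3, b4, b5⟩ := h.fin t (h.late ht) N k.Ns _ _ hT (h.ns t ht).top hN
    (sn_rough (h.ns t ht) (by linarith [h.e0]) (by linarith [h.e_le, h.δS0]) le_rfl)
    (by nlinarith [h.l_le]) (by linarith) (by linarith) (by linarith [h.ns_b]) (by linarith)
    h.ns_b.le hc
  refine ⟨N'', b1, by rw [b2, ha]; field_simp, by rw [b3, h.ns_b]; ring, b4 h.ns_p,
    (b5 s hs ?_).mono le_rfl le_rfl h.V1⟩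
  have := mul_le_mul_of_nonneg_right h.c3 a0.le
  rw [e] at h2; linarith

theorem lam_lt (h0 : 0 < lam) : 4 * (lam / k.K) ≤ lam / (2 * k.K') ∧ 4 * (lam / (2 * k.K')) ≤ lam ∧
    2 * (k.c * lam) ≤ k.cG * (lam / (2 * k.K')) ∧ k.K0 * (2 * (lam / k.K)) ≤ lam / (2 * k.K') := by
  have hK := h.K'
  have hK2 := h.K_ge
  obtain ⟨x, e, hx⟩ : ∃ x, lam = 2 * k.K' * k.K * x ∧ 0 < x :=
    ⟨lam / (2 * k.K' * k.K), by field_simp, by positivity⟩
  have e1 : lam / k.K = 2 * k.K' * x := by rw [e]; field_simp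
  have e2 : lam / (2 * k.K') = k.K * x := by rw [e]; field_simp
  rw [e1, e2]
  have hy : 0 < k.K * x := by positivity
  refine ⟨by nlinarith [h.K'_le], by nlinarith, ?_, by nlinarith [h.KK3]⟩
  have := mul_le_mul_of_nonneg_right h.c2 hy.le
  rw [e]; linarith

theorem back (h0 : 0 < lam) (h1 : lam ≤ k.l) (hG : k.G F (lam / k.K) v N)
    (ht : t ∈ Ico k.ts F.T) (h2 : |t - v| ≤ 2 * (k.c * lam)) : k.P F lam t := by
  obtain ⟨a1, a2, a3, -⟩ := h.lam_lt h0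
  have a0 : 0 < lam / k.K := hG.a ▸ hG.gn.top.a_pos
  have s1 := h.snap hG ht (r := lam / (2 * k.K')) (by linarith) (by linarith [h.l_le])
    (h2.trans a3)
  exact h.fin' h1 ht s1.top (sn_rough s1 (by linarith [h.e0]) (by linarith [h.e_le, h.δS0]) le_rfl)
    rfl rfl (h.cmp_ns hG ht (by linarith) (by linarith) (h2.trans a3)) ht.2
    (by have := h.c0; rw [sub_self, abs_zero]; positivity)

/-- from a static shell to a rough neck -/
theorem join {v' : ℝ} (h0 : 0 < lam) (h1 : lam ≤ k.l) (hG : k.G F (lam / k.K) v N)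
    (hG' : k.G F lam v' N') (ht : t ∈ Ico k.ts F.T) (h2 : |t - v| ≤ k.cG)
    (h3 : |t - v'| ≤ k.c * lam)
    (h4 : ∀ x ∈ shell (k.K0 * (2 * (lam / k.K))) (64 * k.KC * k.K0 * (2 * lam)),
      JG 2 ((F.m t).pm N.Ψ) x ‖x‖ (2 * (2 * k.e) + k.δS))
    (h5 : ((N.res (2 * (lam / k.K)) k.R).In ∩ (N'.res (2 * lam) k.R).Om (k.K0 * (2 * lam))).Nonempty)
    (hs : s < F.T) (h6 : |s - t| ≤ 2 * (k.c * lam)) : k.P F lam s := by
  obtain ⟨a1, a2, a3, a4⟩ := h.lam_lt h0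
  have a0 : 0 < lam / k.K := hG.a ▸ hG.gn.top.a_pos
  have hR := h.R_pos
  have hR' := h.R_le
  have hl := h.l_le
  have hC := h.KC
  have hK0 := h.K0
  have hc := h.c0
  have hc8 := h.c_le
  have := fin_vol h.base (h.late ht)
  obtain ⟨ρ, hρ⟩ : ∃ ρ, ρ = k.KC * (k.K0 * (2 * lam)) := ⟨_, rfl⟩
  have b0 : 2 * (2 * lam) ≤ k.K0 * (2 * lam) := by nlinarith
  have b1 : 2 * (k.K0 * (2 * lam)) ≤ ρ := by nlinarith
  have b2 : 64 * k.KC * k.K0 * (2 * lam) = 64 * ρ := by rw [hρ]; ring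
  have b3 : 64 * ρ ≤ k.R / 16384 := by
    have c1 := mul_le_mul (h.K1.trans (show k.K1 ≤ k.K / 2 by linarith [h.KK1])) h1 h0.le
      (by linarith [h.K_ge])
    nlinarith [h.l2]
  rw [b2] at h4
  have s2 := h.snap hG' ht (r := 2 * lam) (by linarith) (by linarith) (by nlinarith)
  have t1 : (N.res (lam / (2 * k.K')) (64 * ρ)).Top :=
    res_top hG.gn.top (by linarith [hG.a]) (by linarith) (by linarith [hG.b])
  have r1 : Rough (F.m t) (N.res (lam / (2 * k.K')) (64 * ρ)) 2 (4 * k.e + k.δS) 192 := by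
    refine ⟨fun x hx => jg_mono (h4 x (shell_mono a4 le_rfl hx)) le_rfl (by linarith), ?_⟩
    refine (measureReal_mono (res_in_sub (r := 2 * (lam / (2 * k.K'))) (by linarith))).trans
      ((hG.gn.vol t (late_Ioo (h.late ht)) h2 _
        ⟨by linarith [hG.a], by linarith [hG.b]⟩).trans (le_of_eq ?_))
    show _ = 192 * (lam / (2 * k.K')) ^ 4
    ring
  have c1 := h.cmpl t (h.late ht) _ _ t1 s2.top
    (r1.mono (Nat.zero_le _) (h.e_le.trans h.δ) le_rfl) (h.r0 s2) (show 64 * ρ ≤ _ by linarith)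
    (show k.R ≤ _ by linarith) (k.K0 * (2 * lam)) ρ (64 * ρ)
    (show lam / (2 * k.K') ≤ _ by linarith) (show 2 * lam ≤ _ by linarith) hρ.ge le_rfl
    (show _ ≤ k.R by linarith) (h5.mono (inter_subset_inter_left _
      ((res_in_mono N _ _ (by linarith)).trans (Nk.In_sub _ _))))
  obtain ⟨N1, d1, d2, d3, -, d5, d6⟩ := h.glue _ _ _ ρ (64 * ρ) t1 s2.top r1
    (sn_rough s2 (by linarith [h.e0]) (by linarith [h.δS0]) le_rfl)
    (show 2 * (lam / (2 * k.K')) ≤ _ by linarith) (show 2 * (2 * lam) ≤ _ by linarith) le_rfl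
    (show _ ≤ k.R by linarith) le_rfl c1
  have c2 := h.cmp_ns hG' ht (r := 2 * lam) (by linarith) (by linarith) (by nlinarith)
  refine h.fin' h1 ht d1 (d5.mono le_rfl h.δS le_rfl) d2 d3 (fun x hx => ?_) hs h6
  rw [d6 (x / 2) ⟨by linarith [hx.1], show _ ≤ k.R by linarith [hx.2]⟩,
    d6 x ⟨by linarith [hx.1], show _ ≤ k.R by linarith [hx.2]⟩]
  exact c2 x hx

theorem stat' {τ : ℝ} {N : ℝ → Nk M} {v Y : ℝ → ℝ} (h0 : 0 < lam) (h1 : lam ≤ k.l)
    (h2 : k.ts ≤ s - k.c * lam) (h3 : s < τ) (h4 : τ < F.T)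
    (h5 : ∀ t ∈ Ico s τ, k.G F lam (v t) (N t) ∧ |t - v t| ≤ k.c * lam ∧
      Sk.mass (F.m t) ((N t).Om (k.K * lam)) ≤ Y t)
    (h6 : k.G F (lam / k.K) (v τ) (N τ)) (h7 : |τ - v τ| ≤ k.c * (lam / k.K))
    (h8 : IntervalIntegrable Y volume s τ)
    (h9 : (τ - s) * ((∫ t in s..τ, Y t) + lam ^ 4) < k.c * lam ^ 4) (ht : t < F.T)
    (hts : |t - s| ≤ k.c * lam) : k.P F lam t := by
  classical
  obtain ⟨a1, a2, a3, a4⟩ := h.lam_lt h0
  have a0 : 0 < lam / k.K := h6.a ▸ h6.gn.top.a_pos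
  have hR := h.R_pos
  have hl := h.l_le
  have hK0 := h.K0
  have hK := h.K_ge
  have hc := h.c0
  have hc8 := h.c_le
  have hcl : 0 < k.c * lam := by positivity
  have hK1 : 256 ≤ k.K1 := by nlinarith [h.K1, h.KC]
  have b1 : (k.K0 * (2 * lam)) ^ 2 ≤ k.c * lam := by
    have := mul_le_mul_of_nonneg_right ((mul_le_mul_of_nonneg_left h1
      (show 0 ≤ 4 * k.K0 ^ 2 by positivity)).trans h.l3) h0.le
    linarith
  have b2 : k.K1 * (2 * lam) ≤ k.K * lam := by nlinarith [h.KK1]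
  have b3 : k.K * lam ≤ k.R / 16384 := by nlinarith [h.l2]
  have b4 : 2 * lam < k.K1 * (2 * lam) := by nlinarith
  have b5 : 2 * (k.c * lam) ≤ k.cG * (2 * lam) := by nlinarith
  have b6 : k.c * (lam / k.K) ≤ k.cG * (2 * (lam / k.K)) := by nlinarith
  have mem : ∀ u ∈ Icc (s - (k.K0 * (2 * lam)) ^ 2) τ, u ∈ Ico k.ts F.T := fun u hu =>
    ⟨by linarith [hu.1], hu.2.trans_lt h4⟩
  set Z : ℝ → Nk M := fun u => if u < s then (N s).res (2 * lam) k.R else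
    if u < τ then (N u).res (2 * lam) k.R else (N τ).res (2 * (lam / k.K)) k.R with hZ
  set W : ℝ → ℝ := fun u => if u < s then k.V * (k.K1 * (2 * lam)) ^ 2 else
    if u < τ then Y u else Sk.mass (F.m u) ((Z u).Om (k.K1 * (2 * lam))) with hW
  have Zτ : Z τ = (N τ).res (2 * (lam / k.K)) k.R := by simp [hZ, h3.not_gt]
  obtain ⟨i1, i2⟩ := glue_int (Z := W) (a := s - (k.K0 * (2 * lam)) ^ 2)
    (C := k.V * (k.K1 * (2 * lam)) ^ 2) (by linarith [sq_nonneg (k.K0 * (2 * lam))]) h3.le h8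
    (fun u hu => by simp [hW, hu]) fun u hu => by simp [hW, hu.1.not_gt, hu.2]
  have y0 : 0 ≤ ∫ t in s..τ, Y t := by
    rw [intervalIntegral.integral_of_le h3.le, integral_Ioc_eq_integral_Ioo]
    exact setIntegral_nonneg measurableSet_Ioo fun u hu => (mass_nn h.base
      (h.late ⟨by linarith [hu.1], hu.2.trans h4⟩) _).trans (h5 u ⟨hu.1.le, hu.2⟩).2.2
  have l4 : 0 < lam ^ 4 := by positivity
  have y1 : (τ - s) * lam ^ 4 < k.c * lam ^ 4 := by nlinarith [mul_nonneg (sub_pos.2 h3).le y0]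
  have y2 : τ - s < k.c := lt_of_mul_lt_mul_right y1 l4.le
  have key := h.stat s τ (2 * lam) (2 * (lam / k.K)) Z W h3.le (by linarith)
    (le_of_eq (by field_simp)) (by linarith) (by linarith) (fun u hu => ?_) (by rw [Zτ]; rfl) i1 ?_
  · obtain ⟨u, u1, u2⟩ := exists_between (lt_min h3 (show s < s + k.c * lam by linarith))
    obtain ⟨u3, u4⟩ := lt_min_iff.1 u2
    obtain ⟨k1, k2⟩ := key u ⟨u1, u3.le⟩
    have Zu : Z u = (N u).res (2 * lam) k.R := by simp [hZ, u1.not_gt, u3]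
    rw [Zτ] at k1 k2
    rw [Zu] at k2
    refine h.join h0 h1 h6 (h5 u ⟨u1.le, u3⟩).1 ⟨by linarith, u3.trans h4⟩ ?_
      (h5 u ⟨u1.le, u3⟩).2.1 k1 k2 ht ?_
    · have c1 : k.c * (lam / k.K) ≤ k.c :=
        mul_le_of_le_one_right hc.le (by linarith [h.R1, h.R_le])
      obtain ⟨c2, c3⟩ := abs_le.1 h7
      exact abs_le.2 ⟨by linarith, by linarith⟩
    · obtain ⟨c2, c3⟩ := abs_le.1 hts
      exact abs_le.2 ⟨by linarith, by linarith⟩
  · have hu' := mem u hu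
    by_cases e1 : u < s
    · obtain ⟨g1, g2, -⟩ := h5 s ⟨le_rfl, h3⟩
      have c1 : |u - v s| ≤ 2 * (k.c * lam) := by
        obtain ⟨c2, c3⟩ := abs_le.1 g2
        exact abs_le.2 ⟨by linarith [hu.1], by linarith⟩
      simp only [hZ, hW, if_pos e1]
      refine ⟨h.snap g1 hu' (by linarith) (by linarith) (c1.trans b5), le_rfl, rfl,
        om_sub_res _ _ _ _ g1.p, ?_⟩
      rw [res_om (by linarith [g1.a]) b4]
      exact ((h.good (m := 0) (Nat.zero_le _) le_rfl h1 g1 hu' c1).2 _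
        ⟨by linarith, by linarith⟩).2
    · by_cases e2 : u < τ
      · obtain ⟨g1, g2, g3⟩ := h5 u ⟨not_lt.1 e1, e2⟩
        simp only [hZ, hW, if_neg e1, if_pos e2]
        refine ⟨h.snap g1 hu' (by linarith) (by linarith) (by linarith), le_rfl, rfl,
          om_sub_res _ _ _ _ g1.p, ?_⟩
        rw [res_om (by linarith [g1.a]) b4]
        exact (mass_mono h.base (h.late hu') (Nk.Om_mono _ b2)).trans g3
      · obtain rfl : u = τ := le_antisymm hu.2 (not_lt.1 e2)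
        simp only [hW, if_neg e1, if_neg e2]
        rw [Zτ]
        exact ⟨h.snap h6 hu' (by linarith) (by linarith) (h7.trans b6),
          show 2 * (lam / k.K) ≤ _ by linarith, rfl, om_sub_res _ _ _ _ h6.p, le_rfl⟩
  · rw [i2]
    have c0 : 0 ≤ 16 * k.K0 ^ 2 * k.K1 ^ 2 * k.V := by have := h.V; positivity
    have c1 := mul_le_mul_of_nonneg_right h.c4 l4.le
    have c2 := mul_le_mul_of_nonneg_left y1.le c0
    have c3 := mul_pos (sub_pos.2 h3) l4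
    linarith

end Ks.Ok

end Crest.Agent.N207.T.W

end
end

-- ▼ part N207/T/Wd4

/-!
# Row 207 (helper69): block TOP, leaf `WD`
-/

set_option autoImplicit false
set_option linter.unusedSectionVars false

open scoped ContDiff Manifold Topology
open Set MeasureTheory Filter
open Crest.GeometryTopology.CoordMetric Crest.GeometryTopology.ChartCurvature
  Crest.GeometryTopology.MetricFamily

noncomputable section

namespace Crest.Agent.N207.T

open Sk Rad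

variable {M : Type*} [TopologicalSpace M] [ChartedSpace E4 M] [IsManifold 𝓘(ℝ, E4) ∞ M]
  [T3Space M] [ConnectedSpace M] [CompactSpace M] [MeasurableSpace M] [BorelSpace M] {F : Flow M}

namespace W

theorem ev_le (a : ℝ) {b : ℝ} (hb : 0 < b) : ∀ᶠ x in 𝓝[>] (0 : ℝ), a * x ≤ b := by
  have h : Tendsto (fun x : ℝ => a * x) (𝓝 0) (𝓝 (a * 0)) := tendsto_id.const_mul a
  rw [mul_zero] at h
  exact (h.eventually (ge_mem_nhds hb)).filter_mono nhdsWithin_le_nhds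

theorem ev_pos : ∀ᶠ x in 𝓝[>] (0 : ℝ), 0 < x := self_mem_nhdsWithin

theorem Ks.Ok.wd {k : Ks M} (h : k.Ok F) {m : ℕ} {η : ℝ} (hm : m ≤ k.m) (hη : 2 * k.e ≤ η) :
    Wd F m η (fun j => 4 * k.Cs j) k.V k.c k.K k.R k.l k.ts (fun n => k.P F (k.l / k.K ^ n))
      fun n => k.G F (k.l / k.K ^ n) where
  K_ge := by linarith [h.K_ge]
  l_pos := h.l0
  l_le := h.l1
  R_le := by linarith [h.R1, h.R_le, h.R_pos]
  c_pos := h.c0
  c_le := by linarith [h.c_le, h.cG1, h.c0]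
  ts_mem := h.ts
  ev n := h.ev (h.lam_pos n) (h.lam_le n)
  mono n t ht hP := h.mono (h.lam_pos n) (h.lam_le n) ht (by rwa [div_div, ← pow_succ])
  fail t ht := h.fail ht
  ex n v hv hP := h.ex (h.lam_pos n) (h.lam_le n) hv hP
  top n v N hG := ⟨hG.gn.top, hG.a, hG.b⟩
  good n v N hG s hs h2 := h.good hm hη (h.lam_le n) hG hs h2
  far n v N hG u hu r h1 _ s hs h2 x hx := h.far' hm hη hG hu h1.le hs h2 hx
  cmp n v N n' v' N' hG hG' r h1 h2 h3 := h.cmp hG hG' h1 h2 h3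
  back n v N hG t ht h2 := h.back (h.lam_pos n) (h.lam_le n) (by rwa [div_div, ← pow_succ]) ht h2
  stat n s τ N v Y h2 h3 h4 h5 h6 h7 h8 h9 t ht hts := h.stat' (h.lam_pos n) (h.lam_le n) h2 h3 h4
    h5 (by rwa [div_div, ← pow_succ]) (by rwa [div_div, ← pow_succ]) h8 h9 ht.2 hts

theorem exists_ks (hB : Base F) (h1 : SING F) (h2 : SW F) (h3 : CMPL F) (h4 : CEN F) (h5 : FAR F)
    (h6 : GNL F) (h7 : RES F) (h8 : FIN F) (h9 : STAT F) (h10 : GLUE M) (hn : ¬F.BddRm) (m : ℕ)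
    {η : ℝ} (hη : 0 < η) : ∃ k : Ks M, k.Ok F ∧ m ≤ k.m ∧ 2 * k.e ≤ η := by
  obtain ⟨p, ε, c0, r0, hS⟩ := h1 hn
  have hε := hS.1
  have hc0 := hS.2.1
  have hr0 := hS.2.2.1
  obtain ⟨η1, a1, a2, gnl⟩ := h6
  obtain ⟨δ, cF, rF, b1, b2, b3, b4, fin⟩ := h8 η1 a1
  obtain ⟨e0, CG, d1, d2, glue⟩ := h10
  obtain ⟨CS, KE, rE, e1, e2, e3, -, cen⟩ := h4
  obtain ⟨KC, rC, f1, f2, cmpl⟩ := h3 192
  obtain ⟨Cm, rM, g1, g2, mas⟩ := mass_le hB h2
  obtain ⟨η0, K0, i1, i2, stat⟩ := h9 p ε c0 r0 hS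
  obtain ⟨e, j0, j1, j2, j3, j4, j5, j6⟩ := (ev_pos.and <| (ev_le 400 one_pos).and <|
    (ev_le 2 hη).and <| (ev_le 2 i1).and <| (ev_le (8 * CG) b1).and <| (ev_le 8 d1).and <|
    ev_le (16 * CS) hε).exists
  have j7 : CS * (2 * e) ^ 2 ≤ ε / 4 := by
    have := mul_le_mul_of_nonneg_left (show e ≤ 1 by linarith) (mul_pos e1 j0).le
    linarith
  obtain ⟨VF, R0, k1, far⟩ := h5 p ε c0 r0 hS η1 a1
  obtain ⟨K', cG, rG, Cs, l1, l2, l3, l4, -, l6, gnl⟩ := gnl (max VF 192) (max m 2) e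
    (le_max_right _ _) j0 (by linarith)
  obtain ⟨K1, m1, m2, stat⟩ := stat (64 * KC * K0)
    (by linarith [mul_le_mul f1 i2 zero_le_two (by linarith)])
  obtain ⟨δS, n0, n1, n2⟩ := (ev_pos.and <| (ev_le (2 * CG) b1).and <| ev_le 2 d1).exists
  have p1 : 0 ≤ 64 * KC * KE := by positivity
  have p2 : 0 ≤ 4 * K0 * K' := by positivity
  obtain ⟨K, hK⟩ : ∃ K, K = 2 * K1 + 64 * KC * KE + 4 * K0 * K' := ⟨_, rfl⟩
  obtain ⟨cS, rS, o1, o2, stat⟩ := stat K (by linarith) δS n0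
  obtain ⟨R, q0, q1, q2, q3, q4, q5, q6, q7, q8, q9⟩ := (ev_pos.and <|
    (ev_le (2 * K') one_pos).and <| (ev_le (2 * K' * K') k1).and <| (ev_le (2 * K' * K') l4).and <|
    (ev_le (2 * K') e3).and <| (ev_le (2 * K') f2).and <| (ev_le (2 * K') b4).and <|
    (ev_le 1 g2).and <| (ev_le 1 o2).and <| ev_le 1 hr0).exists
  obtain ⟨a, ha⟩ : ∃ a, a = R / (4096 * KC * KE) := ⟨_, rfl⟩
  have r1 : 0 < a := by rw [ha]; positivity
  have r2 : a ≤ R := ha ▸ div_le_self q0.le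
    (by linarith [mul_le_mul f1 e2 zero_le_two (by linarith)])
  have r3 : 2 * R ≤ K' * R := mul_le_mul_of_nonneg_right l1 q0.le
  have r4 : 2 * (K' * R) ≤ K' * (K' * R) := mul_le_mul_of_nonneg_right l1 (by linarith)
  have r5 : a / (2 * K') ≤ a := div_le_self r1.le (by linarith)
  obtain ⟨N0, t0, s1, s2, s3, s4, s5, s6⟩ := far (a / (2 * K')) (2 * K' * K' * R) (by positivity)
    (by linarith) q2
  obtain ⟨d, u0, u1, u2, u3, u4⟩ := (ev_pos.and <| (ev_le 1 (sub_pos.2 s1.2)).and <|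
    (ev_le 1 (mul_pos l2 r1)).and <| (ev_le 1 (show 0 < cS * (R / 32) ^ 2 by positivity)).and <|
    ev_le 1 (show 0 < c0 * (R / 32) by positivity)).exists
  have ts1 : F.T - d ∈ late F := ⟨by linarith [s1.1], by linarith⟩
  obtain ⟨N1, v1, v2, v3, -, v5⟩ := gnl _ ts1 N0 s2
    ((s6 _ ⟨by linarith, ts1.2⟩).mono le_rfl le_rfl (le_max_left _ _)) (by linarith) (by
      rw [s3, s4, show K' ^ 3 * (a / (2 * K')) = K' * (K' * a) / 2 by field_simp]
      linarith [mul_le_mul_of_nonneg_left r2 (show 0 ≤ K' * K' by positivity)])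
  have w1 : N1.a = a / 2 := by rw [v1, s3]; field_simp
  have w2 : N1.b = 2 * (K' * R) := by rw [v2, s4]; field_simp
  obtain ⟨c, x0, x1, x2, x3, x4⟩ := (ev_pos.and <| (ev_le (64 * KC * KE) l2).and <|
    (ev_le (4 * K') l2).and <| (ev_le (4 * K') b3).and <|
    ev_le (1 + 16 * K0 ^ 2 * K1 ^ 2 * (12 + 4 * Cm)) (show 0 < 16 * cS by positivity)).exists
  obtain ⟨l, y0, y1, y2, y3⟩ := (ev_pos.and <| (ev_le (K ^ 2) q0).and <|
    (ev_le (16384 * K) q0).and <| ev_le (4 * K0 ^ 2) x0).exists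
  refine ⟨⟨p, max m 2, η1, δ, e, ε / 2, KE, KC, K', cG, cF, CG, K0, K1, K, δS, cS, R, c, l,
    F.T - d, max VF 192, 12 + 4 * Cm, Cs, N1.res a (2 * (K' * R))⟩,
    ⟨⟨le_max_right _ _, a2, b2, j0, ?_, half_pos hε, e2, f1, l1, l3, d2, i2, m1, ?_, ?_, ?_, n0, ?_,
      ?_, x0, ?_, x2, x3, ?_, y0, y1, y2, y3, le_max_right _ _, ?_, l6⟩, hB, ts1, h7, ?_, ?_, ?_,
      ?_, ?_, ?_, ?_, ?_, ?_, ha, rfl, Or.inl (v3 s5)⟩, le_max_left _ _, j2⟩ <;> dsimp only
  iterate 9 linarith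
  · intro b z1 z2
    obtain ⟨N, t, c1, c2, c3, c4, c5, c6⟩ := far b (K' * R) z1 z2 (by linarith)
    exact ⟨N, t, c1, c2, c3, c4, c5, fun s hs => (c6 s hs).mono le_rfl le_rfl (le_max_left _ _)⟩
  · exact fun t ht N z1 z2 z3 z4 => gnl t ht N z1 z2 (by linarith) z4
  · intro s hs N z1 z2 z3 z4 z5
    obtain ⟨-, c2, c3⟩ := cen p ε c0 r0 hS s (2 * e) (R / 32) N (by linarith) (by linarith)
      (by linarith) (by linarith [hs.1]) z1 (by linarith) z3 z4 z5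
    exact ⟨by linarith, fun N' c4 c5 c6 c7 c8 => c3 N' c4 (by linarith) c6 c7 c8 (by linarith)⟩
  · exact fun t ht N N' z1 z2 z3 z4 z5 z6 => cmpl t ht N N' z1 z2 z3 z4 (by linarith) (by linarith)
  · exact fun s N z1 z2 z3 ρ hρ => (mas s _ N z1 (by linarith) (by linarith) (by linarith) z3 ρ
      hρ).trans (mul_le_mul_of_nonneg_right (by linarith) (sq_nonneg _))
  · exact fun t ht N N' ρ1 ρ2 z1 z2 z3 z4 z5 z6 z7 z8 z9 z10 =>
      fin t ht N N' ρ1 ρ2 z1 z2 z3 z4 z5 z6 z7 z8 z9 (by linarith)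
  · exact fun g N N' ρ1 ρ2 z1 z2 => glue g N N' _ _ _ ρ1 ρ2 z1 z2 (by linarith) (by linarith)
  · exact fun s τ b b' N Y z1 z2 z3 z4 z5 => stat s τ b b' (R / 32) R (2 * e) N Y z1 (by linarith)
      j3 z2 z3 z4 (by linarith) (by linarith) (by linarith)
  · intro s hs
    have := h7 _ _ _ _ _ N1 a s v5 (le_max_right _ _) j0.le l2 (by linarith) (by linarith)
      (by linarith) ⟨ts1.1.trans hs.1, hs.2⟩ (abs_le.2 ⟨by linarith [hs.1], by linarith [hs.2]⟩)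
    rwa [w2] at this

end W

/-- the leaf `WD` -/
theorem wd (hB : Base F) (h1 : SING F) (h2 : SW F) (h3 : CMPL F) (h4 : CEN F) (h5 : FAR F)
    (h6 : GNL F) (h7 : RES F) (h8 : FIN F) (h9 : STAT F) (h10 : GLUE M) : WD F := fun hn m η hη => by
  obtain ⟨k, hk, hm, he⟩ := W.exists_ks hB h1 h2 h3 h4 h5 h6 h7 h8 h9 h10 hn m hη
  exact ⟨_, _, _, _, _, _, _, _, _, hk.wd hm he⟩

end Crest.Agent.N207.T

end
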