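import Crest.Agent.N207.T.St
import Crest.Agent.N207.T.Lo2
import Crest.Agent.N207.A.Alg
import Crest.Agent.N207.GE.Dist
import Crest.Agent.N207.Rad.Neck2
import Crest.Agent.N207.T.Up3
import Crest.Agent.N207.T.Sw_Mg
import Crest.Agent.N207.T.Wd4_Mg
import Crest.Agent.N207.T.Pers3

-- ▼ part N207/T/Sing
section

/-!
# Row 207 (helper16): block TOP, the leaves `SING` and `FAR`
-/

set_option autoImplicit false
set_option linter.unusedSectionVars false

open scoped ContDiff Manifold Topology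
open Set MeasureTheory Filter

noncomputable section

namespace Crest.Agent.N207.T

open Sk

variable {M : Type*} [TopologicalSpace M] [ChartedSpace E4 M] [IsManifold 𝓘(ℝ, E4) ∞ M]
  [T3Space M] [ConnectedSpace M] [MeasurableSpace M] [BorelSpace M] [CompactSpace M] {F : Flow M}

theorem sing (hB : Base F) : SING F := by
  intro hn
  obtain ⟨ε, c, r0, hε, hc, hr, h⟩ := hB.e.stat _ (half_pos F.hT)
  obtain ⟨C, -, h⟩ := h 0
  by_contra hs
  have key : ∀ p : M, ∃ (U : Set M) (t B : ℝ), IsOpen U ∧ p ∈ U ∧ t < F.T ∧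
      ∀ s ∈ Ico t F.T, ∀ y ∈ U, (F.m s).rm 0 y ≤ B := fun p => by
    have : ¬∀ t ∈ late F, ∀ r ∈ Ioc 0 r0, F.T - t ≤ c * r → ε ≤ F.hc.en t p r := fun k =>
      hs ⟨p, ε, c, r0, hε, hc, hr, k⟩
    push Not at this
    obtain ⟨t, ht, r, hr, h1, h2⟩ := this
    refine ⟨F.hc.B t p (r / 2), t, C / r ^ (4 + 2 * 0),
      isOpen_lt (hB.ok.dist.cont t (late_Ioo ht) p) continuous_const, ?_, ht.2, fun s hs y hy =>
        (h t ht p r hr.1 hr.2 h2.le y hy s hs (by linarith [hs.2])).1⟩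
    change F.hc.d t p p < r / 2
    rw [hB.ok.dist.self t (late_Ioo ht)]; exact half_pos hr.1
  choose U t B hU hp ht hb using key
  obtain ⟨I, hI⟩ := isCompact_univ.elim_finite_subcover U hU fun p _ => mem_iUnion.2 ⟨p, hp p⟩
  obtain ⟨t1, h1, h2⟩ : ∃ t1 < F.T, ∀ p ∈ I, t p ≤ t1 := by
    obtain ⟨t1, h1, h2⟩ := (((eventually_all_finset I).2 fun p _ => Ico_mem_nhdsLT (ht p)).and
      (self_mem_nhdsWithin (s := Iio F.T))).exists
    exact ⟨t1, h2, fun p hp => (h1 p hp).1⟩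
  obtain ⟨B1, h3⟩ := (I.finite_toSet.image B).bddAbove
  obtain ⟨B2, h4⟩ := Sta.smST_bdd (Sta.smST_rm (F.sm.mono' (J' := Icc 0 t1)
    fun _ hs => ⟨hs.1, hs.2.trans_lt h1⟩) 0) isCompact_Icc
  refine hn ⟨max B1 B2, fun s hs y => ?_⟩
  rcases le_total s t1 with e | e
  · exact ((le_abs_self _).trans (h4 s ⟨hs.1, e⟩ y)).trans (le_max_right _ _)
  · obtain ⟨p, hp, hy⟩ := mem_iUnion₂.1 (hI (mem_univ y))
    exact ((hb p s ⟨(h2 p hp).trans e, hs.2⟩ y hy).trans (h3 ⟨p, hp, rfl⟩)).trans (le_max_left _ _)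

/-- below a fixed level, every bounded range of levels is frequently free of bad levels -/
theorem free_range {α : Type*} {l : Filter α} [l.NeBot] {Bad : α → Finset ℤ} {n0 : ℕ}
    (h : ∀ᶠ t in l, (Bad t).card ≤ n0) :
    ∃ m : ℤ, ∀ n : ℤ, ∀ {P : α → Prop}, (∀ᶠ t in l, P t) →
      ∃ t, P t ∧ ∀ j ∈ Bad t, j < n ∨ m ≤ j := by
  have hU := Ultrafilter.of_le l
  set U := Ultrafilter.of l
  have hS : {j : ℤ | ∀ᶠ t in U, j ∈ Bad t}.Finite := by
    by_contra k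
    obtain ⟨J, h1, h2⟩ := Set.Infinite.exists_subset_card_eq k (n0 + 1)
    obtain ⟨t, a, b⟩ := (((eventually_all_finset J).2 fun j hj => h1 hj).and (hU h)).exists
    have : (Bad t).card ≤ n0 := b
    have := Finset.card_le_card (show J ⊆ Bad t from a)
    omega
  obtain ⟨m, hm⟩ := hS.bddBelow
  refine ⟨m, fun n P hP => ?_⟩
  obtain ⟨t, a, b⟩ := (((eventually_all_finset (Finset.Ico n m)).2 fun j hj =>
    Ultrafilter.eventually_not.2 fun k : ∀ᶠ t in U, j ∈ Bad t =>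
      (Finset.mem_Ico.1 hj).2.not_ge (hm k)).and (hU hP)).exists
  exact ⟨t, b, fun j hj => by_contra fun k => a j (Finset.mem_Ico.2 (by omega)) hj⟩

theorem far (hB : Base F) (hC : CONE F) (hN : NPERS F) : FAR F := by
  intro p ε c r0 ⟨hε, hc, hr0, hS⟩ η hη
  obtain ⟨r2, hr2, hN⟩ := hN
  obtain ⟨c', Cp, hc', -, hCp, hN⟩ := hN fun _ => 1 / 100
  obtain ⟨V, K, r1, n0, hK, hr1, hC⟩ := hC (min (η / 2) (1 / 100)) ε (by positivity) hε
  choose! Bad hcard hneck using fun t ht => hC t ht p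
  obtain ⟨Kr, hKr⟩ := hB.ok.evo.R_bd
  have hl : ∀ᶠ t in 𝓝[<] F.T, t ∈ late F := Ico_mem_nhdsLT (half_lt_self F.hT)
  obtain ⟨m, hm⟩ := free_range (hl.mono hcard)
  have p0 := hCp 0
  have p1 := hCp 1
  have p2 := hCp 2
  refine ⟨Real.exp (|Kr| * F.T) * (|V| + 16), min (min (r1 / 2) (r2 / 2))
    (min (2 ^ (m - 1) / (2 * K)) r0), by positivity, fun a b ha hab hb => ?_⟩
  simp only [le_min_iff] at hb
  obtain ⟨⟨b1, b2⟩, b3, b4⟩ := hb
  rw [le_div_iff₀ (by positivity)] at b3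
  have ha' : 0 < a / 2 / K := by positivity
  have ha2 : a / 2 / K ≤ a := by rw [div_le_iff₀ (by positivity)]; nlinarith
  obtain ⟨n, hn⟩ := exists_mem_Ico_zpow ha' one_lt_two
  set μ := min (c * (a / 2 / K)) (min (c' * a) (a * (η / 2 / (Cp 0 + Cp 1 + Cp 2)))) with hμ
  have μ0 : 0 < μ := by positivity
  obtain ⟨t, ⟨ht, ht'⟩, hbad⟩ := hm n (hl.and (Ico_mem_nhdsLT (sub_lt_self F.T μ0)))
  have t1 : F.T - t ≤ μ := by linarith [ht'.1]
  simp only [hμ, le_min_iff] at t1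
  obtain ⟨N, hT, e1, e2, hp, hR⟩ := hneck t ht (a / 2) (2 * b) (half_pos ha) (by linarith)
    (by linarith) (fun j hj => (hbad j hj).imp
      (fun k => (zpow_lt_zpow_right₀ one_lt_two k).trans_le hn.1)
      fun k => lt_of_le_of_lt (by linarith) (zpow_lt_zpow_right₀ one_lt_two (by omega : m - 1 < j)))
    (by rw [en_eq]; exact hS t ht _ ⟨ha', by linarith⟩ t1.1)
  have hR1 := hR.mono le_rfl (min_le_right _ _) le_rfl
  refine ⟨N.res a b, t, ht, Rad.res_top hT (by linarith) hab (by linarith), rfl, rfl, .inl hp,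
    fun s hs => ⟨fun x hx k hk i j => ?_, ?_⟩⟩
  · have hx1 : a < ‖x‖ := hx.1
    have hx2 : ‖x‖ < b := hx.2
    have hx' : x ∈ shell N.a N.b := ⟨by linarith, by linarith⟩
    have st : |s - t| ≤ F.T - t := by rw [abs_of_nonneg (by linarith [hs.1])]; linarith [hs.2]
    refine ((hN t ht N hT hR1.jet (by linarith) x ⟨by linarith, by linarith⟩ 2 (hR1.jet x hx') s
      hs.2 (by nlinarith [t1.2.1])).2 k hk i j _ (hR.jet x hx' k hk i j)).trans ?_
    have q1 : |s - t| / ‖x‖ ≤ η / 2 / (Cp 0 + Cp 1 + Cp 2) := by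
      rw [div_le_iff₀ (by linarith)]
      have : 0 < η / 2 / (Cp 0 + Cp 1 + Cp 2) := by positivity
      nlinarith [t1.2.2]
    have q2 : Cp k ≤ Cp 0 + Cp 1 + Cp 2 := by interval_cases k <;> linarith
    have q3 := mul_le_mul q2 q1 (by positivity) (by positivity)
    rw [mul_div_cancel₀ _ (by positivity)] at q3
    linarith [min_le_left (η / 2) (1 / 100)]
  · have hs' : s ∈ Ioo 0 F.T := ⟨(late_Ioo ht).1.trans_le hs.1, hs.2⟩
    have := hB.ok.int.fin t (late_Ioo ht)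
    have k := hB.ok.int.vol_le (K := |Kr|) (fun t ht x => (hKr t ht x).trans (le_abs_self _)) t
      (late_Ioo ht) s hs' (N.res a b).In
    rw [Measure.smul_apply, smul_eq_mul] at k
    have k2 := ENNReal.toReal_mono (ENNReal.mul_ne_top ENNReal.ofReal_ne_top (measure_ne_top _ _)) k
    rw [ENNReal.toReal_mul, ENNReal.toReal_ofReal (Real.exp_pos _).le] at k2
    have k3 : (F.hc.vol t).real (N.res a b).In ≤ _ :=
      (measureReal_mono (Rad.res_in_sub (r := 3 / 2 * a) (by linarith))).trans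
        (hT.vol_Om (F.m t) (hR1.mono (Nat.zero_le _) le_rfl (le_abs_self V))
          ⟨by linarith, by linarith⟩)
    rw [e1] at k3
    have a4 : 0 < a ^ 4 := by positivity
    refine k2.trans ?_
    rw [mul_assoc]
    refine mul_le_mul (Real.exp_le_exp.2 (mul_le_mul_of_nonneg_left ?_ (abs_nonneg _)))
      (k3.trans ?_) ENNReal.toReal_nonneg (Real.exp_pos _).le
    · rw [abs_of_nonneg (by linarith [hs.1])]; linarith [hs.2, (late_Ioo ht).1]
    · change _ ≤ (|V| + 16) * a ^ 4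
      nlinarith [mul_nonneg (abs_nonneg V) a4.le]

end Crest.Agent.N207.T

end
end

-- ▼ part N207/T/Up4
section

/-!
Row 207 (helper78): `NVUp` and `NV`.
-/

set_option autoImplicit false
set_option linter.unusedSectionVars false

open scoped ContDiff Manifold Topology RealInnerProductSpace
open Set MeasureTheory Filter Metric
open Crest.GeometryTopology.CoordMetric Crest.GeometryTopology.ChartCurvature
  Crest.GeometryTopology.MetricFamily

noncomputable section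

namespace Crest.Agent.N207.T

open Sk

variable {M : Type*} [TopologicalSpace M] [ChartedSpace E4 M] [IsManifold 𝓘(ℝ, E4) ∞ M]
  [T3Space M] [ConnectedSpace M] [CompactSpace M] [MeasurableSpace M] [BorelSpace M]


set_option maxHeartbeats 800000 in
theorem nvUp {F : Flow M} (hB : Base F) (hC : CONE F) (hD : DIST F) {ε θ v : ℝ} (hε : 0 < ε)
    (hθ : 0 < θ) (hθ1 : θ ≤ 1) (hv : om / 2 < v) : NVUp F.hc ε θ v := by
  obtain ⟨ξ, ξ0, ξ1, hξ⟩ := exists_xi hv
  obtain ⟨η0, hη0, hdet⟩ := near_det ξ0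
  obtain ⟨η, η1, η2, η3, η4⟩ : ∃ η, 0 < η ∧ η ≤ η0 ∧ η ≤ ξ / 12 ∧ η ≤ 1 / 100 :=
    ⟨min η0 (min (ξ / 12) (1 / 100)), by positivity, min_le_left _ _,
      (min_le_right _ _).trans (min_le_left _ _), (min_le_right _ _).trans (min_le_right _ _)⟩
  obtain ⟨V, K, r1, n0, hK, hr1, hC⟩ := hC η ε η1 hε
  obtain ⟨K3, r3, -, hr3, hD⟩ := hD V
  obtain ⟨εU, r0, C, hεU, hr0, hC0, hR⟩ := ric_ann hB
  obtain ⟨Cv, hCv, hU⟩ := hB.c.up (F.T / 2) (half_pos F.hT)
  obtain ⟨l, l0, l1, l2⟩ : ∃ l : ℝ, 0 < l ∧ l ≤ 1 ∧ Cv * l ≤ ξ :=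
    ⟨min 1 (ξ / Cv), by positivity, min_le_left _ _,
      by rw [mul_comm, ← le_div_iff₀ hCv]; exact min_le_right _ _⟩
  have K0 : 0 < K := by linarith
  have V0 := abs_nonneg V
  obtain ⟨L, L1, L2, L3⟩ : ∃ L : ℝ, 32 * K ≤ l * L ∧ 16 * K ^ 2 * (1 + |V|) ≤ ξ * L ∧
      192 * K * (2 * n0 + 1) ≤ l * ξ * L := by
    refine ⟨32 * K / l + 16 * K ^ 2 * (1 + |V|) / ξ + 192 * K * (2 * n0 + 1) / (l * ξ), ?_, ?_, ?_⟩
    all_goals
      rw [mul_comm _ (_ + _ + _), ← div_le_iff₀ (by positivity)]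
      have : 0 ≤ 32 * K / l := by positivity
      have : 0 ≤ 16 * K ^ 2 * (1 + |V|) / ξ := by positivity
      have : 0 ≤ 192 * K * (2 * n0 + 1) / (l * ξ) := by positivity
      linarith
  have L0 : 0 < L := by by_contra! h; nlinarith only [L1, h, l0, K0]
  have L4 : 32 * K ≤ L := L1.trans (mul_le_of_le_one_left L0.le l1)
  have L5 : 1 ≤ L := by linarith
  obtain ⟨Λ, hΛ⟩ : ∃ Λ, Λ = L ^ 2 := ⟨_, rfl⟩
  have LΛ : L ≤ Λ := by rw [hΛ]; nlinarith only [L5]
  have Λ1 : 1 ≤ Λ := L5.trans LΛ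
  have Λp : 1 ≤ Λ ^ (n0 + 1) := one_le_pow₀ Λ1
  obtain ⟨β, hβ⟩ : ∃ β, β = θ / Λ ^ (n0 + 1) := ⟨_, rfl⟩
  have β0 : 0 < β := by rw [hβ]; positivity
  have β1 : β ≤ 1 := by rw [hβ]; exact (div_le_self hθ.le Λp).trans hθ1
  obtain ⟨T, hT⟩ : ∃ T, T = (2 * n0 + 1) * L := ⟨_, rfl⟩
  have T0 : 0 < T := by rw [hT]; positivity
  refine ⟨εU, β, min (min (r1 / 2) (r3 / 2)) (min r0 (ξ * β / (8 * C * T))), hεU, β0, β1,
    by positivity, fun t ht y ρ ρ0 ρ1 e1 e2 r hr => ?_⟩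
  have ht' : t ∈ Ioo 0 F.hc.T := ⟨(half_pos F.hT).trans_le ht.1, ht.2⟩
  have fin : IsFiniteMeasure (F.m t).vol := hB.ok.int.fin t ht'
  have q1 : ρ ≤ r1 / 2 := ρ1.trans ((min_le_left _ _).trans (min_le_left _ _))
  have q2 : ρ ≤ r3 / 2 := ρ1.trans ((min_le_left _ _).trans (min_le_right _ _))
  have q3 : ρ ≤ r0 := ρ1.trans ((min_le_right _ _).trans (min_le_left _ _))
  have q4 : ρ ≤ ξ * β / (8 * C * T) := ρ1.trans ((min_le_right _ _).trans (min_le_right _ _))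
  obtain ⟨Bad, hBad, hC⟩ := hC t ht y
  obtain ⟨σ, hσ⟩ : ∃ σ, σ = β * ρ := ⟨_, rfl⟩
  have σ0 : 0 < σ := by rw [hσ]; positivity
  have σ1 : σ ≤ ρ := by rw [hσ]; exact mul_le_of_le_one_left ρ0.le β1
  rw [← hσ] at e1 e2
  obtain ⟨i, hi, hgap⟩ := exists_gap hBad σ0 Λ1
  obtain ⟨u, hu⟩ : ∃ u, u = σ * Λ ^ i := ⟨_, rfl⟩
  have u1 : σ ≤ u := by rw [hu]; exact le_mul_of_one_le_right σ0.le (one_le_pow₀ Λ1)
  have u0 : 0 < u := σ0.trans_le u1
  have u2 : u * Λ ≤ θ * ρ := by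
    have : σ * Λ ^ (n0 + 1) = θ * ρ := by rw [hσ, hβ]; field_simp
    rw [← this, hu, mul_assoc, ← pow_succ]
    exact mul_le_mul_of_nonneg_left (pow_le_pow_right₀ Λ1 (by omega)) σ0.le
  obtain ⟨r2, hr2⟩ : ∃ r2, r2 = u * Λ / (4 * K) := ⟨_, rfl⟩
  have r20 : 0 < r2 := by rw [hr2]; positivity
  have r21 : 4 * K * r2 = u * Λ := by rw [hr2]; field_simp
  have r22 : r2 ≤ θ * ρ := by nlinarith only [r21, u2, hK, r20]
  have θρ : θ * ρ ≤ ρ := mul_le_of_le_one_left ρ0.le hθ1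
  have a1 : K * u * (4 * (1 + |V|)) ≤ ξ * r2 := by
    have h1 : 16 * K ^ 2 * (1 + |V|) ≤ ξ * Λ := L2.trans (mul_le_mul_of_nonneg_left LΛ ξ0.le)
    have h2 := mul_le_mul_of_nonneg_left h1 u0.le
    refine le_of_mul_le_mul_left ?_ (show 0 < 4 * K by positivity)
    calc _ = u * (16 * K ^ 2 * (1 + |V|)) := by ring
      _ ≤ u * (ξ * Λ) := h2
      _ = ξ * (4 * K * r2) := by rw [r21]; ring
      _ = _ := by ring
  have Ku : 0 < K * u := by positivity
  obtain ⟨a2, a3, a4⟩ := num_a Ku V0 ξ1 r20 a1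
  obtain ⟨N, hN, na, nb, hy, hRo⟩ := hC (K * u) (2 * r2) Ku (by linarith) (by linarith)
    (fun j hj => by
      rw [mul_div_cancel_left₀ _ K0.ne', show K * (2 * r2) = σ * Λ ^ (i + 1) / 2 by
        rw [pow_succ, ← mul_assoc σ, ← hu, ← r21]; ring, hu]
      exact hgap j hj)
    (by
      rw [mul_div_cancel_left₀ _ K0.ne', en_eq]
      refine e1.trans (setIntegral_mono_set
        (hB.ok.alg.integrable hB.ok.int ht' (hB.ok.alg.s0_N ht' 0)).integrableOn
        (Eventually.of_forall fun z => hB.ok.evo.N_nonneg 0 t ht' z)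
        (LE.le.eventuallyLE fun z hz => lt_of_lt_of_le hz u1)))
  obtain ⟨d1, d2, -⟩ := hD t ht N η hN ⟨fun x hx k hk => hRo.jet x hx k (by omega), hRo.vol⟩ η4
    (by linarith) (by linarith) y hy
  have k1 := vol_ball_neck (F.m t) hN ξ0 ξ1 η3 r20 nb (by linarith) (by rw [na]; exact a3) hRo.vol
    (fun x hx => hdet _ fun i j => (JG_entry (hRo.jet x hx) i j).trans η2)
    (fun x hx => (d1 x hx).1) d2
  have r0' : 0 < r := r20.trans_le (r22.trans hr.1)
  have b1 : σ * (l * Λ) ≤ 4 * K * (l * r2) := by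
    calc _ ≤ u * (l * Λ) := mul_le_mul_of_nonneg_right u1 (by positivity)
      _ = l * (4 * K * r2) := by rw [r21]; ring
      _ = _ := by ring
  have b2 : 4 * (2 * σ) ≤ l * r2 := num_b2 K0 l0 σ0 L1 LΛ b1
  have k2 := Up.bg_ann (F.m t) y (s := 2 * σ) (b := l * r2) (κ := C / σ) (by positivity) b2
    (by positivity) r20 (r22.trans hr.1) fun p p1 p2 =>
      hR t ht y σ ρ σ0 σ1 q3 e2 p p1 (by linarith [hr.2])
  rw [mul_div_cancel_right₀ _ r20.ne'] at k2
  have lg : Real.log (r / r2) ≤ T := by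
    have h2 : θ * ρ = σ * Λ * Λ ^ n0 := by rw [hσ, hβ, pow_succ]; field_simp
    have h3 : σ * Λ ≤ 4 * K * r2 := r21 ▸ mul_le_mul_of_nonneg_right u1 (by positivity)
    rw [hΛ] at h2 h3
    rw [hT]
    exact num_lg K0 r0' r20 L0 L4 (by rw [← h2]; linarith only [hr.2]) h3
  have ex : (12 * (2 * σ / (l * r2)) + C / σ * r ^ 2) * Real.log (r / r2) ≤ ξ := by
    have h1 : 12 * (2 * σ / (l * r2)) * T ≤ ξ / 2 := by
      rw [hT]
      exact num_ex K0 l0 σ0 L0 r20 ξ0 L3 (hΛ ▸ b1)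
    have h2 : C / σ * r ^ 2 * T ≤ ξ / 2 := by
      have h3 : r ^ 2 ≤ (2 * ρ) ^ 2 := pow_le_pow_left₀ r0'.le (by linarith [hr.2]) 2
      rw [le_div_iff₀ (by positivity)] at q4
      calc _ ≤ C / σ * (2 * ρ) ^ 2 * T := by gcongr
        _ = ρ * (8 * C * T) / (2 * β) := by rw [hσ]; field_simp; ring
        _ ≤ ξ * β / (2 * β) := by gcongr
        _ = _ := by field_simp
    refine (mul_le_mul_of_nonneg_left lg (by positivity)).trans ?_
    rw [add_mul]; linarith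
  have k3 : (F.hc.vol t).real (F.hc.B t y (l * r)) ≤ ξ * r ^ 4 := by
    refine (hU t ht y _ (by positivity)).trans ?_
    rw [mul_pow, ← mul_assoc]
    refine mul_le_mul_of_nonneg_right (le_trans (mul_le_mul_of_nonneg_left ?_ hCv.le) l2)
      (by positivity)
    exact pow_le_of_le_one l0.le l1 (by norm_num)
  have s1 : F.hc.B t y r ⊆ F.hc.B t y (l * r) ∪ {p | l * r ≤ (F.m t).d y p ∧ (F.m t).d y p ≤ r} :=
    fun p hp => (lt_or_ge ((F.m t).d y p) (l * r)).imp id fun h => ⟨h, le_of_lt hp⟩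
  have k4 := (measureReal_mono s1).trans (measureReal_union_le (μ := (F.m t).vol) _ _)
  have := om_pos
  have k5 : Real.exp ((12 * (2 * σ / (l * r2)) + C / σ * r ^ 2) * Real.log (r / r2)) *
      (r / r2) ^ 4 * (F.m t).vol.real {p | (F.m t).d y p ≤ r2} ≤
      Real.exp ξ * (r / r2) ^ 4 * ((ξ + (1 + ξ) ^ 5 * (om / 2)) * r2 ^ 4) := by gcongr
  have e : Real.exp ξ * (r / r2) ^ 4 * ((ξ + (1 + ξ) ^ 5 * (om / 2)) * r2 ^ 4) =
      Real.exp ξ * (ξ + (1 + ξ) ^ 5 * (om / 2)) * r ^ 4 := by field_simp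
  have k6 := mul_le_mul_of_nonneg_right hξ (show 0 ≤ r ^ 4 by positivity)
  have k7 : (F.m t).vol.real (F.hc.B t y (l * r)) ≤ ξ * r ^ 4 := k3
  show (F.m t).vol.real (F.hc.B t y r) ≤ v * r ^ 4
  nlinarith only [k2, k4, k5, e, k6, k7]

/-- the two volume facts -/
theorem nv {F : Flow M} (hB : Base F) (hC : CONE F) (hH : HDEC F) (hD : DIST F) (hV : VOLN F) :
    NV F.hc := fun _ hε => by
  obtain ⟨θ, v, h0, h1, hv, hL⟩ := nvLo hB hC hH hD hV hε
  have := om_pos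
  exact ⟨θ, (om / 2 + v) / 2, v, h0, h1, by linarith, by linarith, hL,
    nvUp hB hC hD hε h0 h1 (by linarith)⟩

end Crest.Agent.N207.T

end
end

-- ▼ part N207/T/TopB

/-!
# Row 207 (helper36): block TOP, the leaves put together
-/

set_option autoImplicit false
set_option linter.unusedSectionVars false

open scoped ContDiff Manifold Topology
open Set MeasureTheory Filter

noncomputable section

namespace Crest.Agent.N207.T

open Sk

variable {M : Type*} [TopologicalSpace M] [ChartedSpace E4 M] [IsManifold 𝓘(ℝ, E4) ∞ M]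
  [T3Space M] [ConnectedSpace M] [MeasurableSpace M] [BorelSpace M] [CompactSpace M] {F : Flow M}

/-- block TOP -/
theorem topB (hB : Base F) (hC : CONE F) : TOP F := by
  have hH := H.hdec hB
  have hD := distN hB
  have hS := sw hD
  have hN := npers hB (pers F) curv
  have hE := cen hS (she curv)
  have hZ := trkz hB.ok hB.c hB.d hB.pers hB.e.reg (nv hB hC hH hD (voln hB)) (clB hB.ok)
    (ctx hB.ok hB.c hB.pers hB.e.reg (tr2 hB.ok hB.c hB.d))
  exact top_of (wd hB (sing hB) hS (cmpl hS) hE (far hB hC hN) (gnl hB hH hN) (res hB)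
    (fin' hB (TR.glue M) hN) (stat hB hZ hE hS (pers F)) (TR.glue M)) (asm (mii hB))

end Crest.Agent.N207.T

end
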